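import Crest.Prelude.Def_CubeNoise

set_option autoImplicit false

namespace Crest.Agent.H28

open Real Set

/-- inverse hyperbolic tangent, as a half difference of logarithms -/
noncomputable def th (x : ℝ) : ℝ := (log (1 + x) - log (1 - x)) / 2

/-- `log 2` minus the sign entropy -/
noncomputable def psi (x : ℝ) : ℝ := ((1 + x) * log (1 + x) + (1 - x) * log (1 - x)) / 2

/-- sign entropy on `[-1,1]` -/
noncomputable def hh (x : ℝ) : ℝ := log 2 - psi x

/-! ### generic calculus helpers -/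

lemma mono_of_deriv_Ico {f f' : ℝ → ℝ} {a b : ℝ} (hc : ContinuousOn f (Ico a b))
    (hf : ∀ x ∈ Ioo a b, HasDerivAt f (f' x) x) (h' : ∀ x ∈ Ioo a b, 0 ≤ f' x) :
    MonotoneOn f (Ico a b) := by
  apply monotoneOn_of_deriv_nonneg (convex_Ico a b) hc
  · intro x hx
    rw [interior_Ico] at hx
    exact (hf x hx).differentiableAt.differentiableWithinAt
  · intro x hx
    rw [interior_Ico] at hx
    rw [(hf x hx).deriv]
    exact h' x hx

lemma le_of_deriv_Ico {f f' : ℝ → ℝ} {a b : ℝ} (hc : ContinuousOn f (Ico a b))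
    (hf : ∀ x ∈ Ioo a b, HasDerivAt f (f' x) x) (h' : ∀ x ∈ Ioo a b, 0 ≤ f' x)
    {x : ℝ} (hx : x ∈ Ico a b) : f a ≤ f x :=
  mono_of_deriv_Ico hc hf h' ⟨le_refl a, lt_of_le_of_lt hx.1 hx.2⟩ hx hx.1

/-! ### basic facts on `th` and `psi` -/

lemma th_eq_artanh {x : ℝ} (h1 : -1 < x) (h2 : x < 1) : Real.artanh x = th x := by
  rw [Real.artanh_eq_half_log ⟨h1.le, h2.le⟩, log_div (by linarith) (by linarith)]
  unfold th; ring

lemma th_zero : th 0 = 0 := by simp [th]
lemma psi_zero : psi 0 = 0 := by simp [psi]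

lemma th_neg (x : ℝ) : th (-x) = - th x := by
  unfold th; rw [← sub_eq_add_neg, sub_neg_eq_add]; ring

lemma psi_neg (x : ℝ) : psi (-x) = psi x := by
  unfold psi; rw [← sub_eq_add_neg, sub_neg_eq_add]; ring

lemma hh_neg (x : ℝ) : hh (-x) = hh x := by unfold hh; rw [psi_neg]

lemma psi_one : psi 1 = log 2 := by
  unfold psi; norm_num

lemma hh_one : hh 1 = 0 := by unfold hh; rw [psi_one]; ring

lemma signEntropy_eq {x : ℝ} (h1 : -1 ≤ x) (h2 : x ≤ 1) :
    Crest.CubeNoise.signEntropy x = hh x := by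
  unfold Crest.CubeNoise.signEntropy hh psi
  rw [Real.binEntropy_eq_negMulLog_add_negMulLog_one_sub]
  unfold negMulLog
  have e1 : (1 : ℝ) - (1 + x) / 2 = (1 - x) / 2 := by ring
  rw [e1]
  rcases eq_or_lt_of_le h1 with h1 | h1
  · subst h1; norm_num
  rcases eq_or_lt_of_le h2 with h2 | h2
  · subst h2; norm_num
  rw [log_div (by linarith) (by norm_num), log_div (by linarith) (by norm_num)]
  ring

lemma psi_eq {x : ℝ} (h1 : -1 < x) (h2 : x < 1) : psi x = x * th x + log (1 - x ^ 2) / 2 := by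
  unfold psi th
  have : (1 : ℝ) - x ^ 2 = (1 + x) * (1 - x) := by ring
  rw [this, log_mul (by linarith) (by linarith)]
  ring

lemma hasDerivAt_th {x : ℝ} (h1 : -1 < x) (h2 : x < 1) : HasDerivAt th (1 / (1 - x ^ 2)) x := by
  have e1 : HasDerivAt (fun x : ℝ => log (1 + x)) (1 / (1 + x)) x := by
    have := ((hasDerivAt_id x).const_add 1).log (by simp; linarith)
    simpa using this
  have e2 : HasDerivAt (fun x : ℝ => log (1 - x)) (-1 / (1 - x)) x := by
    have := ((hasDerivAt_id x).const_sub 1).log (by simp; linarith)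
    simpa using this
  refine ((e1.fun_sub e2).div_const 2).congr_deriv ?_
  have a1 : (1 + x) ≠ 0 := by linarith
  have a2 : (1 - x) ≠ 0 := by linarith
  have a4 : (1 : ℝ) - x ^ 2 = (1 + x) * (1 - x) := by ring
  rw [a4]
  have e5 : (1 / (1 + x) - -1 / (1 - x)) = 2 / ((1 + x) * (1 - x)) := by
    rw [div_sub_div _ _ a1 a2]; congr 1; ring
  rw [e5]; ring

lemma hasDerivAt_psi {x : ℝ} (h1 : -1 < x) (h2 : x < 1) : HasDerivAt psi (th x) x := by
  have e1 : HasDerivAt (fun x : ℝ => log (1 + x)) (1 / (1 + x)) x := by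
    have := ((hasDerivAt_id x).const_add 1).log (by simp; linarith)
    simpa using this
  have e2 : HasDerivAt (fun x : ℝ => log (1 - x)) (-1 / (1 - x)) x := by
    have := ((hasDerivAt_id x).const_sub 1).log (by simp; linarith)
    simpa using this
  have e3 := (((hasDerivAt_id x).const_add 1).fun_mul e1)
  have e4 := (((hasDerivAt_id x).const_sub 1).fun_mul e2)
  refine ((e3.fun_add e4).div_const 2).congr_deriv ?_
  unfold th
  have a1 : (1 + x) ≠ 0 := by linarith
  have a2 : (1 - x) ≠ 0 := by linarith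
  have b1 : (1 + x) * (1 / (1 + x)) = 1 := by rw [mul_one_div, div_self a1]
  have b2 : (1 - x) * (-1 / (1 - x)) = -1 := by rw [mul_div_assoc', mul_neg_one, neg_div, div_self a2]
  simp only [id]
  rw [b1, b2]
  ring

lemma hasDerivAt_hh {x : ℝ} (h1 : -1 < x) (h2 : x < 1) : HasDerivAt hh (- th x) x := by
  have := (hasDerivAt_psi h1 h2).const_sub (log 2)
  exact this

lemma continuous_psi : Continuous psi := by
  have h : Continuous (fun x : ℝ => x * log x) := continuous_mul_log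
  have h1 : Continuous (fun x : ℝ => (1 + x) * log (1 + x)) := h.comp (by fun_prop : Continuous fun x : ℝ => 1 + x)
  have h2 : Continuous (fun x : ℝ => (1 - x) * log (1 - x)) := h.comp (by fun_prop : Continuous fun x : ℝ => 1 - x)
  exact (h1.add h2).div_const 2

lemma continuous_hh : Continuous hh := continuous_const.sub continuous_psi

lemma continuousOn_th : ContinuousOn th (Ioo (-1) 1) := fun x hx =>
  (hasDerivAt_th hx.1 hx.2).continuousAt.continuousWithinAt

lemma one_sub_sq_pos {x : ℝ} (h1 : -1 < x) (h2 : x < 1) : 0 < 1 - x ^ 2 := by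
  nlinarith

lemma th_strictMonoOn : StrictMonoOn th (Ioo (-1) 1) := by
  apply strictMonoOn_of_deriv_pos (convex_Ioo _ _) continuousOn_th
  intro x hx
  rw [interior_Ioo] at hx
  rw [(hasDerivAt_th hx.1 hx.2).deriv]
  have := one_sub_sq_pos hx.1 hx.2
  positivity

lemma th_mono {x y : ℝ} (hx : -1 < x) (hy : y < 1) (h : x ≤ y) : th x ≤ th y :=
  th_strictMonoOn.monotoneOn ⟨hx, lt_of_le_of_lt h hy⟩ ⟨lt_of_lt_of_le hx h, hy⟩ h

lemma th_lt {x y : ℝ} (hx : -1 < x) (hy : y < 1) (h : x < y) : th x < th y :=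
  th_strictMonoOn ⟨hx, h.trans hy⟩ ⟨hx.trans h, hy⟩ h

lemma th_pos {x : ℝ} (h0 : 0 < x) (h1 : x < 1) : 0 < th x := by
  rw [← th_zero]; exact th_lt (by norm_num) h1 h0

lemma th_nonneg {x : ℝ} (h0 : 0 ≤ x) (h1 : x < 1) : 0 ≤ th x := by
  rw [← th_zero]; exact th_mono (by norm_num) h1 h0

/-- `x ≤ th x` -/
lemma le_th {x : ℝ} (h0 : 0 ≤ x) (h1 : x < 1) : x ≤ th x := by
  have := le_of_deriv_Ico (f := fun x => th x - x) (f' := fun x => 1 / (1 - x ^ 2) - 1) (a := 0) (b := 1)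
    (fun y hy => (((hasDerivAt_th (by linarith [hy.1]) hy.2).sub (hasDerivAt_id y)).continuousAt).continuousWithinAt)
    (fun y hy => (hasDerivAt_th (by linarith [hy.1]) hy.2).sub (hasDerivAt_id y))
    (fun y hy => by
      have h := one_sub_sq_pos (by linarith [hy.1] : -1 < y) hy.2
      rw [sub_nonneg, le_div_iff₀ h]; nlinarith [sq_nonneg y]) ⟨h0, h1⟩
  simp only [th_zero] at this
  linarith

/-- `th x ≤ x / (1 - x^2)` -/
lemma th_le {x : ℝ} (h0 : 0 ≤ x) (h1 : x < 1) : th x ≤ x / (1 - x ^ 2) := by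
  have key : ∀ y ∈ Ico (0:ℝ) 1, HasDerivAt (fun x => x / (1 - x ^ 2) - th x)
      ((1 * (1 - y ^ 2) - y * (-(2 * y))) / (1 - y ^ 2) ^ 2 - 1 / (1 - y ^ 2)) y := by
    intro y hy
    have h := one_sub_sq_pos (by linarith [hy.1] : -1 < y) hy.2
    have e1 : HasDerivAt (fun x : ℝ => 1 - x ^ 2) (-(2 * y)) y := by
      have := ((hasDerivAt_id y).pow 2).const_sub 1
      simpa using this
    exact ((hasDerivAt_id y).div e1 h.ne').sub (hasDerivAt_th (by linarith [hy.1]) hy.2)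
  have := le_of_deriv_Ico (f := fun x => x / (1 - x ^ 2) - th x) (a := 0) (b := 1)
    (f' := fun y => (1 * (1 - y ^ 2) - y * (-(2 * y))) / (1 - y ^ 2) ^ 2 - 1 / (1 - y ^ 2))
    (fun y hy => (key y hy).continuousAt.continuousWithinAt)
    (fun y hy => key y ⟨hy.1.le, hy.2⟩)
    (fun y hy => by
      have h := one_sub_sq_pos (by linarith [hy.1] : -1 < y) hy.2
      rw [sub_nonneg, div_le_div_iff₀ h (by positivity)]
      nlinarith [mul_nonneg (sq_nonneg y) h.le]) ⟨h0, h1⟩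
  simp only [th_zero] at this
  linarith

lemma psi_monotoneOn : StrictMonoOn psi (Ico 0 1) := by
  apply strictMonoOn_of_deriv_pos (convex_Ico _ _) continuous_psi.continuousOn
  intro x hx
  rw [interior_Ico] at hx
  rw [(hasDerivAt_psi (by linarith [hx.1]) hx.2).deriv]
  exact th_pos hx.1 hx.2

lemma psi_mono {x y : ℝ} (hx : 0 ≤ x) (hy : y < 1) (h : x ≤ y) : psi x ≤ psi y :=
  psi_monotoneOn.monotoneOn ⟨hx, lt_of_le_of_lt h hy⟩ ⟨hx.trans h, hy⟩ h

lemma psi_lt {x y : ℝ} (hx : 0 ≤ x) (hy : y < 1) (h : x < y) : psi x < psi y :=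
  psi_monotoneOn ⟨hx, h.trans hy⟩ ⟨(hx.trans_lt h).le, hy⟩ h

lemma psi_nonneg {x : ℝ} (h0 : 0 ≤ x) (h1 : x < 1) : 0 ≤ psi x := by
  rw [← psi_zero]; exact psi_mono le_rfl h1 h0

lemma psi_strictMonoOn_Icc : StrictMonoOn psi (Icc 0 1) := by
  apply strictMonoOn_of_deriv_pos (convex_Icc _ _) continuous_psi.continuousOn
  intro x hx
  rw [interior_Icc] at hx
  rw [(hasDerivAt_psi (by linarith [hx.1]) hx.2).deriv]
  exact th_pos hx.1 hx.2

lemma psi_lt_log_two {x : ℝ} (h0 : 0 ≤ x) (h1 : x < 1) : psi x < log 2 := by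
  rw [← psi_one]; exact psi_strictMonoOn_Icc ⟨h0, h1.le⟩ ⟨by norm_num, le_rfl⟩ h1

lemma hh_pos {x : ℝ} (h0 : -1 < x) (h1 : x < 1) : 0 < hh x := by
  unfold hh
  rcases le_total 0 x with h | h
  · linarith [psi_lt_log_two h h1]
  · rw [← psi_neg]; linarith [psi_lt_log_two (by linarith : 0 ≤ -x) (by linarith)]

/-- `x^2/2 ≤ psi x` -/
lemma sq_le_psi {x : ℝ} (h0 : 0 ≤ x) (h1 : x < 1) : x ^ 2 / 2 ≤ psi x := by
  have key : ∀ y ∈ Ico (0:ℝ) 1, HasDerivAt (fun x => psi x - x ^ 2 / 2) (th y - y) y := by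
    intro y hy
    have e1 : HasDerivAt (fun x : ℝ => x ^ 2 / 2) y y := by
      have := ((hasDerivAt_id y).pow 2).div_const 2
      simpa using this
    exact (hasDerivAt_psi (by linarith [hy.1]) hy.2).sub e1
  have := le_of_deriv_Ico (f := fun x => psi x - x ^ 2 / 2) (a := 0) (b := 1)
    (f' := fun y => th y - y)
    (fun y hy => (key y hy).continuousAt.continuousWithinAt)
    (fun y hy => key y ⟨hy.1.le, hy.2⟩)
    (fun y hy => sub_nonneg.2 (le_th hy.1.le hy.2)) ⟨h0, h1⟩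
  simp only [psi_zero] at this
  linarith

end Crest.Agent.H28
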