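import Crest.Agent.H28.Basic

set_option autoImplicit false

namespace Crest.Agent.H28

open Real Set

/-- `2 log (1+ε) ≥ 4ε/(2+ε)` -/
lemma two_log_ge {e : ℝ} (h0 : 0 ≤ e) : 4 * e / (2 + e) ≤ 2 * log (1 + e) := by
  have key : MonotoneOn (fun u : ℝ => log (1 + u) - 2 * u / (2 + u)) (Ici 0) := by
    have hd : ∀ u : ℝ, 0 ≤ u → HasDerivAt (fun u : ℝ => log (1 + u) - 2 * u / (2 + u))
        (u ^ 2 / ((1 + u) * (2 + u) ^ 2)) u := by
      intro u hu
      have h1 : (1:ℝ) + u ≠ 0 := by positivity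
      have h2 : (2:ℝ) + u ≠ 0 := by positivity
      have e1 := (((hasDerivAt_id u).const_add 1).log h1).fun_sub
        (((hasDerivAt_id u).const_mul 2).fun_div ((hasDerivAt_id u).const_add 2) h2)
      refine e1.congr_deriv ?_
      simp only [id]
      field_simp
      ring
    apply monotoneOn_of_deriv_nonneg (convex_Ici _)
    · exact fun u hu => (hd u hu).continuousAt.continuousWithinAt
    · intro u hu
      rw [interior_Ici] at hu
      exact (hd u (le_of_lt hu)).differentiableAt.differentiableWithinAt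
    · intro u hu
      rw [interior_Ici] at hu
      have hu' : 0 < u := hu
      rw [(hd u hu'.le).deriv]
      positivity
  have := key (mem_Ici.2 le_rfl) (mem_Ici.2 h0) h0
  simp at this
  have e2 : 4 * e / (2 + e) = 2 * (2 * e / (2 + e)) := by ring
  rw [e2]
  linarith

/-- positivity of `Q` -/
lemma Qpos {e t : ℝ} (h0 : 0 < e) (h1 : e ≤ 1) (ht : (1 + e) ^ 2 ≤ exp t) :
    0 ≤ 2 * t - 1 - e ^ 2 + (1 - e ^ 2) ^ 2 * exp (-t) := by
  have ht2 : 2 * log (1 + e) ≤ t := by
    have := Real.log_le_log (by positivity) ht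
    rw [Real.log_exp, Real.log_pow] at this
    push_cast at this
    exact this
  have ht3 : 4 * e / (2 + e) ≤ t := (two_log_ge h0.le).trans ht2
  have hexp : 1 - t ≤ exp (-t) := by have := Real.add_one_le_exp (-t); linarith
  have h4 : 4 * e ≤ t * (2 + e) := by rwa [div_le_iff₀ (by positivity)] at ht3
  have h5 : e ^ 2 * (3 - e ^ 2) ≤ t * (1 + 2 * e ^ 2 - e ^ 4) := by
    have he4 : e ^ 4 ≤ 1 := pow_le_one₀ h0.le h1
    have hp : 0 < 1 + 2 * e ^ 2 - e ^ 4 := by nlinarith [sq_nonneg e, pow_pos h0 2]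
    have h6 : e ^ 2 * (3 - e ^ 2) * (2 + e) ≤ 4 * e * (1 + 2 * e ^ 2 - e ^ 4) := by
      have h7 : 0 ≤ 4 - 6 * e + 5 * e ^ 2 + 2 * e ^ 3 - 3 * e ^ 4 := by
        nlinarith [mul_nonneg h0.le (sub_nonneg.2 h1), sq_nonneg (e - 1), sq_nonneg e,
          mul_nonneg (mul_nonneg h0.le h0.le) (sub_nonneg.2 h1),
          mul_nonneg (pow_nonneg h0.le 3) (sub_nonneg.2 h1)]
      nlinarith [mul_nonneg h0.le h7]
    have h8 : 4 * e * (1 + 2 * e ^ 2 - e ^ 4) ≤ t * (2 + e) * (1 + 2 * e ^ 2 - e ^ 4) :=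
      mul_le_mul_of_nonneg_right h4 hp.le
    have h9 : e ^ 2 * (3 - e ^ 2) * (2 + e) ≤ t * (1 + 2 * e ^ 2 - e ^ 4) * (2 + e) := by linarith
    exact le_of_mul_le_mul_right h9 (by positivity)
  have h10 : (1 - e ^ 2) ^ 2 * (1 - t) ≤ (1 - e ^ 2) ^ 2 * exp (-t) :=
    mul_le_mul_of_nonneg_left hexp (by positivity)
  nlinarith

/-- `y₀ = 2τ sinh τ - 2 cosh τ + 2 ≥ τ²` -/
lemma y0_ge {t : ℝ} (h0 : 0 ≤ t) : t ^ 2 ≤ t * (exp t - exp (-t)) - (exp t + exp (-t)) + 2 := by
  have key : MonotoneOn (fun u : ℝ => u * (exp u - exp (-u)) - (exp u + exp (-u)) + 2 - u ^ 2)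
      (Ici 0) := by
    have hd : ∀ u : ℝ, HasDerivAt
        (fun u : ℝ => u * (exp u - exp (-u)) - (exp u + exp (-u)) + 2 - u ^ 2)
        (u * (exp u + exp (-u) - 2)) u := by
      intro u
      have hn : HasDerivAt (fun u : ℝ => exp (-u)) (-exp (-u)) u := by
        have := (Real.hasDerivAt_exp (-u)).comp u (hasDerivAt_neg u)
        refine this.congr_deriv ?_
        ring
      have e1 := ((((hasDerivAt_id u).fun_mul ((Real.hasDerivAt_exp u).fun_sub hn)).fun_sub
        ((Real.hasDerivAt_exp u).fun_add hn)).add_const 2).fun_sub ((hasDerivAt_id u).fun_pow 2)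
      refine e1.congr_deriv ?_
      simp only [id]
      push_cast
      ring
    apply monotoneOn_of_deriv_nonneg (convex_Ici _)
    · exact fun u hu => (hd u).continuousAt.continuousWithinAt
    · exact fun u hu => (hd u).differentiableAt.differentiableWithinAt
    · intro u hu
      rw [interior_Ici] at hu
      have hu' : 0 < u := hu
      rw [(hd u).deriv]
      have h1 := Real.add_one_le_exp u
      have h3 : exp u * exp (-u) = 1 := by rw [← Real.exp_add]; simp
      have h4 := Real.exp_pos u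
      have h5 := Real.exp_pos (-u)
      have : 0 ≤ exp u + exp (-u) - 2 := by nlinarith [sq_nonneg (exp u - exp (-u))]
      positivity
  have := key (mem_Ici.2 le_rfl) (mem_Ici.2 h0) h0
  simp at this
  linarith

lemma exp_half_lt : exp (1 / 2) < 1.64873 := by
  have h := Real.exp_one_lt_d9
  have h2 : exp (1 / 2) ^ 2 = exp 1 := by
    rw [← Real.exp_nat_mul]; norm_num
  have h3 := Real.exp_pos (1 / 2)
  nlinarith

/-- convexity bound `exp (t/2) ≤ 1 + (√e - 1) t` on `[0,1]` -/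
lemma exp_half_le {t : ℝ} (h0 : 0 ≤ t) (h1 : t ≤ 1) : exp (t / 2) ≤ 1 + 0.64873 * t := by
  have h := convexOn_exp.2 (mem_univ 0) (mem_univ (1 / 2 : ℝ)) (by linarith : 0 ≤ 1 - t) h0
    (by ring)
  simp only [smul_eq_mul, mul_zero, zero_add, Real.exp_zero, mul_one] at h
  have e : t * (1 / 2) = t / 2 := by ring
  rw [e] at h
  have := exp_half_lt
  nlinarith

/-- the polynomial `F` -/
noncomputable def FF (t z : ℝ) : ℝ :=
  t * (t * (exp t - exp (-t)) - (exp t + exp (-t)) + 2)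
  + (2 * t ^ 2 * exp (-t) - (t * (exp t - exp (-t)) - (exp t + exp (-t)) + 2)) * z
  + (2 * t - 2 - exp (-t) * (t ^ 2 - t + 2)) * z ^ 2 + (1 - t) * exp (-t) * z ^ 3

lemma FFpos {e t : ℝ} (h0 : 0 < e) (h1 : e < 1) (ht : (1 + e) ^ 2 ≤ exp t) :
    0 < FF t (e ^ 2) := by
  unfold FF
  have ht0 : 0 < t := by
    have : 1 < exp t := by nlinarith
    exact (Real.one_lt_exp_iff).1 this
  have hy := y0_ge ht0.le
  set y := t * (exp t - exp (-t)) - (exp t + exp (-t)) + 2 with hyd
  set E := exp (-t) with hE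
  have hE0 : 0 < E := Real.exp_pos _
  have hE1 : E ≤ 1 := by rw [hE]; exact Real.exp_le_one_iff.2 (by linarith)
  have hz0 : 0 < e ^ 2 := by positivity
  have hz1 : e ^ 2 < 1 := by nlinarith
  set z := e ^ 2 with hz
  have hy0 : 0 < y := lt_of_lt_of_le (by positivity) hy
  rcases le_total 1 t with h | h
  · -- case t ≥ 1
    have hd : t * y + (2 * t ^ 2 * E - y) * z + (2 * t - 2 - E * (t ^ 2 - t + 2)) * z ^ 2 +
        (1 - t) * E * z ^ 3 = (t - z) * y + z * (2 * t ^ 2 * E * (1 - z) +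
          z * ((t - 1) * (2 + E * (t + 1))) + (t - 1) * E * (z * (1 - z))) := by ring
    rw [hd]
    have k1 : 0 < (t - z) * y := mul_pos (by linarith) hy0
    have k2 : 0 ≤ 2 * t ^ 2 * E * (1 - z) := mul_nonneg (by positivity) (by linarith)
    have k3 : 0 ≤ z * ((t - 1) * (2 + E * (t + 1))) := by
      apply mul_nonneg hz0.le
      apply mul_nonneg (by linarith)
      positivity
    have k4 : 0 ≤ (t - 1) * E * (z * (1 - z)) := by
      apply mul_nonneg
      · exact mul_nonneg (by linarith) hE0.le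
      · exact mul_nonneg hz0.le (by linarith)
    have k5 : 0 ≤ z * (2 * t ^ 2 * E * (1 - z) +
          z * ((t - 1) * (2 + E * (t + 1))) + (t - 1) * E * (z * (1 - z))) := by positivity
    linarith
  · -- case t ≤ 1
    have he : e ≤ 0.64873 * t := by
      have h2 : 1 + e ≤ exp (t / 2) := by
        have h3 : exp (t / 2) ^ 2 = exp t := by
          rw [← Real.exp_nat_mul]; congr 1; push_cast; ring
        rw [← h3] at ht
        exact le_of_sq_le_sq ht (Real.exp_pos _).le
      linarith [exp_half_le ht0.le h]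
    have hzt : z ≤ 0.4209 * t ^ 2 := by
      rw [hz]; nlinarith
    have hzt2 : z ≤ t := by nlinarith
    have k1 : (t - z) * t ^ 2 ≤ (t - z) * y := mul_le_mul_of_nonneg_left hy (by linarith)
    have k2 : 0 ≤ (1 - t) * E * z ^ 3 :=
      mul_nonneg (mul_nonneg (by linarith) hE0.le) (by positivity)
    have k3 : (4 - 2 * t) * (z * z) ≤ (4 - 2 * t) * (z * (0.4209 * t ^ 2)) :=
      mul_le_mul_of_nonneg_left (mul_le_mul_of_nonneg_left hzt hz0.le) (by linarith)
    have k4 : E * (t ^ 2 - t + 2) ≤ 2 := by nlinarith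
    have k5 : E * (t ^ 2 - t + 2) * z ^ 2 ≤ 2 * z ^ 2 := mul_le_mul_of_nonneg_right k4 (by positivity)
    have k6 : 0 ≤ 2 * t ^ 2 * E * z := by positivity
    -- F ≥ (t-z)t² - (4-2t) z²
    have k7 : (t - z) * t ^ 2 - (4 - 2 * t) * z ^ 2 ≤
      t * y + (2 * t ^ 2 * E - y) * z + (2 * t - 2 - E * (t ^ 2 - t + 2)) * z ^ 2 +
        (1 - t) * E * z ^ 3 := by nlinarith
    have k8 : t ^ 2 * (t - z * (2.6836 - 0.8418 * t)) ≤ (t - z) * t ^ 2 - (4 - 2 * t) * z ^ 2 := by
      nlinarith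
    have k9 : 0 < t - z * (2.6836 - 0.8418 * t) := by
      have k10 : z * (2.6836 - 0.8418 * t) ≤ 0.4209 * t ^ 2 * (2.6836 - 0.8418 * t) :=
        mul_le_mul_of_nonneg_right hzt (by linarith)
      have k11 : 0.4209 * t * (2.6836 - 0.8418 * t) < 1 := by nlinarith
      nlinarith
    have k12 : 0 < t ^ 2 * (t - z * (2.6836 - 0.8418 * t)) := by positivity
    linarith

end Crest.Agent.H28
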