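import Crest.Agent.H28.Cert1

set_option autoImplicit false

namespace Crest.Agent.H28

open Real Set

/-- `ℓ = log (2 (cosh S + U))` -/
noncomputable def ell (S U : ℝ) : ℝ := log (2 * (cosh S + U))

/-- the function `P(S,U)` -/
noncomputable def PP (S U : ℝ) : ℝ := exp S * sinh S * (ell S U - S) - S

/-- the numerator `K` -/
noncomputable def KK (P S U : ℝ) : ℝ := (cosh S + U) * ell S U - S * sinh S + P * (U + exp (-S))

lemma CU_pos {S U : ℝ} (hU : 1 ≤ U) : 0 < cosh S + U := by
  have := Real.cosh_pos S; linarith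

lemma hasDerivAt_ell {U : ℝ} (hU : 1 ≤ U) (S : ℝ) :
    HasDerivAt (fun S => ell S U) (sinh S / (cosh S + U)) S := by
  have hp := CU_pos (S := S) hU
  have := (((Real.hasDerivAt_cosh S).add_const U).const_mul 2).log (by positivity)
  refine this.congr_deriv ?_
  field_simp

lemma hasDerivAt_exp_neg (S : ℝ) : HasDerivAt (fun S => exp (-S)) (-exp (-S)) S := by
  have := (Real.hasDerivAt_exp (-S)).comp S (hasDerivAt_neg S)
  refine this.congr_deriv ?_
  ring

lemma hasDerivAt_KK {U : ℝ} (hU : 1 ≤ U) (P S : ℝ) :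
    HasDerivAt (fun S => KK P S U) (exp (-S) * (PP S U - P)) S := by
  have hp := CU_pos (S := S) hU
  have e1 := ((((Real.hasDerivAt_cosh S).add_const U).fun_mul (hasDerivAt_ell hU S)).fun_sub
    ((hasDerivAt_id S).fun_mul (Real.hasDerivAt_sinh S))).fun_add
    (((hasDerivAt_exp_neg S).const_add U).const_mul P)
  refine e1.congr_deriv ?_
  simp only [id]
  unfold PP
  have h1 : exp (-S) * exp S = 1 := by rw [← Real.exp_add]; simp
  have h2 : exp (-S) * (exp S * sinh S * (ell S U - S) - S - P) =
      sinh S * (ell S U - S) - exp (-S) * (S + P) := by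
    have : exp (-S) * (exp S * sinh S * (ell S U - S) - S - P) =
      (exp (-S) * exp S) * sinh S * (ell S U - S) - exp (-S) * (S + P) := by ring
    rw [this, h1]; ring
  rw [h2]
  have h3 : exp (-S) = cosh S - sinh S := by rw [Real.cosh_sub_sinh]
  rw [h3]
  field_simp
  ring

/-- `e^τ = 2 (C+U) e^{-S}` -/
lemma exp_ell_sub {S U : ℝ} (hU : 1 ≤ U) :
    exp (ell S U - S) = 1 + exp (-S) ^ 2 + 2 * U * exp (-S) := by
  have hp := CU_pos (S := S) hU
  unfold ell
  rw [Real.exp_sub, Real.exp_log (by positivity), div_eq_mul_inv, ← Real.exp_neg, Real.cosh_eq]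
  have h1 : exp (-S) * exp S = 1 := by rw [← Real.exp_add]; simp
  linear_combination h1

lemma hasDerivAt_PP {U : ℝ} (hU : 1 ≤ U) (S : ℝ) :
    HasDerivAt (fun S => PP S U)
      (exp S ^ 2 / 2 * (2 * (ell S U - S) - 1 - exp (-S) ^ 2 +
        (1 - exp (-S) ^ 2) ^ 2 * exp (-(ell S U - S)))) S := by
  have hp := CU_pos (S := S) hU
  have e1 := ((((Real.hasDerivAt_exp S).fun_mul (Real.hasDerivAt_sinh S)).fun_mul
    ((hasDerivAt_ell hU S).fun_sub (hasDerivAt_id S))).fun_sub (hasDerivAt_id S))
  refine e1.congr_deriv ?_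
  simp only [id]
  have h0 : exp (-(ell S U - S)) = exp S / (2 * (cosh S + U)) := by
    unfold ell
    rw [neg_sub, Real.exp_sub, Real.exp_log (by positivity)]
  rw [h0]
  have hs := Real.exp_pos S
  have h1 : exp (-S) = (exp S)⁻¹ := Real.exp_neg S
  have hp' : 0 < (exp S + (exp S)⁻¹) / 2 + U := by
    rw [← h1, ← Real.cosh_eq]; exact hp
  rw [Real.cosh_eq, Real.sinh_eq, h1]
  generalize exp S = s at hs hp'
  generalize ell S U = l
  have h2 : s ^ 2 + 1 + 2 * U * s ≠ 0 := by
    have : s ^ 2 + 1 + 2 * U * s = 2 * s * ((s + s⁻¹) / 2 + U) := by field_simp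
    rw [this]; positivity
  have h3 : (s + s⁻¹) / 2 + U = (s ^ 2 + 1 + 2 * U * s) / (2 * s) := by field_simp
  rw [h3]
  field_simp
  ring

lemma PP_zero (U : ℝ) : PP 0 U = 0 := by unfold PP; simp

lemma PP_mono {U : ℝ} (hU : 1 ≤ U) : MonotoneOn (fun S => PP S U) (Ici 0) := by
  apply monotoneOn_of_deriv_nonneg (convex_Ici _)
  · exact fun S _ => (hasDerivAt_PP hU S).continuousAt.continuousWithinAt
  · exact fun S _ => (hasDerivAt_PP hU S).differentiableAt.differentiableWithinAt
  · intro S hS
    rw [interior_Ici] at hS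
    have hS' : 0 < S := hS
    rw [(hasDerivAt_PP hU S).deriv]
    apply mul_nonneg (by positivity)
    apply Qpos (Real.exp_pos _) (Real.exp_le_one_iff.2 (by linarith))
    rw [exp_ell_sub hU]
    have := Real.exp_pos (-S)
    nlinarith

lemma PP_nonneg {S U : ℝ} (hU : 1 ≤ U) (hS : 0 ≤ S) : 0 ≤ PP S U := by
  have := PP_mono hU (mem_Ici.2 le_rfl) (mem_Ici.2 hS) hS
  simp only [PP_zero] at this
  exact this

/-- strict monotonicity in `U` -/
lemma PP_lt {S U U' : ℝ} (hU : -1 < U) (hS : 0 < S) (h : U < U') : PP S U < PP S U' := by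
  unfold PP ell
  have h1 : 0 < exp S * sinh S := mul_pos (Real.exp_pos _) (Real.sinh_pos_iff.2 hS)
  have h2 : 0 < cosh S + U := by have := Real.one_le_cosh S; linarith
  have h3 : log (2 * (cosh S + U)) < log (2 * (cosh S + U')) :=
    Real.log_lt_log (by positivity) (by linarith)
  have := mul_lt_mul_of_pos_left h3 h1
  linarith

/-- minimality in `S` -/
lemma KK_min {U P Ss : ℝ} (hU : 1 ≤ U) (hSs : 0 ≤ Ss) (hP : PP Ss U = P) (hP0 : 0 ≤ P) (S : ℝ) :
    KK P Ss U ≤ KK P S U := by
  -- first for `S ≥ 0`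
  have h1 : ∀ S, 0 ≤ S → KK P Ss U ≤ KK P S U := by
    intro S hS
    rcases le_total Ss S with h | h
    · have : MonotoneOn (fun S => KK P S U) (Ici Ss) := by
        apply monotoneOn_of_deriv_nonneg (convex_Ici _)
        · exact fun S _ => (hasDerivAt_KK hU P S).continuousAt.continuousWithinAt
        · exact fun S _ => (hasDerivAt_KK hU P S).differentiableAt.differentiableWithinAt
        · intro u hu
          rw [interior_Ici] at hu
          have hu' : Ss < u := hu
          rw [(hasDerivAt_KK hU P u).deriv]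
          apply mul_nonneg (Real.exp_pos _).le
          have := PP_mono hU (mem_Ici.2 hSs) (mem_Ici.2 (hSs.trans hu'.le)) hu'.le
          simp only [hP] at this
          linarith
      exact this (mem_Ici.2 le_rfl) (mem_Ici.2 h) h
    · have : AntitoneOn (fun S => KK P S U) (Icc 0 Ss) := by
        apply antitoneOn_of_deriv_nonpos (convex_Icc _ _)
        · exact fun S _ => (hasDerivAt_KK hU P S).continuousAt.continuousWithinAt
        · exact fun S _ => (hasDerivAt_KK hU P S).differentiableAt.differentiableWithinAt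
        · intro u hu
          rw [interior_Icc] at hu
          rw [(hasDerivAt_KK hU P u).deriv]
          apply mul_nonpos_of_nonneg_of_nonpos (Real.exp_pos _).le
          have := PP_mono hU (mem_Ici.2 hu.1.le) (mem_Ici.2 hSs) hu.2.le
          simp only [hP] at this
          linarith
      exact this ⟨hS, h⟩ ⟨hSs, le_rfl⟩ h
  rcases le_total 0 S with h | h
  · exact h1 S h
  · have h2 := h1 (-S) (by linarith)
    have h3 : KK P (-S) U ≤ KK P S U := by
      unfold KK ell
      rw [Real.cosh_neg, Real.sinh_neg, neg_neg]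
      have : exp S ≤ exp (-S) := Real.exp_le_exp.2 (by linarith)
      have := mul_le_mul_of_nonneg_left this hP0
      nlinarith
    linarith

/-- existence of the critical `S` -/
lemma exists_Sstar {U P : ℝ} (hU : 1 ≤ U) (hP0 : 0 ≤ P) : ∃ Ss, 0 ≤ Ss ∧ PP Ss U = P := by
  have hcont : Continuous (fun S => PP S U) :=
    continuous_iff_continuousAt.2 fun S => (hasDerivAt_PP hU S).continuousAt
  have hM0 : (0:ℝ) ≤ 4 + P := by linarith
  have hbig : P ≤ PP (4 + P) U := by
    have ht : exp (-(4 + P)) ≤ ell (4 + P) U - (4 + P) := by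
      have h1 := exp_ell_sub (S := 4 + P) hU
      set e := exp (-(4 + P)) with he
      have he0 : 0 < e := Real.exp_pos _
      have he1 : e ≤ 1 := Real.exp_le_one_iff.2 (by linarith)
      have h2 : exp e ≤ exp (ell (4 + P) U - (4 + P)) := by
        rw [h1]
        have h3 : exp e ≤ 1 + e + e ^ 2 := by
          have := Real.abs_exp_sub_one_sub_id_le (x := e) (by rw [abs_of_pos he0]; exact he1)
          rw [abs_le] at this
          linarith [this.2]
        nlinarith
      exact Real.exp_le_exp.1 h2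
    have hs : 0 ≤ sinh (4 + P) := Real.sinh_nonneg_iff.2 hM0
    have h4 : sinh (4 + P) ≤ exp (4 + P) * sinh (4 + P) * (ell (4 + P) U - (4 + P)) := by
      calc sinh (4 + P) = exp (4 + P) * sinh (4 + P) * exp (-(4 + P)) := by
            have : exp (4 + P) * exp (-(4 + P)) = 1 := by rw [← Real.exp_add]; simp
            linear_combination (- sinh (4 + P)) * this
        _ ≤ _ := mul_le_mul_of_nonneg_left ht (mul_nonneg (Real.exp_pos _).le hs)
    have h5 : (4 + P) + P ≤ sinh (4 + P) := by
      rw [Real.sinh_eq]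
      have h6 := Real.quadratic_le_exp_of_nonneg hM0
      have h7 : exp (-(4 + P)) ≤ 1 := Real.exp_le_one_iff.2 (by linarith)
      nlinarith
    unfold PP
    linarith
  have := intermediate_value_Icc hM0 (hcont.continuousOn (s := Icc 0 (4 + P)))
  obtain ⟨Ss, hSs, h⟩ := this (show P ∈ Icc (PP 0 U) (PP (4 + P) U) from ⟨by rw [PP_zero]; exact hP0, hbig⟩)
  exact ⟨Ss, hSs.1, h⟩

end Crest.Agent.H28
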