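import Crest.Agent.H28.Cert2

set_option autoImplicit false

namespace Crest.Agent.H28

open Real Set

/-- the parametrised curve `P(S,U) = P`, `ε = e^{-S}`: `τ` -/
noncomputable def TT (P e : ℝ) : ℝ := 2 * e ^ 2 / (1 - e ^ 2) * (P - log e)

/-- the parametrised curve: `U` -/
noncomputable def UU (P e : ℝ) : ℝ := (exp (TT P e) - 1 - e ^ 2) / (2 * e)

/-- `μ` along the curve -/
noncomputable def mu (P e : ℝ) : ℝ :=
  (exp (TT P e) - 2 * (1 + e ^ 2) + (1 - e ^ 2) ^ 2 * exp (-(TT P e))) / (2 * TT P e)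

/-- `K` along the curve -/
noncomputable def Kc (P e : ℝ) : ℝ :=
  TT P e * ((1 + e ^ 2) * exp (TT P e) - (1 - e ^ 2) ^ 2) / (4 * e ^ 3)

lemma TT_pos {P e : ℝ} (hP : 0 < P) (h0 : 0 < e) (h1 : e < 1) : 0 < TT P e := by
  unfold TT
  have h2 : log e < 0 := Real.log_neg h0 h1
  have h3 : 0 < 1 - e ^ 2 := by nlinarith
  have h4 : 0 < P - log e := by linarith
  positivity

lemma hasDerivAt_TT {P e : ℝ} (h0 : 0 < e) (h1 : e < 1) :
    HasDerivAt (TT P) (2 * (TT P e - e ^ 2) / (e * (1 - e ^ 2))) e := by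
  have h3 : 0 < 1 - e ^ 2 := by nlinarith
  have e1 := (((((hasDerivAt_id e).fun_pow 2).const_mul 2).fun_div
    (((hasDerivAt_id e).fun_pow 2).const_sub 1) h3.ne')).fun_mul
    ((Real.hasDerivAt_log h0.ne').const_sub P)
  refine e1.congr_deriv ?_
  simp only [id]
  unfold TT
  push_cast
  field_simp
  ring

/-- the polynomial `Q` -/
noncomputable def QQ (t e : ℝ) : ℝ := 2 * t - 1 - e ^ 2 + (1 - e ^ 2) ^ 2 * exp (-t)

lemma hasDerivAt_UU {P e : ℝ} (h0 : 0 < e) (h1 : e < 1) :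
    HasDerivAt (UU P) (exp (TT P e) * QQ (TT P e) e / (2 * e ^ 2 * (1 - e ^ 2))) e := by
  have h3 : 0 < 1 - e ^ 2 := by nlinarith
  have e1 := (((((hasDerivAt_TT (P := P) h0 h1).exp).sub_const 1).fun_sub
    ((hasDerivAt_id e).fun_pow 2)).fun_div ((hasDerivAt_id e).const_mul 2) (by simpa using h0.ne'))
  refine e1.congr_deriv ?_
  simp only [id]
  unfold QQ
  have h4 : exp (TT P e) * exp (-(TT P e)) = 1 := by rw [← Real.exp_add]; simp
  have h5 : exp (TT P e) * (2 * TT P e - 1 - e ^ 2 + (1 - e ^ 2) ^ 2 * exp (-(TT P e))) =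
      exp (TT P e) * (2 * TT P e - 1 - e ^ 2) + (1 - e ^ 2) ^ 2 := by
    linear_combination (1 - e ^ 2) ^ 2 * h4
  rw [h5]
  push_cast
  field_simp
  ring

lemma hasDerivAt_mu {P e : ℝ} (hP : 0 < P) (h0 : 0 < e) (h1 : e < 1) :
    HasDerivAt (mu P) (FF (TT P e) (e ^ 2) / (TT P e ^ 2 * (e * (1 - e ^ 2)))) e := by
  have h3 : 0 < 1 - e ^ 2 := by nlinarith
  have hT := TT_pos hP h0 h1
  have dT := hasDerivAt_TT (P := P) h0 h1
  have e1 := (((dT.exp.fun_sub ((((hasDerivAt_id e).fun_pow 2).const_add 1).const_mul 2)).fun_add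
    (((((hasDerivAt_id e).fun_pow 2).const_sub 1).fun_pow 2).fun_mul dT.fun_neg.exp))).fun_div
    (dT.const_mul 2) (by positivity)
  refine e1.congr_deriv ?_
  simp only [id]
  unfold FF
  push_cast
  generalize exp (TT P e) = E
  generalize exp (-(TT P e)) = F
  field_simp
  ring

lemma hasDerivAt_Kc {P e : ℝ} (h0 : 0 < e) (h1 : e < 1) :
    HasDerivAt (Kc P)
      ((2 * (TT P e - e ^ 2) / (e * (1 - e ^ 2)) * ((1 + e ^ 2) * exp (TT P e) - (1 - e ^ 2) ^ 2)
        + TT P e * (2 * e * exp (TT P e) + (1 + e ^ 2) * exp (TT P e) *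
          (2 * (TT P e - e ^ 2) / (e * (1 - e ^ 2))) + 4 * e * (1 - e ^ 2))) / (4 * e ^ 3)
        - 3 * TT P e * ((1 + e ^ 2) * exp (TT P e) - (1 - e ^ 2) ^ 2) / (4 * e ^ 4)) e := by
  have h3 : 0 < 1 - e ^ 2 := by nlinarith
  have dT := hasDerivAt_TT (P := P) h0 h1
  have e1 := (dT.fun_mul (((((hasDerivAt_id e).fun_pow 2).const_add 1).fun_mul dT.exp).fun_sub
    ((((hasDerivAt_id e).fun_pow 2).const_sub 1).fun_pow 2))).fun_div
    (((hasDerivAt_id e).fun_pow 3).const_mul 4) (by simp; exact h0.ne')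
  refine e1.congr_deriv ?_
  simp only [id]
  push_cast
  generalize exp (TT P e) = E
  field_simp
  ring

lemma UU_ge_iff {P e c : ℝ} (h0 : 0 < e) :
    c < UU P e ↔ 1 + e ^ 2 + 2 * c * e < exp (TT P e) := by
  unfold UU
  rw [lt_div_iff₀ (by positivity)]
  constructor <;> intro h <;> linarith

lemma mu_eq {P e : ℝ} (hP : 0 < P) (h0 : 0 < e) (h1 : e < 1) :
    mu P e = 2 * e ^ 2 * (UU P e ^ 2 - 1) / (TT P e * exp (TT P e)) := by
  have hT := TT_pos hP h0 h1
  unfold mu UU
  rw [Real.exp_neg]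
  have := Real.exp_pos (TT P e)
  generalize exp (TT P e) = E at this
  field_simp
  ring

lemma mu_pos {P e : ℝ} (hP : 0 < P) (h0 : 0 < e) (h1 : e < 1) (hU : 1 < UU P e) :
    0 < mu P e := by
  rw [mu_eq hP h0 h1]
  have hT := TT_pos hP h0 h1
  have := Real.exp_pos (TT P e)
  have : 0 < UU P e ^ 2 - 1 := by nlinarith
  positivity

/-- the objective along the curve -/
noncomputable def Nc (P c e : ℝ) : ℝ := c * arcosh (UU P e) + Kc P e / √(UU P e ^ 2 - 1)

lemma hasDerivAt_Nc {P c e : ℝ} (hP : 0 < P) (h0 : 0 < e) (h1 : e < 1) (hU : 1 < UU P e) :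
    HasDerivAt (Nc P c) ((c + 1 - 1 / mu P e) *
      (exp (TT P e) * QQ (TT P e) e / (2 * e ^ 2 * (1 - e ^ 2))) / √(UU P e ^ 2 - 1)) e := by
  have hT := TT_pos hP h0 h1
  have h3 : 0 < 1 - e ^ 2 := by nlinarith
  have hE := Real.exp_pos (TT P e)
  have hW2 : 0 < UU P e ^ 2 - 1 := by nlinarith
  have hW : 0 < √(UU P e ^ 2 - 1) := Real.sqrt_pos.2 hW2
  have dU := hasDerivAt_UU (P := P) h0 h1
  have dA := (hasDerivAt_arcosh (x := UU P e) hU).comp e dU
  have dW := ((dU.fun_pow 2).sub_const 1).sqrt hW2.ne'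
  have dK := hasDerivAt_Kc (P := P) h0 h1
  have dN := (dA.const_mul c).fun_add (dK.fun_div dW hW.ne')
  refine dN.congr_deriv ?_
  simp only [Nat.cast_ofNat, Nat.add_one_sub_one, pow_one]
  rw [mu_eq hP h0 h1]
  -- key identity
  have hq : exp (TT P e) * QQ (TT P e) e =
      exp (TT P e) * (2 * TT P e - 1 - e ^ 2) + (1 - e ^ 2) ^ 2 := by
    unfold QQ
    have h4 : exp (TT P e) * exp (-(TT P e)) = 1 := by rw [← Real.exp_add]; simp
    linear_combination (1 - e ^ 2) ^ 2 * h4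
  have key : (((2 * (TT P e - e ^ 2) / (e * (1 - e ^ 2)) * ((1 + e ^ 2) * exp (TT P e) - (1 - e ^ 2) ^ 2)
        + TT P e * (2 * e * exp (TT P e) + (1 + e ^ 2) * exp (TT P e) *
          (2 * (TT P e - e ^ 2) / (e * (1 - e ^ 2))) + 4 * e * (1 - e ^ 2))) / (4 * e ^ 3)
        - 3 * TT P e * ((1 + e ^ 2) * exp (TT P e) - (1 - e ^ 2) ^ 2) / (4 * e ^ 4))) *
        (UU P e ^ 2 - 1) - Kc P e * UU P e *
          (exp (TT P e) * QQ (TT P e) e / (2 * e ^ 2 * (1 - e ^ 2))) =
      (UU P e ^ 2 - 1 - TT P e * exp (TT P e) / (2 * e ^ 2)) *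
        (exp (TT P e) * QQ (TT P e) e / (2 * e ^ 2 * (1 - e ^ 2))) := by
    rw [hq]
    unfold Kc UU
    generalize exp (TT P e) = E
    generalize TT P e = T
    field_simp
    ring
  set W := √(UU P e ^ 2 - 1) with hWd
  have hWW : W ^ 2 = UU P e ^ 2 - 1 := Real.sq_sqrt hW2.le
  rw [← hWW] at key ⊢
  generalize (((2 * (TT P e - e ^ 2) / (e * (1 - e ^ 2)) * ((1 + e ^ 2) * exp (TT P e) - (1 - e ^ 2) ^ 2)
        + TT P e * (2 * e * exp (TT P e) + (1 + e ^ 2) * exp (TT P e) *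
          (2 * (TT P e - e ^ 2) / (e * (1 - e ^ 2))) + 4 * e * (1 - e ^ 2))) / (4 * e ^ 3)
        - 3 * TT P e * ((1 + e ^ 2) * exp (TT P e) - (1 - e ^ 2) ^ 2) / (4 * e ^ 4))) = kp at *
  generalize (exp (TT P e) * QQ (TT P e) e / (2 * e ^ 2 * (1 - e ^ 2))) = up at *
  generalize Kc P e = k at *
  generalize UU P e = U at *
  generalize exp (TT P e) = E at *
  generalize TT P e = T at *
  clear_value W
  have key2 : (kp * W ^ 2 - k * U * up) = (W ^ 2 - T * E / (2 * e ^ 2)) * up := key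
  have g1 : c * (W⁻¹ * up) + (kp * W - k * (2 * U * up / (2 * W))) / W ^ 2 =
      (c * up * W ^ 2 + (kp * W ^ 2 - k * U * up)) / W ^ 3 := by
    field_simp
  rw [g1, key2]
  field_simp
  ring

/-- on the curve `PP (-log ε) (UU) = P` -/
lemma curve_rel {P e : ℝ} (h0 : 0 < e) (h1 : e < 1) :
    exp (-log e) * sinh (-log e) * TT P e - (-log e) = P := by
  rw [Real.sinh_eq, neg_neg, Real.exp_log h0, Real.exp_neg, Real.exp_log h0]
  unfold TT
  have h3 : 0 < 1 - e ^ 2 := by nlinarith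
  field_simp
  ring

lemma ell_curve {P e : ℝ} (h0 : 0 < e) :
    ell (-log e) (UU P e) = TT P e - log e := by
  unfold ell UU
  rw [Real.cosh_eq, neg_neg, Real.exp_log h0, Real.exp_neg, Real.exp_log h0]
  have : 2 * ((e⁻¹ + e) / 2 + (exp (TT P e) - 1 - e ^ 2) / (2 * e)) = exp (TT P e) / e := by
    field_simp
    ring
  rw [this, Real.log_div (Real.exp_pos _).ne' h0.ne', Real.log_exp]

lemma PP_curve {P e : ℝ} (h0 : 0 < e) (h1 : e < 1) : PP (-log e) (UU P e) = P := by
  have h := curve_rel (P := P) h0 h1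
  unfold PP
  rw [ell_curve h0]
  have : TT P e - log e - -log e = TT P e := by ring
  rw [this]
  exact h

lemma KK_curve {P e : ℝ} (h0 : 0 < e) (h1 : e < 1) : KK P (-log e) (UU P e) = Kc P e := by
  have h := curve_rel (P := P) h0 h1
  unfold KK
  rw [ell_curve h0, neg_neg, Real.exp_log h0]
  rw [Real.cosh_eq, Real.sinh_eq, neg_neg, Real.exp_log h0, Real.exp_neg, Real.exp_log h0]
  rw [Real.sinh_eq, neg_neg, Real.exp_log h0, Real.exp_neg, Real.exp_log h0] at h
  unfold UU Kc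
  have hP : P = e⁻¹ * ((e⁻¹ - e) / 2) * TT P e - -log e := h.symm
  generalize TT P e = T at *
  generalize exp T = E at *
  rw [hP]
  field_simp
  ring

/-- every solution lies on the curve -/
lemma of_PP {P S U : ℝ} (hU : 1 ≤ U) (hS : 0 < S) (h : PP S U = P) :
    TT P (exp (-S)) = ell S U - S ∧ UU P (exp (-S)) = U := by
  have e0 := Real.exp_pos (-S)
  have e1 : exp (-S) < 1 := Real.exp_lt_one_iff.2 (by linarith)
  have h3 : 0 < 1 - exp (-S) ^ 2 := by nlinarith
  have hT : TT P (exp (-S)) = ell S U - S := by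
    unfold TT
    rw [Real.log_exp, ← h]
    unfold PP
    rw [Real.sinh_eq]
    have he : exp S = (exp (-S))⁻¹ := by rw [← Real.exp_neg, neg_neg]
    rw [he]
    generalize exp (-S) = e at e0 e1 h3
    field_simp
    ring
  refine ⟨hT, ?_⟩
  unfold UU
  rw [hT, exp_ell_sub hU]
  field_simp
  ring

/-- the up-set property -/
lemma UU_gt_of_le {P ea e : ℝ} (ha0 : 0 < ea) (hle : ea ≤ e) (h1 : e < 1) (hU : 1 < UU P ea) :
    1 < UU P e := by
  by_contra hcon
  push Not at hcon
  have h0 : 0 < e := ha0.trans_le hle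
  have hT : exp (TT P e) ≤ (1 + e) ^ 2 := by
    unfold UU at hcon
    rw [div_le_one (by positivity)] at hcon
    linarith
  have hS : 0 < -log e := by have := Real.log_neg h0 h1; linarith
  have hSa : -log e ≤ -log ea := by have := Real.log_le_log ha0 hle; linarith
  -- T ≤ ell S 1 - S
  have hT2 : TT P e ≤ ell (-log e) 1 - (-log e) := by
    have := exp_ell_sub (S := -log e) (U := 1) le_rfl
    rw [neg_neg, Real.exp_log h0] at this
    have h2 : exp (TT P e) ≤ exp (ell (-log e) 1 - (-log e)) := by rw [this]; linarith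
    exact Real.exp_le_exp.1 h2
  have h4 : P ≤ PP (-log e) 1 := by
    have hc := curve_rel (P := P) h0 h1
    have hpos : 0 ≤ exp (-log e) * sinh (-log e) :=
      mul_nonneg (Real.exp_pos _).le (Real.sinh_nonneg_iff.2 hS.le)
    have := mul_le_mul_of_nonneg_left hT2 hpos
    unfold PP
    linarith
  have h5 : PP (-log e) 1 ≤ PP (-log ea) 1 :=
    PP_mono le_rfl (mem_Ici.2 hS.le) (mem_Ici.2 (hS.le.trans hSa)) hSa
  have h6 : PP (-log ea) 1 < PP (-log ea) (UU P ea) := PP_lt (by norm_num) (by linarith) hU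
  rw [PP_curve ha0 (by linarith)] at h6
  linarith

lemma QQ_nonneg_curve {P e : ℝ} (h0 : 0 < e) (h1 : e < 1) (hU : 1 < UU P e) :
    0 ≤ QQ (TT P e) e := by
  apply Qpos h0 h1.le
  have := (UU_ge_iff (c := 1) h0).1 hU
  linarith

lemma mu_mono {P e0 e1 : ℝ} (hP : 0 < P) (h0 : 0 < e0) (hle : e0 ≤ e1) (h1 : e1 < 1)
    (hU : 1 < UU P e0) : mu P e0 ≤ mu P e1 := by
  have hm : MonotoneOn (mu P) (Icc e0 e1) := by
    apply monotoneOn_of_deriv_nonneg (convex_Icc _ _)
    · intro e he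
      exact (hasDerivAt_mu hP (h0.trans_le he.1) (lt_of_le_of_lt he.2 h1)).continuousAt.continuousWithinAt
    · intro e he
      rw [interior_Icc] at he
      exact (hasDerivAt_mu hP (h0.trans he.1) (he.2.trans h1)).differentiableAt.differentiableWithinAt
    · intro e he
      rw [interior_Icc] at he
      have g0 := h0.trans he.1
      have g1 := he.2.trans h1
      rw [(hasDerivAt_mu hP g0 g1).deriv]
      have hT := TT_pos hP g0 g1
      have h3 : 0 < 1 - e ^ 2 := by nlinarith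
      have hUe := UU_gt_of_le h0 he.1.le g1 hU
      have := (UU_ge_iff (c := 1) g0).1 hUe
      have hF := FFpos (t := TT P e) g0 g1 (by linarith)
      positivity
  exact hm ⟨le_rfl, hle⟩ ⟨hle, le_rfl⟩ hle

/-- the curve minimum -/
lemma Nc_min {P e0 e1 : ℝ} (hP : 0 < P) (h00 : 0 < e0) (h01 : e0 < 1) (h10 : 0 < e1)
    (h11 : e1 < 1) (hU0 : 1 < UU P e0) (hU1 : 1 < UU P e1) :
    Nc P (1 / mu P e0 - 1) e0 ≤ Nc P (1 / mu P e0 - 1) e1 := by
  have hmu0 := mu_pos hP h00 h01 hU0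
  rcases le_total e0 e1 with h | h
  · have hm : MonotoneOn (Nc P (1 / mu P e0 - 1)) (Icc e0 e1) := by
      apply monotoneOn_of_deriv_nonneg (convex_Icc _ _)
      · intro e he
        have hUe := UU_gt_of_le h00 he.1 (lt_of_le_of_lt he.2 h11) hU0
        exact (hasDerivAt_Nc hP (h00.trans_le he.1) (lt_of_le_of_lt he.2 h11)
          hUe).continuousAt.continuousWithinAt
      · intro e he
        rw [interior_Icc] at he
        have hUe := UU_gt_of_le h00 he.1.le (he.2.trans h11) hU0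
        exact (hasDerivAt_Nc hP (h00.trans he.1) (he.2.trans h11)
          hUe).differentiableAt.differentiableWithinAt
      · intro e he
        rw [interior_Icc] at he
        have g0 := h00.trans he.1
        have g1 := he.2.trans h11
        have hUe := UU_gt_of_le h00 he.1.le g1 hU0
        rw [(hasDerivAt_Nc hP g0 g1 hUe).deriv]
        have hQ := QQ_nonneg_curve g0 g1 hUe
        have h3 : 0 < 1 - e ^ 2 := by nlinarith
        have hmm := mu_mono hP h00 he.1.le g1 hU0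
        have hc : 0 ≤ 1 / mu P e0 - 1 + 1 - 1 / mu P e := by
          have := one_div_le_one_div_of_le hmu0 hmm
          linarith
        positivity
    exact hm ⟨le_rfl, h⟩ ⟨h, le_rfl⟩ h
  · have hm : AntitoneOn (Nc P (1 / mu P e0 - 1)) (Icc e1 e0) := by
      apply antitoneOn_of_deriv_nonpos (convex_Icc _ _)
      · intro e he
        have hUe := UU_gt_of_le h10 he.1 (lt_of_le_of_lt he.2 h01) hU1
        exact (hasDerivAt_Nc hP (h10.trans_le he.1) (lt_of_le_of_lt he.2 h01)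
          hUe).continuousAt.continuousWithinAt
      · intro e he
        rw [interior_Icc] at he
        have hUe := UU_gt_of_le h10 he.1.le (he.2.trans h01) hU1
        exact (hasDerivAt_Nc hP (h10.trans he.1) (he.2.trans h01)
          hUe).differentiableAt.differentiableWithinAt
      · intro e he
        rw [interior_Icc] at he
        have g0 := h10.trans he.1
        have g1 := he.2.trans h01
        have hUe := UU_gt_of_le h10 he.1.le g1 hU1
        rw [(hasDerivAt_Nc hP g0 g1 hUe).deriv]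
        have hQ := QQ_nonneg_curve g0 g1 hUe
        have h3 : 0 < 1 - e ^ 2 := by nlinarith
        have hmm := mu_mono hP g0 he.2.le h01 hUe
        have hc : 1 / mu P e0 - 1 + 1 - 1 / mu P e ≤ 0 := by
          have := one_div_le_one_div_of_le (mu_pos hP g0 g1 hUe) hmm
          linarith
        apply div_nonpos_of_nonpos_of_nonneg _ (Real.sqrt_nonneg _)
        apply mul_nonpos_of_nonpos_of_nonneg hc
        positivity
    exact hm ⟨le_rfl, h⟩ ⟨h, le_rfl⟩ h

end Crest.Agent.H28
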