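import Crest.Agent.H28.Ray

set_option autoImplicit false

namespace Crest.Agent.H28

open Real Set

/-- the pair energy -/
noncomputable def ee (a b : ℝ) : ℝ := (a - b) * (th a - th b) / 4

lemma ee_eq {m δ : ℝ} (hm0 : -1 < m) (hm1 : m < 1) (hδ0 : 0 ≤ δ) (hδ1 : δ < 1 - m)
    (hδ2 : δ < 1 + m) :
    ee (m + δ) (m - δ) - 2 * I2 m δ =
      (1 - m) / 2 * Sr (δ / (1 - m)) + (1 + m) / 2 * Sr (δ / (1 + m)) := by
  rw [I2_eq hm0 hm1 hδ0 hδ1 hδ2]
  unfold Sr
  have a1 : (1:ℝ) - m ≠ 0 := by linarith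
  have a2 : (1:ℝ) + m ≠ 0 := by linarith
  have e1 : 1 + δ / (1 - m) = (1 - m + δ) / (1 - m) := by field_simp
  have e2 : 1 - δ / (1 - m) = (1 - m - δ) / (1 - m) := by field_simp
  have e3 : 1 + δ / (1 + m) = (1 + m + δ) / (1 + m) := by field_simp
  have e4 : 1 - δ / (1 + m) = (1 + m - δ) / (1 + m) := by field_simp
  have t1 : th (δ / (1 - m)) = (log (1 - m + δ) - log (1 - m - δ)) / 2 := by
    unfold th
    rw [e1, e2, log_div (by linarith) a1, log_div (by linarith) a1]; ring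
  have t2 : th (δ / (1 + m)) = (log (1 + m + δ) - log (1 + m - δ)) / 2 := by
    unfold th
    rw [e3, e4, log_div (by linarith) a2, log_div (by linarith) a2]; ring
  have t3 : th (m + δ) - th (m - δ) = th (δ / (1 - m)) + th (δ / (1 + m)) := by
    rw [t1, t2]
    unfold th
    have f1 : 1 + (m + δ) = 1 + m + δ := by ring
    have f2 : 1 - (m + δ) = 1 - m - δ := by ring
    have f3 : 1 + (m - δ) = 1 + m - δ := by ring
    have f4 : 1 - (m - δ) = 1 - m + δ := by ring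
    rw [f1, f2, f3, f4]
    ring
  unfold ee
  rw [t3]
  field_simp
  ring

variable {b : ℝ}

/-- the `n = 1` inequality (1) -/
lemma N1 (hb0 : 0 < b) (hb1 : b < 1) {m δ : ℝ} (hm0 : 0 ≤ m) (hδ0 : 0 ≤ δ) (hδ1 : δ < 1 - m) :
    SS b (I2 m δ) ≤ ee (m + δ) (m - δ) - 2 * I2 m δ := by
  have hm1 : m < 1 := by linarith
  rw [ee_eq (by linarith) hm1 hδ0 hδ1 (by linarith), I2_eq (by linarith) hm1 hδ0 hδ1 (by linarith)]
  have hx0 : 0 ≤ δ / (1 - m) := div_nonneg hδ0 (by linarith)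
  have hx1 : δ / (1 - m) < 1 := by rw [div_lt_one (by linarith)]; linarith
  have hy0 : 0 ≤ δ / (1 + m) := div_nonneg hδ0 (by linarith)
  have hy1 : δ / (1 + m) < 1 := by rw [div_lt_one (by linarith)]; linarith
  have hc := (SS_convex hb0 hb1).2 (mem_univ (psi (δ / (1 - m)))) (mem_univ (psi (δ / (1 + m))))
    (by linarith : 0 ≤ (1 - m) / 2) (by linarith : 0 ≤ (1 + m) / 2) (by ring)
  simp only [smul_eq_mul] at hc
  have h1 := mul_le_mul_of_nonneg_left (SS_psi_le hb0 hb1 hx0 hx1) (by linarith : 0 ≤ (1 - m) / 2)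
  have h2 := mul_le_mul_of_nonneg_left (SS_psi_le hb0 hb1 hy0 hy1) (by linarith : 0 ≤ (1 + m) / 2)
  linarith

lemma I2_nonneg {m δ : ℝ} (hm0 : 0 ≤ m) (hδ0 : 0 ≤ δ) (hδ1 : δ < 1 - m) : 0 ≤ I2 m δ := by
  rw [I2_eq (by linarith) (by linarith) hδ0 hδ1 (by linarith)]
  have hx0 : 0 ≤ δ / (1 - m) := div_nonneg hδ0 (by linarith)
  have hx1 : δ / (1 - m) < 1 := by rw [div_lt_one (by linarith)]; linarith
  have hy0 : 0 ≤ δ / (1 + m) := div_nonneg hδ0 (by linarith)
  have hy1 : δ / (1 + m) < 1 := by rw [div_lt_one (by linarith)]; linarith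
  have := psi_nonneg hx0 hx1
  have := psi_nonneg hy0 hy1
  have h1 : 0 ≤ (1 - m) / 2 := by linarith
  have h2 : 0 ≤ (1 + m) / 2 := by linarith
  positivity

/-- the polynomial inequality `(N*)` -/
lemma Nstar {m t j1 j2 L M : ℝ} (hm0 : 0 < m) (hm1 : m < 1) (hL0 : 0.6931 < L)
    (hj2 : (1 + m) ^ 2 * j2 ≤ (1 - m) ^ 2 * j1) (hj1 : j1 ≤ L) (hj20 : 0 ≤ j2)
    (hM : (L - 1 / 2) * (m ^ 2 * (1 - m ^ 2)) ≤ M)
    (ht : t * (1 - m ^ 2) = (1 - m) / 2 * j1 + (1 + m) / 2 * j2 - M)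
    (htj : (1 - m) / 2 * j1 + (1 + m) / 2 * j2 < t) :
    (1 + m) * j2 ≤ (1 - m) * t ∧
    2 * t * (t - ((1 - m) / 2 * j1 + (1 + m) / 2 * j2)) ≤ (1 + m) / 2 * (t - j2) ^ 2 := by
  set jb := (1 - m) / 2 * j1 + (1 + m) / 2 * j2 with hjb
  have hb1 : (1 + m) * j2 ≤ (1 - m) * jb := by
    rw [hjb]; nlinarith
  have hb2 : (1 + m) * j2 ≤ (1 - m) * t :=
    hb1.trans (mul_le_mul_of_nonneg_left htj.le (by linarith))
  refine ⟨hb2, ?_⟩
  have hj1n : 0 ≤ j1 := by
    have h0 : 0 ≤ (1 - m) ^ 2 * j1 := le_trans (by positivity) hj2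
    have : 0 < (1 - m) ^ 2 := by have : 0 < 1 - m := by linarith
                                 positivity
    exact nonneg_of_mul_nonneg_right h0 this
  have hm1' : 0 < 1 - m := by linarith
  have hjb0 : 0 ≤ jb := by rw [hjb]; positivity
  have ht0 : 0 < t := lt_of_le_of_lt hjb0 htj
  -- upper bound of jb : (1+m) jb ≤ (1-m) L
  have hjbL : (1 + m) * jb ≤ (1 - m) * L := by
    have : (1 + m) * jb ≤ (1 - m) * j1 := by rw [hjb]; nlinarith
    exact this.trans (mul_le_mul_of_nonneg_left hj1 hm1'.le)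
  -- t - jb = m² t - M
  have htm : t - jb = m ^ 2 * t - M := by linarith
  -- key : m³ t ≤ (1+m) M
  have hpoly : m * L * (1 - m) ≤ (L - 1 / 2) * (1 - m ^ 2) * (1 + m - m ^ 2) * (1 + m) := by
    have e1 : m * L ≤ (L - 1 / 2) * ((1 + m) ^ 2 * (1 + m - m ^ 2)) := by
      have p1 : 3.6 * m ≤ (1 + m) ^ 2 * (1 + m - m ^ 2) := by
        nlinarith [mul_pos hm0 hm0, mul_pos hm0 hm1', mul_pos (mul_pos hm0 hm0) hm1',
          mul_pos (mul_pos (mul_pos hm0 hm0) hm0) hm1']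
      have p2 : m * L ≤ (L - 1 / 2) * (3.6 * m) := by nlinarith
      exact p2.trans (mul_le_mul_of_nonneg_left p1 (by linarith))
    calc m * L * (1 - m) ≤ (L - 1 / 2) * ((1 + m) ^ 2 * (1 + m - m ^ 2)) * (1 - m) :=
          mul_le_mul_of_nonneg_right e1 hm1'.le
      _ = _ := by ring
  have hkey : m ^ 3 * t ≤ (1 + m) * M := by
    -- multiply by (1-m²)(1+m)
    have h1 : (1 + m) * (t * (1 - m ^ 2)) ≤ (1 - m) * L - (1 + m) * M := by
      rw [ht]; linarith
    have h2 : m ^ 3 * ((1 + m) * (t * (1 - m ^ 2))) ≤ m ^ 3 * ((1 - m) * L - (1 + m) * M) :=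
      mul_le_mul_of_nonneg_left h1 (by positivity)
    have h3 : m ^ 2 * (m * L * (1 - m)) ≤ M * ((1 + m - m ^ 2) * (1 + m)) := by
      calc m ^ 2 * (m * L * (1 - m)) ≤
          m ^ 2 * ((L - 1 / 2) * (1 - m ^ 2) * (1 + m - m ^ 2) * (1 + m)) :=
            mul_le_mul_of_nonneg_left hpoly (by positivity)
        _ = ((L - 1 / 2) * (m ^ 2 * (1 - m ^ 2))) * ((1 + m - m ^ 2) * (1 + m)) := by ring
        _ ≤ _ := mul_le_mul_of_nonneg_right hM (by nlinarith)
    have h4 : (m ^ 3 * t) * ((1 + m) * (1 - m ^ 2)) ≤ ((1 + m) * M) * ((1 + m) * (1 - m ^ 2)) := by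
      nlinarith
    have h5 : 0 < (1 + m) * (1 - m ^ 2) := by
      have : (1 + m) * (1 - m ^ 2) = (1 + m) ^ 2 * (1 - m) := by ring
      rw [this]; positivity
    exact le_of_mul_le_mul_right h4 h5
  -- t - j2 ≥ 2 m t/(1+m)
  have h6 : 2 * m * t ≤ (1 + m) * (t - j2) := by nlinarith
  have h7 : (2 * m * t) ^ 2 ≤ ((1 + m) * (t - j2)) ^ 2 := by
    apply pow_le_pow_left₀ (by positivity) h6
  rw [htm]
  have h8 : 2 * t * (m ^ 2 * t - M) * (2 * (1 + m)) ≤ (1 + m) / 2 * (t - j2) ^ 2 * (2 * (1 + m)) := by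
    have h9 : t * (m ^ 3 * t) ≤ t * ((1 + m) * M) := mul_le_mul_of_nonneg_left hkey ht0.le
    nlinarith
  exact le_of_mul_le_mul_right h8 (by positivity)

/-- the `n = 1` inequality (2) -/
lemma N2 (hb0 : 0 < b) (hb1 : b < 1) {m δ : ℝ} (hm0 : 0 ≤ m) (hδ0 : 0 ≤ δ) (hδ1 : δ < 1 - m) :
    tau b ((hh (m + δ) + hh (m - δ)) / 2) (1 - m ^ 2) ≤ ee (m + δ) (m - δ) - 2 * I2 m δ := by
  have hm1 : m < 1 := by linarith
  have hv : 0 < 1 - m ^ 2 := by nlinarith
  have hh0 : 0 < (hh (m + δ) + hh (m - δ)) / 2 := by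
    have := hh_pos (by linarith : -1 < m + δ) (by linarith)
    have := hh_pos (by linarith : -1 < m - δ) (by linarith)
    linarith
  unfold tau
  set hb := (hh (m + δ) + hh (m - δ)) / 2 with hhb
  have hI2 : I2 m δ = hh m - hb := rfl
  set t := log 2 - hb / (1 - m ^ 2) with ht
  rcases le_or_gt t (I2 m δ) with hle | hgt
  · have h1 := N1 hb0 hb1 hm0 hδ0 hδ1
    have h2 := SS_mono hb0 hb1 hle
    have h3 := SS_nonneg hb0 hb1 t
    have h4 : (1 - m ^ 2) * SS b t ≤ SS b t := by nlinarith [mul_nonneg (sq_nonneg m) h3]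
    linarith
  · have hI0 := I2_nonneg hm0 hδ0 hδ1
    have ht0 : 0 < t := lt_of_le_of_lt hI0 hgt
    have htL : t < log 2 := by
      have : 0 < hb / (1 - m ^ 2) := by positivity
      linarith
    -- m > 0
    have hmpos : 0 < m := by
      rcases eq_or_lt_of_le hm0 with h | h
      · exfalso
        rw [ht, hI2, ← h] at hgt
        unfold hh at hgt
        rw [psi_zero] at hgt
        simp at hgt
      · exact h
    -- the root r
    obtain ⟨r, hr, hrt⟩ : ∃ r ∈ Icc (0:ℝ) 1, psi r = t := by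
      have := intermediate_value_Icc (zero_le_one) (continuous_psi.continuousOn (s := Icc 0 1))
      apply this
      rw [psi_zero, psi_one]
      exact ⟨ht0.le, htL.le⟩
    have hr1 : r < 1 := by
      rcases eq_or_lt_of_le hr.2 with h | h
      · rw [h, psi_one] at hrt; linarith
      · exact h
    have hr0 : 0 < r := by
      rcases eq_or_lt_of_le hr.1 with h | h
      · rw [← h, psi_zero] at hrt; linarith
      · exact h
    have hx0 : 0 ≤ δ / (1 - m) := div_nonneg hδ0 (by linarith)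
    have hx1 : δ / (1 - m) < 1 := by rw [div_lt_one (by linarith)]; linarith
    have hy0 : 0 ≤ δ / (1 + m) := div_nonneg hδ0 (by linarith)
    have hy1 : δ / (1 + m) < 1 := by rw [div_lt_one (by linarith)]; linarith
    have hj : (1 + m) ^ 2 * psi (δ / (1 + m)) ≤ (1 - m) ^ 2 * psi (δ / (1 - m)) := by
      have h1 : δ / (1 + m) = ((1 - m) / (1 + m)) * (δ / (1 - m)) := by
        have : (1:ℝ) - m ≠ 0 := by linarith
        field_simp
      have h2 := psi_mul_le (β := (1 - m) / (1 + m)) (div_nonneg (by linarith) (by linarith))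
        (by rw [div_le_one (by linarith)]; linarith) hx0 hx1
      rw [← h1] at h2
      calc (1 + m) ^ 2 * psi (δ / (1 + m)) ≤
          (1 + m) ^ 2 * (((1 - m) / (1 + m)) ^ 2 * psi (δ / (1 - m))) :=
            mul_le_mul_of_nonneg_left h2 (by positivity)
        _ = _ := by field_simp
    have hIe := I2_eq (by linarith : -1 < m) hm1 hδ0 hδ1 (by linarith)
    have hM : (log 2 - 1 / 2) * (m ^ 2 * (1 - m ^ 2)) ≤ log 2 * m ^ 2 - psi m := by
      have := psi_le_quartic hm0 hm1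
      nlinarith
    have htm : t * (1 - m ^ 2) = (1 - m) / 2 * psi (δ / (1 - m)) + (1 + m) / 2 * psi (δ / (1 + m))
        - (log 2 * m ^ 2 - psi m) := by
      rw [← hIe, hI2, ht]
      unfold hh
      field_simp
      ring
    rw [hIe] at hgt
    obtain ⟨n1, n2⟩ := Nstar hmpos hm1 (by linarith [L_gt]) hj
      (psi_lt_log_two hx0 hx1).le (psi_nonneg hy0 hy1) hM htm hgt
    -- psi y ≤ t hence y ≤ r
    have hyr : δ / (1 + m) ≤ r := by
      have hjt : psi (δ / (1 + m)) ≤ psi r := by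
        rw [hrt]
        have h1 : (1 + m) * psi (δ / (1 + m)) ≤ (1 + m) * t :=
          n1.trans (mul_le_mul_of_nonneg_right (by linarith) ht0.le)
        exact le_of_mul_le_mul_left h1 (by linarith)
      exact (psi_monotoneOn.le_iff_le ⟨hy0, hy1⟩ ⟨hr.1, hr1⟩).1 hjt
    have tx := Sr_tangent hx0 hx1 hr0.le hr1
    have ty := Sr_tangent_improved hy0 hr1 hyr hr0
    rw [ee_eq (by linarith) hm1 hδ0 hδ1 (by linarith)]
    have hsr := sr_nonneg hr0.le hr1
    have hSr := Sr_nonneg hr0.le hr1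
    have hSb := SS_psi_le hb0 hb1 hr0.le hr1
    rw [hrt] at tx ty hSb
    set j1 := psi (δ / (1 - m))
    set j2 := psi (δ / (1 + m))
    have px := mul_le_mul_of_nonneg_left tx (by linarith : 0 ≤ (1 - m) / 2)
    have py := mul_le_mul_of_nonneg_left ty (by linarith : 0 ≤ (1 + m) / 2)
    have n3 : t - ((1 - m) / 2 * j1 + (1 + m) / 2 * j2) ≤
        (1 + m) / 2 * (t - j2) ^ 2 / (2 * t) := by
      rw [le_div_iff₀ (by positivity)]
      linarith
    have n4 := mul_le_mul_of_nonneg_left n3 hsr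
    have n5 : (1 + m) / 2 * (sr r * (t - j2) ^ 2 / (2 * t)) =
        sr r * ((1 + m) / 2 * (t - j2) ^ 2 / (2 * t)) := by ring
    have n6 : (1 - m ^ 2) * SS b t ≤ (1 - m ^ 2) * Sr r := mul_le_mul_of_nonneg_left hSb hv.le
    have n7 : (1 - m ^ 2) * Sr r ≤ Sr r := by nlinarith [mul_nonneg (sq_nonneg m) hSr]
    nlinarith

end Crest.Agent.H28
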