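import Crest.Agent.H28.Cert3
import Crest.Agent.H28.N1

set_option autoImplicit false

namespace Crest.Agent.H28

open Real Set

/-! ### the symmetric case `S₀ = 0` -/

/-- the objective for `S = 0` -/
noncomputable def N0 (c D : ℝ) : ℝ := c * D + (1 + cosh D) * log (2 * (1 + cosh D)) / sinh D

lemma hasDerivAt_N0 {c D : ℝ} (hD : 0 < D) :
    HasDerivAt (N0 c) (c + 1 - log (2 * (1 + cosh D)) / (cosh D - 1)) D := by
  have hs : 0 < sinh D := Real.sinh_pos_iff.2 hD
  have hc : 1 < cosh D := Real.one_lt_cosh.2 hD.ne'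
  have e0 := (Real.hasDerivAt_cosh D).const_add 1
  have e1 := (e0.const_mul 2).log (by positivity)
  have e2 := ((hasDerivAt_id D).const_mul c).fun_add
    ((e0.fun_mul e1).fun_div (Real.hasDerivAt_sinh D) hs.ne')
  refine e2.congr_deriv ?_
  have h1 : sinh D ^ 2 = (cosh D - 1) * (cosh D + 1) := by
    have := Real.cosh_sq D
    linear_combination (-1 : ℝ) * this
  have h2 : cosh D - 1 ≠ 0 := by linarith
  have h3 : (1 + cosh D) * (2 * sinh D / (2 * (1 + cosh D))) = sinh D := by
    field_simp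
  rw [h3]
  have h4 : (sinh D * log (2 * (1 + cosh D)) + sinh D) * sinh D -
      (1 + cosh D) * log (2 * (1 + cosh D)) * cosh D =
      (cosh D + 1) * ((cosh D - 1) - log (2 * (1 + cosh D))) := by
    linear_combination (log (2 * (1 + cosh D)) + 1) * h1
  rw [h4, h1]
  field_simp
  ring

lemma log_div_anti {U U' : ℝ} (h1 : 1 < U) (h : U ≤ U') :
    log (2 * (1 + U')) / (U' - 1) ≤ log (2 * (1 + U)) / (U - 1) := by
  have ha : AntitoneOn (fun u => log (2 * (1 + u)) / (u - 1)) (Icc U U') := by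
    have hd : ∀ u, U ≤ u → HasDerivAt (fun u => log (2 * (1 + u)) / (u - 1))
        (((u - 1) / (1 + u) - log (2 * (1 + u))) / (u - 1) ^ 2) u := by
      intro u hu
      have h2 : u - 1 ≠ 0 := by linarith
      have h3 : 0 < 1 + u := by linarith
      have e1 := ((((hasDerivAt_id u).const_add 1).const_mul 2).log
        (by simp only [id]; positivity)).fun_div ((hasDerivAt_id u).sub_const 1) h2
      refine e1.congr_deriv ?_
      simp only [id]
      field_simp
    apply antitoneOn_of_deriv_nonpos (convex_Icc _ _)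
    · exact fun u hu => (hd u hu.1).continuousAt.continuousWithinAt
    · intro u hu
      rw [interior_Icc] at hu
      exact (hd u hu.1.le).differentiableAt.differentiableWithinAt
    · intro u hu
      rw [interior_Icc] at hu
      rw [(hd u hu.1.le).deriv]
      apply div_nonpos_of_nonpos_of_nonneg _ (by positivity)
      have h3 : 0 < 1 + u := by linarith [hu.1]
      have h4 : (u - 1) / (1 + u) ≤ 1 := by rw [div_le_one h3]; linarith
      have h5 : 1 ≤ log (2 * (1 + u)) := by
        rw [Real.le_log_iff_exp_le (by positivity)]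
        have := Real.exp_one_lt_d9
        linarith [hu.1]
      linarith
  exact ha ⟨le_rfl, h⟩ ⟨h, le_rfl⟩ h

lemma N0_min {D0 D : ℝ} (hD0 : 0 < D0) (hD : 0 < D) :
    N0 (log (2 * (1 + cosh D0)) / (cosh D0 - 1) - 1) D0 ≤
      N0 (log (2 * (1 + cosh D0)) / (cosh D0 - 1) - 1) D := by
  rcases le_total D0 D with h | h
  · have hm : MonotoneOn (N0 (log (2 * (1 + cosh D0)) / (cosh D0 - 1) - 1)) (Icc D0 D) := by
      apply monotoneOn_of_deriv_nonneg (convex_Icc _ _)
      · exact fun u hu => (hasDerivAt_N0 (hD0.trans_le hu.1)).continuousAt.continuousWithinAt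
      · intro u hu
        rw [interior_Icc] at hu
        exact (hasDerivAt_N0 (hD0.trans hu.1)).differentiableAt.differentiableWithinAt
      · intro u hu
        rw [interior_Icc] at hu
        rw [(hasDerivAt_N0 (hD0.trans hu.1)).deriv]
        have hc : cosh D0 ≤ cosh u := Real.cosh_le_cosh.2 (by
          rw [abs_of_pos hD0, abs_of_pos (hD0.trans hu.1)]; exact hu.1.le)
        have := log_div_anti (Real.one_lt_cosh.2 hD0.ne') hc
        linarith
    exact hm ⟨le_rfl, h⟩ ⟨h, le_rfl⟩ h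
  · have hm : AntitoneOn (N0 (log (2 * (1 + cosh D0)) / (cosh D0 - 1) - 1)) (Icc D D0) := by
      apply antitoneOn_of_deriv_nonpos (convex_Icc _ _)
      · exact fun u hu => (hasDerivAt_N0 (hD.trans_le hu.1)).continuousAt.continuousWithinAt
      · intro u hu
        rw [interior_Icc] at hu
        exact (hasDerivAt_N0 (hD.trans hu.1)).differentiableAt.differentiableWithinAt
      · intro u hu
        rw [interior_Icc] at hu
        have hu0 := hD.trans hu.1
        rw [(hasDerivAt_N0 hu0).deriv]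
        have hc : cosh u ≤ cosh D0 := Real.cosh_le_cosh.2 (by
          rw [abs_of_pos hD0, abs_of_pos hu0]; exact hu.2.le)
        have := log_div_anti (Real.one_lt_cosh.2 hu0.ne') hc
        linarith
    exact hm ⟨le_rfl, h⟩ ⟨h, le_rfl⟩ h

/-- the parameters of the certificate -/
lemma exists_params {S0 D0 : ℝ} (hS0 : 0 ≤ S0) (hD0 : 0 < D0) :
    ∃ μ P : ℝ, 0 < μ ∧ 0 ≤ P ∧ (S0 = 0 → P = 0) ∧
      ∀ S D, 0 < D → (1 / μ - 1) * D0 + KK P S0 (cosh D0) / sinh D0 ≤
        (1 / μ - 1) * D + KK P S (cosh D) / sinh D := by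
  have hc0 : 1 < cosh D0 := Real.one_lt_cosh.2 hD0.ne'
  rcases eq_or_lt_of_le hS0 with h | h
  · -- S0 = 0
    subst h
    refine ⟨(cosh D0 - 1) / log (2 * (1 + cosh D0)), 0, ?_, le_rfl, fun _ => rfl, ?_⟩
    · apply div_pos (by linarith)
      apply Real.log_pos; linarith
    · intro S D hD
      have hcD : 1 < cosh D := Real.one_lt_cosh.2 hD.ne'
      have hs : 0 < sinh D := Real.sinh_pos_iff.2 hD
      have h1 := KK_min (U := cosh D) (P := 0) (Ss := 0) hcD.le le_rfl (PP_zero _) le_rfl S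
      have h2 : KK 0 0 (cosh D) / sinh D ≤ KK 0 S (cosh D) / sinh D :=
        div_le_div_of_nonneg_right h1 hs.le
      have h3 := N0_min hD0 hD
      have e1 : ∀ D, N0 (log (2 * (1 + cosh D0)) / (cosh D0 - 1) - 1) D =
          (1 / ((cosh D0 - 1) / log (2 * (1 + cosh D0))) - 1) * D + KK 0 0 (cosh D) / sinh D := by
        intro D
        unfold N0 KK ell
        rw [one_div_div]
        simp
      rw [e1, e1] at h3
      linarith
  · -- S0 > 0
    set U0 := cosh D0 with hU0
    set P := PP S0 U0 with hP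
    have hPpos : 0 < P := by
      have := PP_lt (S := S0) (U := 1) (U' := U0) (by norm_num) h hc0
      have := PP_nonneg (U := 1) le_rfl hS0
      linarith
    have e00 := Real.exp_pos (-S0)
    have e01 : exp (-S0) < 1 := Real.exp_lt_one_iff.2 (by linarith)
    obtain ⟨hT0, hUU0⟩ := of_PP (P := P) hc0.le h rfl
    refine ⟨mu P (exp (-S0)), P, mu_pos hPpos e00 e01 (by rw [hUU0]; exact hc0), hPpos.le,
      fun hz => by linarith, ?_⟩
    intro S D hD
    have hcD : 1 < cosh D := Real.one_lt_cosh.2 hD.ne'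
    have hs : 0 < sinh D := Real.sinh_pos_iff.2 hD
    obtain ⟨Ss, hSs, hSP⟩ := exists_Sstar (U := cosh D) (P := P) hcD.le hPpos.le
    have hSspos : 0 < Ss := by
      rcases eq_or_lt_of_le hSs with h' | h'
      · rw [← h', PP_zero] at hSP; linarith
      · exact h'
    obtain ⟨hT1, hUU1⟩ := of_PP (P := P) hcD.le hSspos hSP
    have e10 := Real.exp_pos (-Ss)
    have e11 : exp (-Ss) < 1 := Real.exp_lt_one_iff.2 (by linarith)
    have hmin := Nc_min hPpos e00 e01 e10 e11 (by rw [hUU0]; exact hc0) (by rw [hUU1]; exact hcD)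
    have hN0 : Nc P (1 / mu P (exp (-S0)) - 1) (exp (-S0)) =
        (1 / mu P (exp (-S0)) - 1) * D0 + KK P S0 (cosh D0) / sinh D0 := by
      unfold Nc
      have h1 := KK_curve (P := P) e00 e01
      rw [hUU0, Real.log_exp, neg_neg] at h1
      rw [hUU0, ← h1, hU0, Real.arcosh_cosh hD0.le]
      have : cosh D0 ^ 2 - 1 = sinh D0 ^ 2 := by rw [Real.cosh_sq]; ring
      rw [this, Real.sqrt_sq (Real.sinh_pos_iff.2 hD0).le]
    have hN1 : Nc P (1 / mu P (exp (-S0)) - 1) (exp (-Ss)) =
        (1 / mu P (exp (-S0)) - 1) * D + KK P Ss (cosh D) / sinh D := by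
      unfold Nc
      have h1 := KK_curve (P := P) e10 e11
      rw [hUU1, Real.log_exp, neg_neg] at h1
      rw [hUU1, ← h1, Real.arcosh_cosh hD.le]
      have : cosh D ^ 2 - 1 = sinh D ^ 2 := by rw [Real.cosh_sq]; ring
      rw [this, Real.sqrt_sq hs.le]
    rw [hN0, hN1] at hmin
    have h1 := KK_min (U := cosh D) (P := P) (Ss := Ss) hcD.le hSs hSP hPpos.le S
    have h2 : KK P Ss (cosh D) / sinh D ≤ KK P S (cosh D) / sinh D :=
      div_le_div_of_nonneg_right h1 hs.le
    linarith

lemma log_two_cosh_ge (X : ℝ) : X * sinh X ≤ cosh X * log (2 * cosh X) := by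
  have hc := Real.cosh_pos X
  have h1 : |X| ≤ log (2 * cosh X) := by
    rw [Real.le_log_iff_exp_le (by positivity), ← Real.cosh_abs, Real.cosh_eq]
    have := Real.exp_pos (-|X|)
    linarith
  have h2 : |sinh X| ≤ cosh X := by
    have := Real.cosh_sq X
    exact abs_le_of_sq_le_sq (by linarith) hc.le
  calc X * sinh X ≤ |X * sinh X| := le_abs_self _
    _ = |sinh X| * |X| := by rw [abs_mul]; ring
    _ ≤ cosh X * log (2 * cosh X) := mul_le_mul h2 h1 (abs_nonneg _) hc.le

lemma KK_ge {P : ℝ} (hP : 0 ≤ P) (S D : ℝ) : D * sinh D ≤ KK P S (cosh D) := by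
  obtain ⟨X, Y, rfl, rfl⟩ : ∃ X Y : ℝ, S = X + Y ∧ D = X - Y :=
    ⟨(S + D) / 2, (S - D) / 2, by ring, by ring⟩
  unfold KK ell
  have hcX := Real.cosh_pos X
  have hcY := Real.cosh_pos Y
  have e1 : cosh (X + Y) + cosh (X - Y) = 2 * cosh X * cosh Y := by
    rw [Real.cosh_add, Real.cosh_sub]; ring
  have e2 : log (2 * (cosh (X + Y) + cosh (X - Y))) = log (2 * cosh X) + log (2 * cosh Y) := by
    rw [e1, ← Real.log_mul (by positivity) (by positivity)]
    congr 1; ring
  rw [e2, e1]
  have h1 := mul_le_mul_of_nonneg_left (log_two_cosh_ge X) hcY.le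
  have h2 := mul_le_mul_of_nonneg_left (log_two_cosh_ge Y) hcX.le
  have h3 : 0 ≤ P * (cosh (X - Y) + exp (-(X + Y))) := by
    have := Real.cosh_pos (X - Y)
    positivity
  rw [Real.sinh_add, Real.sinh_sub]
  nlinarith

/-- the certificate in hyperbolic coordinates -/
lemma exists_cert_hyp {S0 D0 : ℝ} (hS0 : 0 ≤ S0) (hD0 : 0 < D0) :
    ∃ μ P R : ℝ, 0 < μ ∧ (S0 = 0 → P = 0) ∧
      (∀ S D, 0 ≤ (1 / μ - 1) * D * sinh D + KK P S (cosh D) - R * sinh D) ∧
      (1 / μ - 1) * D0 * sinh D0 + KK P S0 (cosh D0) - R * sinh D0 = 0 := by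
  obtain ⟨μ, P, hμ, hP, hS, hmin⟩ := exists_params hS0 hD0
  have hs0 : 0 < sinh D0 := Real.sinh_pos_iff.2 hD0
  refine ⟨μ, P, (1 / μ - 1) * D0 + KK P S0 (cosh D0) / sinh D0, hμ, hS, ?_, ?_⟩
  · intro S D
    have hK := KK_ge hP S D
    rcases lt_trichotomy D 0 with h | h | h
    · have hs : sinh D < 0 := Real.sinh_neg_iff.2 h
      have hR : 0 ≤ (1 / μ - 1) * D0 + KK P S0 (cosh D0) / sinh D0 := by
        have h1 := KK_ge hP S0 D0
        have h2 : D0 ≤ KK P S0 (cosh D0) / sinh D0 := by rw [le_div_iff₀ hs0]; exact h1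
        have : 0 < 1 / μ * D0 := by positivity
        linarith
      have h3 : 0 ≤ 1 / μ * (D * sinh D) := by
        have : 0 ≤ D * sinh D := mul_nonneg_of_nonpos_of_nonpos h.le hs.le
        positivity
      have h4 : 0 ≤ -(((1 / μ - 1) * D0 + KK P S0 (cosh D0) / sinh D0) * sinh D) := by
        have := mul_nonneg hR (neg_nonneg.2 hs.le)
        linarith
      linarith
    · subst h
      simp only [Real.sinh_zero, mul_zero, sub_zero] at hK ⊢
      linarith
    · have hs : 0 < sinh D := Real.sinh_pos_iff.2 h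
      have h1 := mul_le_mul_of_nonneg_right (hmin S D h) hs.le
      have h2 : ((1 / μ - 1) * D + KK P S (cosh D) / sinh D) * sinh D =
          (1 / μ - 1) * D * sinh D + KK P S (cosh D) := by
        field_simp
      linarith
  · field_simp
    ring

lemma hh_tanh (X : ℝ) : hh (tanh X) = log (2 * cosh X) - X * (sinh X / cosh X) := by
  have hc := Real.cosh_pos X
  have h1 : -1 < tanh X := Real.neg_one_lt_tanh X
  have h2 : tanh X < 1 := Real.tanh_lt_one X
  have hth : th (tanh X) = X := by rw [← th_eq_artanh h1 h2, Real.artanh_tanh]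
  unfold hh
  rw [psi_eq h1 h2, hth]
  have h3 : 1 - tanh X ^ 2 = 1 / cosh X ^ 2 := by
    rw [Real.tanh_eq_sinh_div_cosh]
    have := Real.cosh_sq X
    field_simp
    linarith
  rw [h3, Real.log_div one_ne_zero (by positivity), Real.log_one, Real.log_pow,
    Real.log_mul two_ne_zero hc.ne', Real.tanh_eq_sinh_div_cosh]
  push_cast
  ring

/-- conversion identity -/
lemma cert_identity {μ P R : ℝ} (hμ : μ ≠ 0) (X Y : ℝ) :
    2 * (cosh (X + Y) + cosh (X - Y)) *
      (ee (tanh X) (tanh Y) + μ * (hh (tanh X) + hh (tanh Y)) / 2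
        - (-(μ * (P + R) / 4)) * (1 - tanh X) - (μ * (R - P) / 4) * (1 - tanh Y)) =
    μ * ((1 / μ - 1) * (X - Y) * sinh (X - Y) + KK P (X + Y) (cosh (X - Y))
      - R * sinh (X - Y)) := by
  have hcX := Real.cosh_pos X
  have hcY := Real.cosh_pos Y
  have hth : ∀ X, th (tanh X) = X := fun X => by
    rw [← th_eq_artanh (Real.neg_one_lt_tanh X) (Real.tanh_lt_one X), Real.artanh_tanh]
  unfold KK ell ee
  rw [hth, hth, hh_tanh, hh_tanh]
  have e1 : cosh (X + Y) + cosh (X - Y) = 2 * cosh X * cosh Y := by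
    rw [Real.cosh_add, Real.cosh_sub]; ring
  have e2 : log (2 * (cosh (X + Y) + cosh (X - Y))) = log (2 * cosh X) + log (2 * cosh Y) := by
    rw [e1, ← Real.log_mul (by positivity) (by positivity)]
    congr 1; ring
  have e3 : exp (-(X + Y)) = cosh (X + Y) - sinh (X + Y) := by rw [Real.cosh_sub_sinh]
  rw [e2, e3, e1, Real.cosh_add, Real.cosh_sub, Real.sinh_add, Real.sinh_sub,
    Real.tanh_eq_sinh_div_cosh, Real.tanh_eq_sinh_div_cosh]
  generalize log (2 * cosh X) = lX
  generalize log (2 * cosh Y) = lY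
  generalize cosh X = cX at *
  generalize cosh Y = cY at *
  field_simp
  ring

/-- the certificate -/
theorem exists_cert {a b : ℝ} (hb : -1 < b) (hab : b < a) (ha : a < 1) (hs : 0 ≤ a + b) :
    ∃ μ P1 P2 : ℝ,
      (∀ x y, -1 < x → x < 1 → -1 < y → y < 1 →
        P1 * (1 - x) + P2 * (1 - y) ≤ ee x y + μ * ((hh x + hh y) / 2)) ∧
      P1 * (1 - a) + P2 * (1 - b) = ee a b + μ * ((hh a + hh b) / 2) ∧
      (a + b = 0 → P1 + P2 = 0) := by
  have hta : ∀ {x : ℝ}, -1 < x → x < 1 → tanh (th x) = x := fun {x} h1 h2 => by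
    rw [← th_eq_artanh h1 h2, Real.tanh_artanh ⟨h1, h2⟩]
  have ha' : -1 < a := hb.trans hab
  have hb' : b < 1 := hab.trans ha
  have hS0 : 0 ≤ th a + th b := by
    have := th_mono (x := -b) (y := a) (by linarith) ha (by linarith)
    rw [th_neg] at this
    linarith
  have hD0 : 0 < th a - th b := by have := th_lt hb ha hab; linarith
  obtain ⟨μ, P, R, hμ, hP, hall, heq⟩ := exists_cert_hyp hS0 hD0
  refine ⟨μ, -(μ * (P + R) / 4), μ * (R - P) / 4, ?_, ?_, ?_⟩
  · intro x y hx0 hx1 hy0 hy1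
    have h1 := cert_identity (P := P) (R := R) hμ.ne' (th x) (th y)
    rw [hta hx0 hx1, hta hy0 hy1] at h1
    have h2 := mul_nonneg hμ.le (hall (th x + th y) (th x - th y))
    rw [← h1] at h2
    have h3 : 0 < 2 * (cosh (th x + th y) + cosh (th x - th y)) := by
      have := Real.cosh_pos (th x + th y)
      have := Real.cosh_pos (th x - th y)
      positivity
    have h4 := nonneg_of_mul_nonneg_right h2 h3
    linarith
  · have h1 := cert_identity (P := P) (R := R) hμ.ne' (th a) (th b)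
    rw [hta ha' ha, hta hb hb', heq, mul_zero] at h1
    have h3 : 0 < 2 * (cosh (th a + th b) + cosh (th a - th b)) := by
      have := Real.cosh_pos (th a + th b)
      have := Real.cosh_pos (th a - th b)
      positivity
    have h4 := (mul_eq_zero.1 h1).resolve_left h3.ne'
    linarith
  · intro h
    have : P = 0 := hP (by
      have hbe : b = -a := by linarith
      rw [hbe, th_neg]; ring)
    rw [this]; ring

end Crest.Agent.H28
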