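import Crest.Agent.H28.TwoPoint

set_option autoImplicit false

namespace Crest.Agent.H28

open Real Set Crest.CubeNoise

/-! ### cube averages -/

lemma cubeAverage_succ {n : ℕ} (g : (Fin (n + 1) → Bool) → ℝ) :
    cubeAverage g = (cubeAverage (fun x => g (Fin.cons true x)) +
      cubeAverage (fun x => g (Fin.cons false x))) / 2 := by
  unfold cubeAverage
  have e : ∑ x, g x = ∑ p : Bool × (Fin n → Bool), g (Fin.cons p.1 p.2) :=
    (Fintype.sum_equiv (Fin.consEquiv (fun _ => Bool)) _ _ (fun p => rfl)).symm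
  rw [e, Fintype.sum_prod_type, Fintype.sum_bool]
  rw [pow_succ]
  field_simp

lemma cubeAverage_zero (g : (Fin 0 → Bool) → ℝ) (x : Fin 0 → Bool) : cubeAverage g = g x := by
  unfold cubeAverage
  rw [Fintype.sum_unique, pow_zero, div_one]
  congr 1
  exact Subsingleton.elim _ _

lemma cubeAverage_add {n : ℕ} (f g : (Fin n → Bool) → ℝ) :
    cubeAverage (fun x => f x + g x) = cubeAverage f + cubeAverage g := by
  unfold cubeAverage
  rw [Finset.sum_add_distrib, add_div]

lemma cubeAverage_mul_left {n : ℕ} (c : ℝ) (f : (Fin n → Bool) → ℝ) :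
    cubeAverage (fun x => c * f x) = c * cubeAverage f := by
  unfold cubeAverage
  rw [← Finset.mul_sum, mul_div_assoc]

lemma cubeAverage_const {n : ℕ} (c : ℝ) : cubeAverage (fun _ : Fin n → Bool => c) = c := by
  unfold cubeAverage
  rw [Finset.sum_const, Finset.card_univ, Fintype.card_fun, Fintype.card_bool, Fintype.card_fin]
  simp

lemma cubeAverage_mono {n : ℕ} {f g : (Fin n → Bool) → ℝ} (h : ∀ x, f x ≤ g x) :
    cubeAverage f ≤ cubeAverage g := by
  unfold cubeAverage
  exact div_le_div_of_nonneg_right (Finset.sum_le_sum fun x _ => h x) (by positivity)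

lemma cubeAverage_pos {n : ℕ} {f : (Fin n → Bool) → ℝ} (h : ∀ x, 0 < f x) :
    0 < cubeAverage f := by
  unfold cubeAverage
  exact div_pos (Finset.sum_pos (fun x _ => h x) Finset.univ_nonempty) (by positivity)

lemma cubeAverage_lt {n : ℕ} {f g : (Fin n → Bool) → ℝ} (h : ∀ x, f x < g x) :
    cubeAverage f < cubeAverage g := by
  unfold cubeAverage
  exact div_lt_div_of_pos_right (Finset.sum_lt_sum_of_nonempty Finset.univ_nonempty fun x _ => h x)
    (by positivity)

lemma cubeAverage_abs_lt {n : ℕ} {g : (Fin n → Bool) → ℝ} (h : ∀ x, |g x| < 1) :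
    |cubeAverage g| < 1 := by
  rw [abs_lt]
  have h1 := cubeAverage_lt (n := n) (f := fun _ => -1) (g := g) (fun x => (abs_lt.1 (h x)).1)
  have h2 := cubeAverage_lt (n := n) (f := g) (g := fun _ => 1) (fun x => (abs_lt.1 (h x)).2)
  rw [cubeAverage_const] at h1 h2
  exact ⟨h1, h2⟩

/-! ### concavity of `hh` -/

lemma hh_tangent {x m : ℝ} (hx0 : -1 < x) (hx1 : x < 1) (hm0 : -1 < m) (hm1 : m < 1) :
    hh x ≤ hh m - th m * (x - m) := by
  have hcv : ConvexOn ℝ (Ioo (-1) 1) psi := by
    apply MonotoneOn.convexOn_of_deriv (convex_Ioo _ _) continuous_psi.continuousOn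
    · rw [interior_Ioo]
      exact fun y hy => (hasDerivAt_psi hy.1 hy.2).differentiableAt.differentiableWithinAt
    · rw [interior_Ioo]
      intro y hy z hz hyz
      rw [(hasDerivAt_psi hy.1 hy.2).deriv, (hasDerivAt_psi hz.1 hz.2).deriv]
      exact th_mono hy.1 hz.2 hyz
  have : psi m + th m * (x - m) ≤ psi x := by
    rcases lt_trichotomy m x with h | h | h
    · have := hcv.le_slope_of_hasDerivAt ⟨hm0, hm1⟩ ⟨hx0, hx1⟩ h (hasDerivAt_psi hm0 hm1)
      rw [slope_def_field, le_div_iff₀ (by linarith)] at this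
      linarith
    · subst h; simp
    · have := hcv.slope_le_of_hasDerivAt ⟨hx0, hx1⟩ ⟨hm0, hm1⟩ h (hasDerivAt_psi hm0 hm1)
      rw [slope_def_field, div_le_iff₀ (by linarith)] at this
      linarith
  unfold hh
  linarith

lemma hh_jensen {n : ℕ} {g : (Fin n → Bool) → ℝ} (h : ∀ x, |g x| < 1) :
    cubeAverage (fun x => hh (g x)) ≤ hh (cubeAverage g) := by
  have hm := abs_lt.1 (cubeAverage_abs_lt h)
  set m := cubeAverage g with hmd
  have h1 : cubeAverage (fun x => hh (g x)) ≤
      cubeAverage (fun x => (hh m + th m * m) + (-th m) * g x) := by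
    apply cubeAverage_mono
    intro x
    have := hh_tangent (abs_lt.1 (h x)).1 (abs_lt.1 (h x)).2 hm.1 hm.2
    linarith
  rw [cubeAverage_add, cubeAverage_const, cubeAverage_mul_left, ← hmd] at h1
  linarith

lemma hh_pos' {x : ℝ} (h : |x| < 1) : 0 < hh x := hh_pos (abs_lt.1 h).1 (abs_lt.1 h).2

/-! ### splitting the production -/

lemma flip_zero {n : ℕ} (c : Bool) (x : Fin n → Bool) :
    flipBit (n := n + 1) 0 (Fin.cons c x) = Fin.cons (!c) x := by
  unfold flipBit
  rw [Fin.cons_zero, Fin.update_cons_zero]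

lemma flip_succ {n : ℕ} (i : Fin n) (c : Bool) (x : Fin n → Bool) :
    flipBit (n := n + 1) i.succ (Fin.cons c x) = Fin.cons c (flipBit i x) := by
  unfold flipBit
  rw [Fin.cons_succ, Fin.cons_update]

lemma production_succ {n : ℕ} (g : (Fin (n + 1) → Bool) → ℝ) (hg : ∀ x, |g x| < 1) :
    production g = (production (fun x => g (Fin.cons true x)) +
      production (fun x => g (Fin.cons false x))) / 2 +
      cubeAverage (fun x => ee (g (Fin.cons true x)) (g (Fin.cons false x))) := by
  unfold production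
  rw [cubeAverage_succ]
  have e1 : ∀ (c : Bool) (x : Fin n → Bool),
      Real.artanh (g (Fin.cons c x)) *
        ((∑ i, (g (Fin.cons c x) - g (flipBit i (Fin.cons c x)))) / 2) =
      Real.artanh (g (Fin.cons c x)) *
        ((∑ i, (g (Fin.cons c x) - g (Fin.cons c (flipBit i x)))) / 2) +
      th (g (Fin.cons c x)) * ((g (Fin.cons c x) - g (Fin.cons (!c) x)) / 2) := by
    intro c x
    rw [Fin.sum_univ_succ, flip_zero]
    simp only [flip_succ]
    have h := abs_lt.1 (hg (Fin.cons c x))
    rw [th_eq_artanh h.1 h.2]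
    ring
  simp only [e1]
  rw [cubeAverage_add, cubeAverage_add]
  have e2 : (fun x : Fin n → Bool => ee (g (Fin.cons true x)) (g (Fin.cons false x))) =
      fun x => (1 / 2) * (th (g (Fin.cons true x)) *
        ((g (Fin.cons true x) - g (Fin.cons (!true) x)) / 2) +
        th (g (Fin.cons false x)) * ((g (Fin.cons false x) - g (Fin.cons (!false) x)) / 2)) := by
    funext x
    unfold ee
    simp only [Bool.not_true, Bool.not_false]
    ring
  rw [e2, cubeAverage_mul_left, cubeAverage_add]
  ring

lemma production_zero (g : (Fin 0 → Bool) → ℝ) : production g = 0 := by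
  unfold production
  simp [cubeAverage]

/-- the pair law of the two halves dominates certificates -/
lemma dom_halves {n : ℕ} (f g : (Fin n → Bool) → ℝ) (hf : ∀ x, |f x| < 1) (hg : ∀ x, |g x| < 1) :
    Dom ((cubeAverage f + cubeAverage g) / 2) ((cubeAverage f - cubeAverage g) / 2)
      ((cubeAverage (fun x => hh (f x)) + cubeAverage (fun x => hh (g x))) / 2)
      (cubeAverage (fun x => ee (f x) (g x))) := by
  intro μ c0 c1 c2 hc
  have h1 : cubeAverage (fun x => (c0 + c1 * f x) + c2 * g x) ≤
      cubeAverage (fun x => ee (f x) (g x) + (μ / 2) * (hh (f x) + hh (g x))) := by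
    apply cubeAverage_mono
    intro x
    have := hc (f x) (g x) (abs_lt.1 (hf x)).1 (abs_lt.1 (hf x)).2 (abs_lt.1 (hg x)).1
      (abs_lt.1 (hg x)).2
    linarith
  rw [cubeAverage_add, cubeAverage_add, cubeAverage_const, cubeAverage_mul_left,
    cubeAverage_mul_left, cubeAverage_add, cubeAverage_mul_left, cubeAverage_add] at h1
  linarith

/-- main inequality (1) -/
theorem main1 : ∀ (n : ℕ) (g : (Fin n → Bool) → ℝ), (∀ x, |g x| < 1) →
    2 * (hh (cubeAverage g) - cubeAverage (fun x => hh (g x))) +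
      SS bt (hh (cubeAverage g) - cubeAverage (fun x => hh (g x))) ≤ production g := by
  intro n
  induction n with
  | zero =>
    intro g hg
    rw [production_zero, cubeAverage_zero g (fun i => i.elim0),
      cubeAverage_zero (fun x => hh (g x)) (fun i => i.elim0), sub_self, SS_zero]
    simp
  | succ n ih =>
    intro g hg
    set f1 := fun x : Fin n → Bool => g (Fin.cons true x) with hf1
    set f2 := fun x : Fin n → Bool => g (Fin.cons false x) with hf2
    have h1 : ∀ x, |f1 x| < 1 := fun x => hg _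
    have h2 : ∀ x, |f2 x| < 1 := fun x => hg _
    have i1 := ih f1 h1
    have i2 := ih f2 h2
    have eA : cubeAverage (fun x => hh (g x)) =
        (cubeAverage (fun x => hh (f1 x)) + cubeAverage (fun x => hh (f2 x))) / 2 :=
      cubeAverage_succ _
    have em : cubeAverage g = (cubeAverage f1 + cubeAverage f2) / 2 := cubeAverage_succ g
    have ep := production_succ g hg
    rw [ep, eA, em]
    have j1 := hh_jensen h1
    have j2 := hh_jensen h2
    have p1 : 0 < cubeAverage (fun x => hh (f1 x)) := cubeAverage_pos fun x => hh_pos' (h1 x)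
    have p2 : 0 < cubeAverage (fun x => hh (f2 x)) := cubeAverage_pos fun x => hh_pos' (h2 x)
    have key := two_point1 (cubeAverage_abs_lt h1) (cubeAverage_abs_lt h2) (by linarith)
      (by linarith) (dom_halves f1 f2 h1 h2)
    have hc := (SS_convex bt_pos bt_lt_one).2
      (mem_univ (hh (cubeAverage f1) - cubeAverage (fun x => hh (f1 x))))
      (mem_univ (hh (cubeAverage f2) - cubeAverage (fun x => hh (f2 x))))
      (by norm_num : (0:ℝ) ≤ 1 / 2) (by norm_num : (0:ℝ) ≤ 1 / 2) (by norm_num)
    simp only [smul_eq_mul] at hc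
    have e3 : 1 / 2 * (hh (cubeAverage f1) - cubeAverage (fun x => hh (f1 x))) +
        1 / 2 * (hh (cubeAverage f2) - cubeAverage (fun x => hh (f2 x))) =
        (hh (cubeAverage f1) + hh (cubeAverage f2)) / 2 -
        (cubeAverage (fun x => hh (f1 x)) + cubeAverage (fun x => hh (f2 x))) / 2 := by ring
    rw [e3] at hc
    change 2 * (hh ((cubeAverage f1 + cubeAverage f2) / 2) - _) + _ ≤
      (production f1 + production f2) / 2 + cubeAverage (fun x => ee (f1 x) (f2 x))
    linarith

/-- joint convexity of the perspective -/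
lemma tau_convex {b : ℝ} (hb0 : 0 < b) (hb1 : b < 1) {A1 A2 v1 v2 : ℝ} (hv1 : 0 < v1)
    (hv2 : 0 < v2) :
    tau b ((A1 + A2) / 2) ((v1 + v2) / 2) ≤ (tau b A1 v1 + tau b A2 v2) / 2 := by
  unfold tau
  have hv : 0 < v1 + v2 := by linarith
  have hc := (SS_convex hb0 hb1).2 (mem_univ (log 2 - A1 / v1)) (mem_univ (log 2 - A2 / v2))
    (by positivity : 0 ≤ v1 / (v1 + v2)) (by positivity : 0 ≤ v2 / (v1 + v2))
    (by field_simp)
  simp only [smul_eq_mul] at hc
  have e : v1 / (v1 + v2) * (log 2 - A1 / v1) + v2 / (v1 + v2) * (log 2 - A2 / v2) =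
      log 2 - (A1 + A2) / 2 / ((v1 + v2) / 2) := by
    field_simp
    ring
  rw [e] at hc
  have h2 := mul_le_mul_of_nonneg_left hc (by positivity : 0 ≤ (v1 + v2) / 2)
  have e2 : (v1 + v2) / 2 * (v1 / (v1 + v2) * SS b (log 2 - A1 / v1) +
      v2 / (v1 + v2) * SS b (log 2 - A2 / v2)) =
      (v1 * SS b (log 2 - A1 / v1) + v2 * SS b (log 2 - A2 / v2)) / 2 := by
    field_simp
  linarith

lemma one_sub_sq_pos' {x : ℝ} (h : |x| < 1) : 0 < 1 - x ^ 2 := by
  rw [sub_pos, sq_lt_one_iff_abs_lt_one]; exact h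

lemma hh_ge' {x : ℝ} (h : |x| < 1) : log 2 * (1 - x ^ 2) ≤ hh x := by
  have := hh_ge (abs_nonneg x) h
  rwa [sq_abs, hh_abs] at this

/-- main inequality (2) -/
theorem main2 {b : ℝ} (hb0 : 0 < b) (hb1 : b < 1) :
    ∀ (n : ℕ) (g : (Fin n → Bool) → ℝ), (∀ x, |g x| < 1) →
    2 * (hh (cubeAverage g) - cubeAverage (fun x => hh (g x))) +
      tau b (cubeAverage (fun x => hh (g x))) (1 - cubeAverage g ^ 2) ≤ production g := by
  intro n
  induction n with
  | zero =>
    intro g hg
    rw [production_zero, cubeAverage_zero g (fun i => i.elim0),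
      cubeAverage_zero (fun x => hh (g x)) (fun i => i.elim0), sub_self]
    unfold tau
    have h1 := hh_ge' (hg (fun i => i.elim0))
    have h2 := one_sub_sq_pos' (hg (fun i => i.elim0))
    rw [SS_of_nonpos hb0 hb1 (by
      rw [sub_nonpos, le_div_iff₀ h2]; exact h1)]
    simp
  | succ n ih =>
    intro g hg
    set f1 := fun x : Fin n → Bool => g (Fin.cons true x) with hf1
    set f2 := fun x : Fin n → Bool => g (Fin.cons false x) with hf2
    have h1 : ∀ x, |f1 x| < 1 := fun x => hg _
    have h2 : ∀ x, |f2 x| < 1 := fun x => hg _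
    have i1 := ih f1 h1
    have i2 := ih f2 h2
    have eA : cubeAverage (fun x => hh (g x)) =
        (cubeAverage (fun x => hh (f1 x)) + cubeAverage (fun x => hh (f2 x))) / 2 :=
      cubeAverage_succ _
    have em : cubeAverage g = (cubeAverage f1 + cubeAverage f2) / 2 := cubeAverage_succ g
    have ep := production_succ g hg
    rw [ep, eA, em]
    have j1 := hh_jensen h1
    have j2 := hh_jensen h2
    have p1 : 0 < cubeAverage (fun x => hh (f1 x)) := cubeAverage_pos fun x => hh_pos' (h1 x)
    have p2 : 0 < cubeAverage (fun x => hh (f2 x)) := cubeAverage_pos fun x => hh_pos' (h2 x)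
    have key := two_point2 hb0 hb1 (cubeAverage_abs_lt h1) (cubeAverage_abs_lt h2) (by linarith)
      (by linarith) (dom_halves f1 f2 h1 h2)
    have hc := tau_convex hb0 hb1 (A1 := cubeAverage (fun x => hh (f1 x)))
      (A2 := cubeAverage (fun x => hh (f2 x))) (one_sub_sq_pos' (cubeAverage_abs_lt h1))
      (one_sub_sq_pos' (cubeAverage_abs_lt h2))
    change 2 * (hh ((cubeAverage f1 + cubeAverage f2) / 2) - _) + _ ≤
      (production f1 + production f2) / 2 + cubeAverage (fun x => ee (f1 x) (f2 x))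
    linarith

end Crest.Agent.H28
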