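import Crest.Agent.H28.Surplus

set_option autoImplicit false

namespace Crest.Agent.H28

open Real Set

/-- the two-point information -/
noncomputable def I2 (m δ : ℝ) : ℝ := hh m - (hh (m + δ) + hh (m - δ)) / 2

/-- `ν = -log(1-(δ/(1+m))²)/2` -/
noncomputable def nu (m δ : ℝ) : ℝ := - log (1 - (δ / (1 + m)) ^ 2) / 2

lemma I2_eq {m δ : ℝ} (hm0 : -1 < m) (hm1 : m < 1) (hδ0 : 0 ≤ δ) (hδ1 : δ < 1 - m)
    (hδ2 : δ < 1 + m) :
    I2 m δ = (1 - m) / 2 * psi (δ / (1 - m)) + (1 + m) / 2 * psi (δ / (1 + m)) := by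
  unfold I2 hh psi
  have a1 : (1:ℝ) - m ≠ 0 := by linarith
  have a2 : (1:ℝ) + m ≠ 0 := by linarith
  have e1 : 1 + δ / (1 - m) = (1 - m + δ) / (1 - m) := by field_simp
  have e2 : 1 - δ / (1 - m) = (1 - m - δ) / (1 - m) := by field_simp
  have e3 : 1 + δ / (1 + m) = (1 + m + δ) / (1 + m) := by field_simp
  have e4 : 1 - δ / (1 + m) = (1 + m - δ) / (1 + m) := by field_simp
  rw [e1, e2, e3, e4, log_div (by linarith) a1, log_div (by linarith) a1,
    log_div (by linarith) a2, log_div (by linarith) a2]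
  have f1 : 1 + (m + δ) = 1 + m + δ := by ring
  have f2 : 1 - (m + δ) = 1 - m - δ := by ring
  have f3 : 1 + (m - δ) = 1 + m - δ := by ring
  have f4 : 1 - (m - δ) = 1 - m + δ := by ring
  rw [f1, f2, f3, f4]
  field_simp
  ring

lemma nu_nonneg {m δ : ℝ} (hm0 : 0 ≤ m) (hδ0 : 0 ≤ δ) (hδ1 : δ < 1 - m) : 0 ≤ nu m δ := by
  unfold nu
  have h1 : 0 ≤ δ / (1 + m) := by positivity
  have h2 : δ / (1 + m) < 1 := by rw [div_lt_one (by linarith)]; linarith
  have := Real.log_nonpos (x := 1 - (δ / (1 + m)) ^ 2) (by nlinarith) (by nlinarith)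
  linarith

/-- the constant `M` -/
noncomputable def MM (m : ℝ) : ℝ := max 1 (2 * log 2 / (1 + ((1 - m) / (1 + m)) ^ 2 / 2))

/-- the constant `B` with `I₂ ≤ B ν` -/
noncomputable def BB (m : ℝ) : ℝ := (1 + m) / 2 + (1 + m) ^ 2 / (2 * (1 - m)) * MM m

lemma BB_pos {m : ℝ} (hm0 : 0 ≤ m) (hm1 : m < 1) : 0 < BB m := by
  unfold BB
  have : 0 < MM m := lt_of_lt_of_le one_pos (le_max_left _ _)
  have : 0 < 1 - m := by linarith
  positivity

lemma I2_le {m δ : ℝ} (hm0 : 0 ≤ m) (hm1 : m < 1) (hδ0 : 0 ≤ δ) (hδ1 : δ < 1 - m) :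
    I2 m δ ≤ BB m * nu m δ := by
  rw [I2_eq (by linarith) hm1 hδ0 hδ1 (by linarith)]
  have hp : 0 < 1 - m := by linarith
  have hq : 0 < 1 + m := by linarith
  set x := δ / (1 - m) with hx
  set y := δ / (1 + m) with hy
  set β := (1 - m) / (1 + m) with hβ
  have hx0 : 0 ≤ x := by positivity
  have hx1 : x < 1 := by rw [hx, div_lt_one hp]; exact hδ1
  have hβ0 : 0 < β := by positivity
  have hβ1 : β ≤ 1 := by rw [hβ, div_le_one hq]; linarith
  have hyx : y = β * x := by rw [hy, hβ, hx]; field_simp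
  have hy0 : 0 ≤ y := by positivity
  have hy1 : y < 1 := by rw [hy, div_lt_one hq]; linarith
  have hnu : nu m δ = - log (1 - y ^ 2) / 2 := rfl
  have h1 : psi y ≤ nu m δ := by rw [hnu]; exact psi_le_nu hy0 hy1
  have h2 := psi_le_quartic hx0 hx1
  have h3 : y ^ 2 + (y ^ 2) ^ 2 / 2 ≤ - log (1 - y ^ 2) := le_neg_log_one_sub (sq_nonneg y) (by nlinarith)
  -- psi x ≤ (M/β²) * (1/2) (y² + y⁴/2) * ... 
  have hM1 : 1 ≤ MM m := le_max_left _ _
  have hM2 : 2 * log 2 / (1 + β ^ 2 / 2) ≤ MM m := le_max_right _ _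
  have hM2' : 2 * log 2 ≤ MM m * (1 + β ^ 2 / 2) := by
    rwa [div_le_iff₀ (by positivity)] at hM2
  have h4 : 1 + (2 * log 2 - 1) * x ^ 2 ≤ MM m * (1 + β ^ 2 / 2 * x ^ 2) := by
    have hx2 : 0 ≤ x ^ 2 := sq_nonneg x
    have hx2' : x ^ 2 ≤ 1 := by nlinarith
    nlinarith [mul_nonneg hx2 (sub_nonneg.2 hM2'), mul_nonneg (sub_nonneg.2 hx2') (sub_nonneg.2 hM1)]
  have h5 : β ^ 2 * psi x ≤ MM m * nu m δ := by
    have e1 : β ^ 2 * psi x ≤ β ^ 2 * (x ^ 2 / 2 * (1 + (2 * log 2 - 1) * x ^ 2)) := by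
      apply mul_le_mul_of_nonneg_left _ (sq_nonneg _)
      linarith
    have e2 : β ^ 2 * (x ^ 2 / 2 * (1 + (2 * log 2 - 1) * x ^ 2)) ≤
        β ^ 2 * (x ^ 2 / 2 * (MM m * (1 + β ^ 2 / 2 * x ^ 2))) := by
      apply mul_le_mul_of_nonneg_left _ (sq_nonneg _)
      apply mul_le_mul_of_nonneg_left h4 (by positivity)
    have e3 : β ^ 2 * (x ^ 2 / 2 * (MM m * (1 + β ^ 2 / 2 * x ^ 2))) =
        MM m * ((y ^ 2 + (y ^ 2) ^ 2 / 2) / 2) := by rw [hyx]; ring
    have e4 : MM m * ((y ^ 2 + (y ^ 2) ^ 2 / 2) / 2) ≤ MM m * nu m δ := by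
      apply mul_le_mul_of_nonneg_left _ (by linarith)
      rw [hnu]; linarith
    linarith
  have h6 : psi x ≤ (1 + m) ^ 2 / (1 - m) ^ 2 * (MM m * nu m δ) := by
    have e : β ^ 2 = (1 - m) ^ 2 / (1 + m) ^ 2 := by rw [hβ]; field_simp
    rw [e, div_mul_eq_mul_div, div_le_iff₀ (by positivity)] at h5
    rw [div_mul_eq_mul_div, le_div_iff₀ (by positivity)]
    linarith
  unfold BB
  have h7 := mul_le_mul_of_nonneg_left h6 (by linarith : 0 ≤ (1 - m) / 2)
  have h8 := mul_le_mul_of_nonneg_left h1 (by linarith : 0 ≤ (1 + m) / 2)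
  have e9 : (1 - m) / 2 * ((1 + m) ^ 2 / (1 - m) ^ 2 * (MM m * nu m δ)) =
      (1 + m) ^ 2 / (2 * (1 - m)) * MM m * nu m δ := by
    have := hp.ne'
    field_simp
  linarith

/-! ### the numerical inequality for (M1) -/

lemma M1_num_aux {B l z : ℝ} (hB : 0 ≤ B) (hl : 0 ≤ l) (h : 0.68 * B ≤ 8 * l) :
    0.68 * B * (z - l) ≤ 2 * z ^ 2 := by
  nlinarith [sq_nonneg (z - 0.17 * B), mul_nonneg hB (sub_nonneg.2 h)]

lemma M1_num {m z : ℝ} (hm0 : 0 ≤ m) (hm1 : m < 1) (hz0 : 0.3645 ≤ z) (hz1 : z ≤ log 2) :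
    0.68 * BB m * (z - log (1 + m)) ≤ 2 * z ^ 2 := by
  have hL := L_gt
  have hL' := L_lt
  have hB := BB_pos hm0 hm1
  rcases le_total z (log (1 + m)) with hneg | hpos
  · have : 0.68 * BB m * (z - log (1 + m)) ≤ 0 :=
      mul_nonpos_of_nonneg_of_nonpos (by positivity) (by linarith)
    nlinarith [sq_nonneg z]
  have hp : 0 < 1 - m := by linarith
  have hq : 0 < 1 + m := by linarith
  have hl0 : 0 ≤ log (1 + m) := Real.log_nonneg (by linarith)
  have hlow := le_log_one_add hm0 hm1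
  have hMle : MM m ≤ 2 * log 2 := by
    unfold MM
    apply max_le (by linarith)
    rw [div_le_iff₀ (by positivity)]
    nlinarith [sq_nonneg ((1 - m) / (1 + m))]
  -- bound with B̄
  have step : ∀ Bb : ℝ, BB m ≤ Bb → 0.68 * Bb * (z - log (1 + m)) ≤ 2 * z ^ 2 →
      0.68 * BB m * (z - log (1 + m)) ≤ 2 * z ^ 2 := by
    intro Bb h1 h2
    have : 0.68 * BB m * (z - log (1 + m)) ≤ 0.68 * Bb * (z - log (1 + m)) :=
      mul_le_mul_of_nonneg_right (by linarith) (by linarith)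
    linarith
  -- reduction to z = 0.3645
  have redz : ∀ Bb : ℝ, 0 ≤ Bb → 0.68 * Bb ≤ 4 * 0.3645 →
      0.68 * Bb * (0.3645 - (m - m ^ 2 / 2)) ≤ 2 * 0.3645 ^ 2 →
      0.68 * Bb * (z - log (1 + m)) ≤ 2 * z ^ 2 := by
    intro Bb h0 h1 h2
    have h3 : 0.68 * Bb * (z - log (1 + m)) ≤ 0.68 * Bb * (z - (m - m ^ 2 / 2)) :=
      mul_le_mul_of_nonneg_left (by linarith) (by positivity)
    nlinarith [mul_nonneg (sub_nonneg.2 hz0) (sub_nonneg.2 hz0), mul_nonneg (sub_nonneg.2 hz0) (sub_nonneg.2 h1)]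
  rcases le_total m 0.06 with h | h
  · -- M = 1
    have hβ : (0.8867 : ℝ) ≤ (1 - m) / (1 + m) := by rw [le_div_iff₀ hq]; linarith
    have hM : MM m = 1 := by
      unfold MM
      apply max_eq_left
      rw [div_le_one (by positivity)]
      nlinarith
    have hBB : BB m = (1 + m) / (1 - m) := by
      unfold BB; rw [hM]; have := hp.ne'; field_simp; ring
    apply step ((1 + m) / (1 - m)) hBB.le
    have hle : (1 + m) / (1 - m) ≤ 1.13 := by rw [div_le_iff₀ hp]; linarith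
    apply redz _ (by positivity) (by linarith)
    have e : 0.68 * ((1 + m) / (1 - m)) * (0.3645 - (m - m ^ 2 / 2)) =
        0.68 * (1 + m) * (0.3645 - (m - m ^ 2 / 2)) / (1 - m) := by ring
    rw [e, div_le_iff₀ hp]
    nlinarith [mul_nonneg hm0 hm0, mul_nonneg (mul_nonneg hm0 hm0) hm0, mul_nonneg hm0 (sub_nonneg.2 h),
      mul_nonneg (mul_nonneg hm0 hm0) (sub_nonneg.2 h)]
  rcases le_total m 0.2 with h' | h'
  · have hβ : (2 / 3 : ℝ) ≤ (1 - m) / (1 + m) := by rw [le_div_iff₀ hq]; linarith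
    have hM : MM m ≤ 1.135 := by
      unfold MM
      apply max_le (by norm_num)
      rw [div_le_iff₀ (by positivity)]
      nlinarith
    have hBB : BB m ≤ (1 + m) * (2.135 + 0.135 * m) / (2 * (1 - m)) := by
      unfold BB
      have : (1 + m) ^ 2 / (2 * (1 - m)) * MM m ≤ (1 + m) ^ 2 / (2 * (1 - m)) * 1.135 :=
        mul_le_mul_of_nonneg_left hM (by positivity)
      have e : (1 + m) / 2 + (1 + m) ^ 2 / (2 * (1 - m)) * 1.135 =
          (1 + m) * (2.135 + 0.135 * m) / (2 * (1 - m)) := by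
        have := hp.ne'; field_simp; ring
      linarith
    apply step _ hBB
    have hle : (1 + m) * (2.135 + 0.135 * m) / (2 * (1 - m)) ≤ 1.63 := by
      rw [div_le_iff₀ (by linarith)]; nlinarith
    apply redz _ (by positivity) (by linarith)
    have e : 0.68 * ((1 + m) * (2.135 + 0.135 * m) / (2 * (1 - m))) * (0.3645 - (m - m ^ 2 / 2)) =
        0.34 * (1 + m) * (2.135 + 0.135 * m) * (0.3645 - (m - m ^ 2 / 2)) / (1 - m) := by
      have := hp.ne'; field_simp; ring
    rw [e, div_le_iff₀ hp]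
    nlinarith [mul_nonneg (sub_nonneg.2 h) (sub_nonneg.2 h'), mul_nonneg hm0 (mul_nonneg (sub_nonneg.2 h) (sub_nonneg.2 h')),
      mul_nonneg (mul_nonneg hm0 hm0) (mul_nonneg (sub_nonneg.2 h) (sub_nonneg.2 h'))]
  rcases le_total m 0.5 with h'' | h''
  · have hBB : BB m ≤ (1 + m) * (2.3863 + 0.3863 * m) / (2 * (1 - m)) := by
      unfold BB
      have : (1 + m) ^ 2 / (2 * (1 - m)) * MM m ≤ (1 + m) ^ 2 / (2 * (1 - m)) * 1.3863 :=
        mul_le_mul_of_nonneg_left (by linarith) (by positivity)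
      have e : (1 + m) / 2 + (1 + m) ^ 2 / (2 * (1 - m)) * 1.3863 =
          (1 + m) * (2.3863 + 0.3863 * m) / (2 * (1 - m)) := by
        have := hp.ne'; field_simp; ring
      linarith
    apply step _ hBB
    apply M1_num_aux (by positivity) hl0
    have hl := le_log_one_add' hm0 hm1
    have : 0.68 * ((1 + m) * (2.3863 + 0.3863 * m) / (2 * (1 - m))) ≤ 8 * (2 * m / (2 + m)) := by
      have e1 : 0.68 * ((1 + m) * (2.3863 + 0.3863 * m) / (2 * (1 - m))) =
          (0.34 * (1 + m) * (2.3863 + 0.3863 * m)) / (1 - m) := by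
        have := hp.ne'; field_simp; ring
      have e2 : 8 * (2 * m / (2 + m)) = 16 * m / (2 + m) := by ring
      rw [e1, e2, div_le_div_iff₀ hp (by linarith)]
      nlinarith [mul_nonneg (sub_nonneg.2 h') (sub_nonneg.2 h''), mul_nonneg hm0 (mul_nonneg (sub_nonneg.2 h') (sub_nonneg.2 h''))]
    linarith
  · -- m ≥ 1/2
    have hl : 0.4 ≤ log (1 + m) := by
      have e1 := le_log_one_add' (u := 0.5) (by norm_num) (by norm_num)
      have e2 : log (1 + 0.5) ≤ log (1 + m) := Real.log_le_log (by norm_num) (by linarith)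
      norm_num at e1 e2 ⊢
      linarith
    have hlL : log (1 + m) ≤ log 2 := Real.log_le_log (by linarith) (by linarith)
    set l := log (1 + m) with hldef
    have hBBle : BB m * (log 2 - l) ≤ 2 * log 2 := by
      -- log 2 - l ≤ (1-m)/(1+m)
      have e1 : log 2 - l ≤ (1 - m) / (1 + m) := by
        rw [hldef, ← log_div (by norm_num) hq.ne']
        have := Real.log_le_sub_one_of_pos (x := 2 / (1 + m)) (by positivity)
        have e : 2 / (1 + m) - 1 = (1 - m) / (1 + m) := by field_simp; ring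
        linarith
      have e2 : BB m * (log 2 - l) ≤ BB m * ((1 - m) / (1 + m)) := mul_le_mul_of_nonneg_left e1 hB.le
      have e3 : BB m * ((1 - m) / (1 + m)) = (1 - m) / 2 + (1 + m) / 2 * MM m := by
        unfold BB; have := hp.ne'; have := hq.ne'; field_simp
      nlinarith
    have hz : (z - l) * log 2 ^ 2 ≤ (log 2 - l) * z ^ 2 := by
      have e : (log 2 - l) * z ^ 2 - (z - l) * log 2 ^ 2 = (log 2 - z) * (log 2 * l - (log 2 - l) * z) := by ring
      have e2 : 0 ≤ log 2 * l - (log 2 - l) * z := by nlinarith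
      nlinarith [mul_nonneg (sub_nonneg.2 hz1) e2]
    have hfin : 0.68 * BB m * (z - l) * log 2 ^ 2 ≤ 2 * z ^ 2 * log 2 ^ 2 := by
      calc 0.68 * BB m * (z - l) * log 2 ^ 2 = 0.68 * BB m * ((z - l) * log 2 ^ 2) := by ring
        _ ≤ 0.68 * BB m * ((log 2 - l) * z ^ 2) := mul_le_mul_of_nonneg_left hz (by positivity)
        _ = 0.68 * (BB m * (log 2 - l)) * z ^ 2 := by ring
        _ ≤ 0.68 * (2 * log 2) * z ^ 2 := by
            apply mul_le_mul_of_nonneg_right _ (sq_nonneg _)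
            linarith
        _ ≤ 2 * z ^ 2 * log 2 ^ 2 := by nlinarith [mul_nonneg (sq_nonneg z) (by linarith : 0 ≤ log 2 - 0.68), mul_nonneg (mul_nonneg (sq_nonneg z) (by linarith : 0 ≤ log 2 - 0.68)) (by linarith : (0:ℝ) ≤ log 2)]
    exact le_of_mul_le_mul_right hfin (by positivity)

/-- (M1) -/
lemma M1 {m δ J : ℝ} (hm0 : 0 ≤ m) (hm1 : m < 1) (hδ0 : 0 ≤ δ) (hδ1 : δ < 1 - m) (hJ : 0 ≤ J) :
    Phi bt (log 2 - log (1 + m)) (J + I2 m δ) - Phi bt (log 2 - log (1 + m)) J ≤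
      (2 + sg bt J) * nu m δ := by
  have hB := BB_pos hm0 hm1
  have hI2 : 0 ≤ I2 m δ := by
    rw [I2_eq (by linarith) hm1 hδ0 hδ1 (by linarith)]
    have hp : 0 < 1 - m := by linarith
    have hq : 0 < 1 + m := by linarith
    have h1 := psi_nonneg (x := δ / (1 - m)) (by positivity) (by rw [div_lt_one hp]; exact hδ1)
    have h2 := psi_nonneg (x := δ / (1 + m)) (by positivity) (by rw [div_lt_one hq]; linarith)
    positivity
  have hnu := nu_nonneg hm0 hδ0 hδ1
  have H : ∀ r ∈ Ioo 0 bt, (log 2 - log (1 + m) - psi r) * k2 r ≤ 2 / BB m := by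
    intro r hr
    have hr1 := hr.2.trans bt_lt_one
    have hp := hh_pos (by linarith [hr.1] : -1 < r) hr1
    have t := th_pos hr.1 hr1
    have bq := one_sub_sq_pos (by linarith [hr.1] : -1 < r) hr1
    have hN := num_pos hr.1 hr1
    have hk2 : k2 r ≤ 0.68 / hh r ^ 2 := by
      unfold k2
      rw [div_le_div_iff₀ (by positivity) (by positivity)]
      have := K' hr.1 hr.2.le
      linarith
    have hk2' : 0 ≤ k2 r := by unfold k2; positivity
    have e : log 2 - log (1 + m) - psi r = hh r - log (1 + m) := by unfold hh; ring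
    rw [e]
    rcases le_total (hh r) (log (1 + m)) with hc | hc
    · have : (hh r - log (1 + m)) * k2 r ≤ 0 :=
        mul_nonpos_of_nonpos_of_nonneg (by linarith) hk2'
      have : 0 < 2 / BB m := by positivity
      linarith
    · have h1 : (hh r - log (1 + m)) * k2 r ≤ (hh r - log (1 + m)) * (0.68 / hh r ^ 2) :=
        mul_le_mul_of_nonneg_left hk2 (by linarith)
      have hzlow : 0.3645 ≤ hh r := by
        have : hh bt ≤ hh r := by unfold hh; linarith [psi_mono hr.1.le bt_lt_one hr.2.le]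
        linarith [hh_bt_gt]
      have hzup : hh r ≤ log 2 := by unfold hh; linarith [psi_nonneg hr.1.le hr1]
      have h2 := M1_num hm0 hm1 hzlow hzup
      have h3 : (hh r - log (1 + m)) * (0.68 / hh r ^ 2) ≤ 2 / BB m := by
        rw [mul_div_assoc', div_le_div_iff₀ (by positivity) hB]
        linarith
      linarith
  have h1 := Phi_increment bt_pos bt_lt_one (lam := log 2 - log (1 + m)) (U := 2 / BB m)
    (by positivity) H hJ (by linarith : J ≤ J + I2 m δ)
  have h2 := I2_le hm0 hm1 hδ0 hδ1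
  have h3 : 2 / BB m * (J + I2 m δ - J) ≤ 2 * nu m δ := by
    have : 2 / BB m * (J + I2 m δ - J) = 2 * (I2 m δ / BB m) := by ring
    rw [this]
    have : I2 m δ / BB m ≤ nu m δ := by rw [div_le_iff₀ hB]; linarith
    linarith
  have h4 := mul_nonneg (sg_nonneg bt_pos bt_lt_one J) hnu
  linarith

/-- (M2) -/
lemma M2 {m δ : ℝ} (hm0 : 0 ≤ m) (hm1 : m < 1) (hδ0 : 0 ≤ δ) (hδ1 : δ < 1 - m) :
    0.75 * (1 - m) ^ 2 * (- log (1 - δ ^ 2 / (1 - m ^ 2))) ≤ 2 * nu m δ := by
  have hp : 0 < 1 - m := by linarith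
  have hq : 0 < 1 + m := by linarith
  have e2 : 2 * nu m δ = - log (1 - (δ / (1 + m)) ^ 2) := by unfold nu; ring
  rw [e2]
  rcases eq_or_lt_of_le hm0 with h | h
  · subst h
    norm_num
    have : log (1 - δ ^ 2) ≤ 0 := Real.log_nonpos (by nlinarith) (by nlinarith)
    linarith
  set β := (1 - m) / (1 + m) with hβ
  set s := (δ / (1 - m)) ^ 2 with hs
  have hβ0 : 0 < β := by positivity
  have hβ1 : β < 1 := by rw [hβ, div_lt_one hq]; linarith
  have hx0 : 0 ≤ δ / (1 - m) := by positivity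
  have hx1 : δ / (1 - m) < 1 := by rw [div_lt_one hp]; exact hδ1
  have hs0 : 0 ≤ s := sq_nonneg _
  have hs1 : s ≤ 1 := by rw [hs]; nlinarith
  have e3 : (δ / (1 + m)) ^ 2 = β ^ 2 * s := by rw [hβ, hs]; field_simp
  have e4 : δ ^ 2 / (1 - m ^ 2) = β * s := by
    have : (1:ℝ) - m ^ 2 = (1 - m) * (1 + m) := by ring
    rw [this, hβ, hs]; field_simp
  have e5 : 0.75 * (1 - m) ^ 2 = 3 * β ^ 2 / (1 + β) ^ 2 := by
    have : 1 + β = 2 / (1 + m) := by rw [hβ]; field_simp; ring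
    rw [this, hβ]; field_simp; norm_num
  rw [e3, e4, e5]
  set Kc := 3 * β ^ 2 / (1 + β) ^ 2 with hKc
  have hK0 : 0 < Kc := by positivity
  have hK1 : Kc ≤ 0.75 := by rw [hKc, div_le_iff₀ (by positivity)]; nlinarith
  have key : ∀ t ∈ Icc (0:ℝ) 1, HasDerivAt (fun t => - log (1 - β ^ 2 * t) - Kc * (- log (1 - β * t)))
      (β * ((β - Kc) - β ^ 2 * t * (1 - Kc)) / ((1 - β ^ 2 * t) * (1 - β * t))) t := by
    intro t ht
    have d1 : 0 < 1 - β ^ 2 * t := by nlinarith [ht.1, ht.2]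
    have d2 : 0 < 1 - β * t := by nlinarith [ht.1, ht.2]
    have f1 : HasDerivAt (fun t : ℝ => 1 - β ^ 2 * t) (-(β ^ 2)) t := by
      simpa using ((hasDerivAt_id t).const_mul (β ^ 2)).const_sub 1
    have f2 : HasDerivAt (fun t : ℝ => 1 - β * t) (-β) t := by
      simpa using ((hasDerivAt_id t).const_mul β).const_sub 1
    refine ((f1.log d1.ne').fun_neg.fun_sub (((f2.log d2.ne').fun_neg).const_mul Kc)).congr_deriv ?_
    have := d1.ne'
    have := d2.ne'
    field_simp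
    ring
  have hend : 0 ≤ - log (1 - β ^ 2 * 1) - Kc * (- log (1 - β * 1)) := by
    have := M2_endpoint hβ0 hβ1
    have e6 : log (1 - β ^ 2 * 1) = log (1 - β) + log (1 + β) := by
      rw [← log_mul (by linarith) (by linarith)]; congr 1; ring
    rw [e6, mul_one]
    have e7 : (1 + β) ^ 2 * (-(log (1 - β) + log (1 + β)) - Kc * -log (1 - β)) =
        (1 + 2 * β - 2 * β ^ 2) * -log (1 - β) - (1 + β) ^ 2 * log (1 + β) := by
      rw [hKc]; have : (1 + β) ≠ 0 := by linarith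
      field_simp; ring
    have e8 : 0 ≤ (1 + β) ^ 2 * (-(log (1 - β) + log (1 + β)) - Kc * -log (1 - β)) := by
      rw [e7]; linarith
    exact nonneg_of_mul_nonneg_right e8 (by positivity)
  rcases le_total (β ^ 2 * s * (1 - Kc)) (β - Kc) with hc | hc
  · have hm : MonotoneOn (fun t => - log (1 - β ^ 2 * t) - Kc * (- log (1 - β * t))) (Icc 0 s) := by
      apply monotoneOn_of_deriv_nonneg (convex_Icc _ _)
      · intro t ht
        exact (key t ⟨ht.1, ht.2.trans hs1⟩).continuousAt.continuousWithinAt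
      · intro t ht
        rw [interior_Icc] at ht
        exact (key t ⟨ht.1.le, ht.2.le.trans hs1⟩).differentiableAt.differentiableWithinAt
      · intro t ht
        rw [interior_Icc] at ht
        rw [(key t ⟨ht.1.le, ht.2.le.trans hs1⟩).deriv]
        have ht1 := ht.2.le.trans hs1
        have d1 : 0 < 1 - β ^ 2 * t := by nlinarith [ht.1]
        have d2 : 0 < 1 - β * t := by nlinarith [ht.1]
        apply div_nonneg _ (by positivity)
        apply mul_nonneg hβ0.le
        have : β ^ 2 * t * (1 - Kc) ≤ β ^ 2 * s * (1 - Kc) := by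
          apply mul_le_mul_of_nonneg_right _ (by linarith)
          exact mul_le_mul_of_nonneg_left ht.2.le (sq_nonneg _)
        linarith
    have := hm ⟨le_rfl, hs0⟩ ⟨hs0, le_rfl⟩ hs0
    simp at this
    linarith
  · have hm : AntitoneOn (fun t => - log (1 - β ^ 2 * t) - Kc * (- log (1 - β * t))) (Icc s 1) := by
      apply antitoneOn_of_deriv_nonpos (convex_Icc _ _)
      · intro t ht
        exact (key t ⟨hs0.trans ht.1, ht.2⟩).continuousAt.continuousWithinAt
      · intro t ht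
        rw [interior_Icc] at ht
        exact (key t ⟨hs0.trans ht.1.le, ht.2.le⟩).differentiableAt.differentiableWithinAt
      · intro t ht
        rw [interior_Icc] at ht
        rw [(key t ⟨hs0.trans ht.1.le, ht.2.le⟩).deriv]
        have ht0 := hs0.trans ht.1.le
        have ht1 := ht.2.le
        have d1 : 0 < 1 - β ^ 2 * t := by nlinarith
        have d2 : 0 < 1 - β * t := by nlinarith
        apply div_nonpos_of_nonpos_of_nonneg _ (by positivity)
        apply mul_nonpos_of_nonneg_of_nonpos hβ0.le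
        have : β ^ 2 * s * (1 - Kc) ≤ β ^ 2 * t * (1 - Kc) := by
          apply mul_le_mul_of_nonneg_right _ (by linarith)
          exact mul_le_mul_of_nonneg_left ht.1.le (sq_nonneg _)
        linarith
    have := hm ⟨le_rfl, hs1⟩ ⟨hs1, le_rfl⟩ hs1
    simp only at this
    linarith

end Crest.Agent.H28
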