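import Crest.Agent.H28.Cube

set_option autoImplicit false

namespace Crest.Agent.H28

open Real Set Crest.CubeNoise

lemma spin_mul_self (b : Bool) : spin b * spin b = 1 := by cases b <;> simp [spin]

lemma spin_not (b : Bool) : spin (!b) = - spin b := by cases b <;> simp [spin]

lemma spin_mul_abs (a b : Bool) : |spin a * spin b| = 1 := by
  cases a <;> cases b <;> simp [spin]

/-- the noise kernel -/
noncomputable def ker {n : ℕ} (ρ : ℝ) (x y : Fin n → Bool) : ℝ :=
  ∏ i, (1 + ρ * spin (x i) * spin (y i)) / 2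

lemma noise_eq {n : ℕ} (ρ : ℝ) (u : (Fin n → Bool) → ℝ) (x : Fin n → Bool) :
    noise ρ u x = ∑ y, ker ρ x y * u y := rfl

lemma ker_symm {n : ℕ} (ρ : ℝ) (x y : Fin n → Bool) : ker ρ x y = ker ρ y x := by
  unfold ker
  apply Finset.prod_congr rfl
  intro i _
  ring

lemma ker_sum {n : ℕ} (ρ : ℝ) (x : Fin n → Bool) : ∑ y, ker ρ x y = 1 := by
  unfold ker
  rw [← Fintype.prod_sum (fun i (b : Bool) => (1 + ρ * spin (x i) * spin b) / 2)]
  apply Finset.prod_eq_one
  intro i _
  rw [Fintype.sum_bool]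
  simp [spin]
  ring

lemma ker_sum' {n : ℕ} (ρ : ℝ) (y : Fin n → Bool) : ∑ x, ker ρ x y = 1 := by
  simp only [fun x => ker_symm ρ x y]
  exact ker_sum ρ y

lemma ker_factor_nonneg {ρ : ℝ} (hρ : |ρ| ≤ 1) (a b : Bool) : 0 ≤ (1 + ρ * spin a * spin b) / 2 := by
  have h := abs_le.1 hρ
  cases a <;> cases b <;> simp [spin] <;> linarith [h.1, h.2]

lemma ker_factor_pos {ρ : ℝ} (hρ : |ρ| < 1) (a b : Bool) : 0 < (1 + ρ * spin a * spin b) / 2 := by
  have h := abs_lt.1 hρ
  cases a <;> cases b <;> simp [spin] <;> linarith [h.1, h.2]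

lemma ker_nonneg {n : ℕ} {ρ : ℝ} (hρ : |ρ| ≤ 1) (x y : Fin n → Bool) : 0 ≤ ker ρ x y :=
  Finset.prod_nonneg fun i _ => ker_factor_nonneg hρ _ _

lemma ker_pos {n : ℕ} {ρ : ℝ} (hρ : |ρ| < 1) (x y : Fin n → Bool) : 0 < ker ρ x y :=
  Finset.prod_pos fun i _ => ker_factor_pos hρ _ _

lemma cubeAverage_noise {n : ℕ} (ρ : ℝ) (u : (Fin n → Bool) → ℝ) :
    cubeAverage (noise ρ u) = cubeAverage u := by
  unfold cubeAverage
  congr 1
  simp only [noise_eq]
  rw [Finset.sum_comm]
  simp only [← Finset.sum_mul, ker_sum', one_mul]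

lemma abs_noise_le {n : ℕ} {ρ : ℝ} (hρ : |ρ| ≤ 1) {u : (Fin n → Bool) → ℝ} (hu : ∀ x, |u x| ≤ 1)
    (x : Fin n → Bool) : |noise ρ u x| ≤ 1 := by
  rw [noise_eq]
  calc |∑ y, ker ρ x y * u y| ≤ ∑ y, |ker ρ x y * u y| := Finset.abs_sum_le_sum_abs _ _
    _ ≤ ∑ y, ker ρ x y := by
        apply Finset.sum_le_sum
        intro y _
        rw [abs_mul, abs_of_nonneg (ker_nonneg hρ x y)]
        exact mul_le_of_le_one_right (ker_nonneg hρ x y) (hu y)
    _ = 1 := ker_sum ρ x

/-- strictly inside unless `u` is constant `±1` -/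
lemma abs_noise_lt {n : ℕ} {ρ : ℝ} (hρ : |ρ| < 1) {u : (Fin n → Bool) → ℝ} (hu : ∀ x, |u x| ≤ 1)
    (h1 : ∃ x, u x ≠ 1) (h2 : ∃ x, u x ≠ -1) (x : Fin n → Bool) : |noise ρ u x| < 1 := by
  rw [noise_eq, abs_lt]
  constructor
  · obtain ⟨z, hz⟩ := h2
    have : ∑ y, ker ρ x y * (-1) < ∑ y, ker ρ x y * u y := by
      apply Finset.sum_lt_sum
      · intro y _
        exact mul_le_mul_of_nonneg_left (abs_le.1 (hu y)).1 (ker_pos hρ x y).le
      · exact ⟨z, Finset.mem_univ _, mul_lt_mul_of_pos_left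
          (lt_of_le_of_ne (abs_le.1 (hu z)).1 (Ne.symm hz)) (ker_pos hρ x z)⟩
    rw [← Finset.sum_mul, ker_sum] at this
    linarith
  · obtain ⟨z, hz⟩ := h1
    have : ∑ y, ker ρ x y * u y < ∑ y, ker ρ x y * 1 := by
      apply Finset.sum_lt_sum
      · intro y _
        exact mul_le_mul_of_nonneg_left (abs_le.1 (hu y)).2 (ker_pos hρ x y).le
      · exact ⟨z, Finset.mem_univ _, mul_lt_mul_of_pos_left
          (lt_of_le_of_ne (abs_le.1 (hu z)).2 hz) (ker_pos hρ x z)⟩
    rw [← Finset.sum_mul, ker_sum] at this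
    linarith

lemma ker_flip {n : ℕ} (ρ : ℝ) (x y : Fin n → Bool) (i : Fin n) :
    ker ρ (flipBit i x) y = (1 - ρ * spin (x i) * spin (y i)) / 2 *
      ∏ j ∈ Finset.univ.erase i, (1 + ρ * spin (x j) * spin (y j)) / 2 := by
  unfold ker
  rw [← Finset.mul_prod_erase Finset.univ _ (Finset.mem_univ i)]
  congr 1
  · unfold flipBit
    rw [Function.update_self, spin_not]; ring
  · apply Finset.prod_congr rfl
    intro j hj
    unfold flipBit
    rw [Function.update_of_ne (Finset.ne_of_mem_erase hj)]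

lemma ker_erase {n : ℕ} (ρ : ℝ) (x y : Fin n → Bool) (i : Fin n) :
    ker ρ x y = (1 + ρ * spin (x i) * spin (y i)) / 2 *
      ∏ j ∈ Finset.univ.erase i, (1 + ρ * spin (x j) * spin (y j)) / 2 := by
  unfold ker
  rw [← Finset.mul_prod_erase Finset.univ _ (Finset.mem_univ i)]

lemma hasDerivAt_ker {n : ℕ} {ρ : ℝ} (hρ : ρ ≠ 0) (x y : Fin n → Bool) :
    HasDerivAt (fun ρ => ker ρ x y)
      (1 / ρ * ((∑ i, (ker ρ x y - ker ρ (flipBit i x) y)) / 2)) ρ := by
  have h : ∀ i ∈ (Finset.univ : Finset (Fin n)),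
      HasDerivAt (fun ρ : ℝ => (1 + ρ * spin (x i) * spin (y i)) / 2)
        (spin (x i) * spin (y i) / 2) ρ := by
    intro i _
    have := (((hasDerivAt_id ρ).mul_const (spin (x i))).mul_const (spin (y i))).const_add 1
    refine (this.div_const 2).congr_deriv ?_
    ring
  have h2 := HasDerivAt.fun_finsetProd h
  refine h2.congr_deriv ?_
  rw [Finset.sum_div, Finset.mul_sum]
  apply Finset.sum_congr rfl
  intro i _
  rw [ker_flip, ker_erase ρ x y i, smul_eq_mul]
  field_simp
  ring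

lemma hasDerivAt_noise {n : ℕ} {ρ : ℝ} (hρ : ρ ≠ 0) (u : (Fin n → Bool) → ℝ) (x : Fin n → Bool) :
    HasDerivAt (fun ρ => noise ρ u x)
      (1 / ρ * ((∑ i, (noise ρ u x - noise ρ u (flipBit i x))) / 2)) ρ := by
  have h : ∀ y ∈ (Finset.univ : Finset (Fin n → Bool)),
      HasDerivAt (fun ρ : ℝ => ker ρ x y * u y)
        (1 / ρ * ((∑ i, (ker ρ x y - ker ρ (flipBit i x) y)) / 2) * u y) ρ :=
    fun y _ => (hasDerivAt_ker hρ x y).mul_const (u y)
  have h2 := HasDerivAt.fun_sum h
  refine h2.congr_deriv ?_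
  simp only [noise_eq]
  have e : ∑ i, (∑ y, ker ρ x y * u y - ∑ y, ker ρ (flipBit i x) y * u y) =
      ∑ y, (∑ i, (ker ρ x y - ker ρ (flipBit i x) y)) * u y := by
    rw [Finset.sum_congr rfl (fun i _ => (Finset.sum_sub_distrib _ _).symm), Finset.sum_comm]
    apply Finset.sum_congr rfl
    intro y _
    rw [Finset.sum_mul]
    apply Finset.sum_congr rfl
    intro i _
    ring
  rw [e, Finset.sum_div, Finset.mul_sum]
  apply Finset.sum_congr rfl
  intro y _
  ring

lemma continuous_noise {n : ℕ} (u : (Fin n → Bool) → ℝ) (x : Fin n → Bool) :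
    Continuous (fun ρ => noise ρ u x) := by
  unfold noise
  fun_prop

lemma noise_one {n : ℕ} (u : (Fin n → Bool) → ℝ) : noise 1 u = u := by
  funext x
  rw [noise_eq, Finset.sum_eq_single x]
  · have : ker 1 x x = 1 := by
      unfold ker
      apply Finset.prod_eq_one
      intro i _
      rw [one_mul, spin_mul_self]; norm_num
    rw [this, one_mul]
  · intro y _ hy
    obtain ⟨i, hi⟩ : ∃ i, y i ≠ x i := by
      by_contra h
      push Not at h
      exact hy (funext h)
    have : ker 1 x y = 0 := by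
      unfold ker
      apply Finset.prod_eq_zero (Finset.mem_univ i)
      have h2 : spin (x i) * spin (y i) = -1 := by
        have : y i = !(x i) := by
          cases h3 : x i <;> cases h4 : y i <;> simp_all
        rw [this, spin_not]
        have := spin_mul_self (x i)
        linarith
      rw [one_mul, h2]; norm_num
    rw [this, zero_mul]
  · intro h
    exact absurd (Finset.mem_univ x) h

lemma noise_zero {n : ℕ} (u : (Fin n → Bool) → ℝ) (x : Fin n → Bool) :
    noise 0 u x = cubeAverage u := by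
  rw [noise_eq]
  unfold ker cubeAverage
  simp only [zero_mul, add_zero, Finset.prod_const, Finset.card_univ, Fintype.card_fin]
  rw [← Finset.mul_sum, one_div, inv_pow]
  field_simp

/-- reversing all bits -/
lemma noise_neg {n : ℕ} (ρ : ℝ) (u : (Fin n → Bool) → ℝ) (x : Fin n → Bool) :
    noise (-ρ) u x = noise ρ u (fun i => !(x i)) := by
  unfold noise
  apply Finset.sum_congr rfl
  intro y _
  congr 1
  apply Finset.prod_congr rfl
  intro i _
  rw [spin_not]; ring

lemma cubeAverage_compl {n : ℕ} (f : (Fin n → Bool) → ℝ) :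
    cubeAverage (fun x => f (fun i => !(x i))) = cubeAverage f := by
  unfold cubeAverage
  congr 1
  let e : (Fin n → Bool) ≃ (Fin n → Bool) :=
    { toFun := fun x i => !(x i)
      invFun := fun x i => !(x i)
      left_inv := fun x => by funext i; simp
      right_inv := fun x => by funext i; simp }
  exact Equiv.sum_comp e f

lemma information_noise_neg {n : ℕ} (ρ : ℝ) (u : (Fin n → Bool) → ℝ) :
    information (noise (-ρ) u) = information (noise ρ u) := by
  unfold information
  have h1 : noise (-ρ) u = fun x => noise ρ u (fun i => !(x i)) := by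
    funext x; exact noise_neg ρ u x
  rw [h1, cubeAverage_compl (noise ρ u), cubeAverage_compl (fun x => signEntropy (noise ρ u x))]

/-! ### the information along the noise flow -/

/-- information of the noisy version, in terms of `hh` -/
noncomputable def If {n : ℕ} (u : (Fin n → Bool) → ℝ) (ρ : ℝ) : ℝ :=
  hh (cubeAverage u) - cubeAverage (fun x => hh (noise ρ u x))

lemma cubeAverage_abs_le {n : ℕ} {g : (Fin n → Bool) → ℝ} (h : ∀ x, |g x| ≤ 1) :
    |cubeAverage g| ≤ 1 := by
  rw [abs_le]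
  have h1 := cubeAverage_mono (n := n) (f := fun _ => -1) (g := g) (fun x => (abs_le.1 (h x)).1)
  have h2 := cubeAverage_mono (n := n) (f := g) (g := fun _ => 1) (fun x => (abs_le.1 (h x)).2)
  rw [cubeAverage_const] at h1 h2
  exact ⟨h1, h2⟩

lemma information_noise_eq {n : ℕ} {u : (Fin n → Bool) → ℝ} (hu : ∀ x, |u x| ≤ 1) {ρ : ℝ}
    (hρ : |ρ| ≤ 1) : information (noise ρ u) = If u ρ := by
  unfold information If
  have h1 := abs_le.1 (cubeAverage_abs_le hu)
  rw [cubeAverage_noise, signEntropy_eq h1.1 h1.2]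
  congr 2
  funext x
  have h2 := abs_le.1 (abs_noise_le hρ hu x)
  exact signEntropy_eq h2.1 h2.2

lemma continuous_cubeAverage {n : ℕ} {f : ℝ → (Fin n → Bool) → ℝ} (h : ∀ x, Continuous fun ρ => f ρ x) :
    Continuous (fun ρ => cubeAverage (f ρ)) := by
  unfold cubeAverage
  exact (continuous_finsetSum _ fun x _ => h x).div_const _

lemma continuous_If {n : ℕ} (u : (Fin n → Bool) → ℝ) : Continuous (If u) := by
  unfold If
  apply continuous_const.sub
  apply continuous_cubeAverage
  intro x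
  exact continuous_hh.comp (continuous_noise u x)

lemma hasDerivAt_If {n : ℕ} {u : (Fin n → Bool) → ℝ} {ρ : ℝ} (hρ : ρ ≠ 0)
    (hg : ∀ x, |noise ρ u x| < 1) : HasDerivAt (If u) (production (noise ρ u) / ρ) ρ := by
  have h : ∀ x ∈ (Finset.univ : Finset (Fin n → Bool)),
      HasDerivAt (fun ρ => hh (noise ρ u x))
        (-th (noise ρ u x) * (1 / ρ * ((∑ i, (noise ρ u x - noise ρ u (flipBit i x))) / 2))) ρ :=
    fun x _ => HasDerivAt.comp (h₂ := hh) ρ
      (hasDerivAt_hh (abs_lt.1 (hg x)).1 (abs_lt.1 (hg x)).2) (hasDerivAt_noise hρ u x)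
  have h2 := ((HasDerivAt.fun_sum h).div_const (2 ^ n)).const_sub (hh (cubeAverage u))
  refine h2.congr_deriv ?_
  unfold production cubeAverage
  have e : (∑ x, Real.artanh (noise ρ u x) *
      ((∑ i, (noise ρ u x - noise ρ u (flipBit i x))) / 2)) =
      -(∑ x, -th (noise ρ u x) *
        (1 / ρ * ((∑ i, (noise ρ u x - noise ρ u (flipBit i x))) / 2))) * ρ := by
    rw [← Finset.sum_neg_distrib, Finset.sum_mul]
    apply Finset.sum_congr rfl
    intro x _
    rw [th_eq_artanh (abs_lt.1 (hg x)).1 (abs_lt.1 (hg x)).2]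
    field_simp
  rw [e]
  field_simp

end Crest.Agent.H28
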