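import Crest.Agent.H28.Basic

set_option autoImplicit false

namespace Crest.Agent.H28

open Real Set

/-! ### derivative building blocks -/

lemma hasDerivAt_one_sub_sq (y : ℝ) : HasDerivAt (fun x : ℝ => 1 - x ^ 2) (-(2 * y)) y := by
  have := ((hasDerivAt_id y).pow 2).const_sub 1
  simpa using this

lemma hasDerivAt_one_add_sq (y : ℝ) : HasDerivAt (fun x : ℝ => 1 + x ^ 2) (2 * y) y := by
  have := ((hasDerivAt_id y).pow 2).const_add 1
  simpa using this

/-- `(1+r^2) th r - r ≥ 0` -/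
lemma num_nonneg {r : ℝ} (h0 : 0 ≤ r) (h1 : r < 1) : 0 ≤ (1 + r ^ 2) * th r - r := by
  nlinarith [le_th h0 h1, sq_nonneg r, th_nonneg h0 h1]

lemma num_pos {r : ℝ} (h0 : 0 < r) (h1 : r < 1) : 0 < (1 + r ^ 2) * th r - r := by
  have := le_th h0.le h1
  have h2 : 0 < r ^ 2 := by positivity
  nlinarith [mul_pos h2 (th_pos h0 h1)]

/-! ### the surplus function in the `r` variable -/

/-- `S_r = r artanh r - 2 psi r` -/
noncomputable def Sr (r : ℝ) : ℝ := r * th r - 2 * psi r

/-- `s_r`, the derivative of the surplus with respect to `psi` -/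
noncomputable def sr (r : ℝ) : ℝ := if r = 0 then 0 else r / ((1 - r ^ 2) * th r) - 1

lemma sr_zero : sr 0 = 0 := by simp [sr]

lemma sr_of_pos {r : ℝ} (h : 0 < r) : sr r = r / ((1 - r ^ 2) * th r) - 1 := by
  simp [sr, h.ne']

lemma Sr_zero : Sr 0 = 0 := by simp [Sr, psi_zero]

/-- `s_r * th r = r/(1-r^2) - th r` -/
lemma sr_mul_th {r : ℝ} (h0 : 0 ≤ r) (h1 : r < 1) : sr r * th r = r / (1 - r ^ 2) - th r := by
  rcases eq_or_lt_of_le h0 with h | h
  · subst h; simp [sr, th_zero]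
  · rw [sr_of_pos h]
    have a := (th_pos h h1).ne'
    have b := (one_sub_sq_pos (by linarith) h1).ne'
    field_simp

lemma sr_nonneg {r : ℝ} (h0 : 0 ≤ r) (h1 : r < 1) : 0 ≤ sr r := by
  rcases eq_or_lt_of_le h0 with h | h
  · subst h; simp [sr]
  · rw [sr_of_pos h]
    have a := th_pos h h1
    have b := one_sub_sq_pos (by linarith) h1
    rw [sub_nonneg, le_div_iff₀ (by positivity)]
    have := th_le h0 h1
    rw [le_div_iff₀ b] at this
    linarith

lemma sr_le {r : ℝ} (h0 : 0 ≤ r) (h1 : r < 1) : sr r ≤ r ^ 2 / (1 - r ^ 2) := by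
  rcases eq_or_lt_of_le h0 with h | h
  · subst h; simp [sr]
  · rw [sr_of_pos h]
    have a := th_pos h h1
    have b := one_sub_sq_pos (by linarith) h1
    have c : r / ((1 - r ^ 2) * th r) ≤ 1 / (1 - r ^ 2) := by
      rw [div_le_div_iff₀ (by positivity) b]
      nlinarith [le_th h0 h1]
    have d : (1 : ℝ) / (1 - r ^ 2) - 1 = r ^ 2 / (1 - r ^ 2) := by
      field_simp; ring
    linarith

/-- the second derivative `S''` times `th` -/
noncomputable def sr' (r : ℝ) : ℝ := ((1 + r ^ 2) * th r - r) / ((1 - r ^ 2) ^ 2 * th r ^ 2)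

lemma hasDerivAt_sr {r : ℝ} (h0 : 0 < r) (h1 : r < 1) : HasDerivAt sr (sr' r) r := by
  have a := th_pos h0 h1
  have b := one_sub_sq_pos (by linarith) h1
  have e1 := (hasDerivAt_one_sub_sq r).fun_mul (hasDerivAt_th (by linarith) h1)
  have e2 := ((hasDerivAt_id r).fun_div e1 (by positivity)).sub_const 1
  have e3 : HasDerivAt (fun r => r / ((1 - r ^ 2) * th r) - 1) (sr' r) r := by
    refine e2.congr_deriv ?_
    unfold sr'
    simp only [id]
    have a' := a.ne'
    have b' := b.ne'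
    field_simp
    ring
  refine e3.congr_of_eventuallyEq ?_
  filter_upwards [lt_mem_nhds h0] with x hx
  exact sr_of_pos hx

lemma continuousOn_sr : ContinuousOn sr (Ico 0 1) := by
  intro x hx
  rcases eq_or_lt_of_le hx.1 with h | h
  · subst h
    have key : Filter.Tendsto (fun r : ℝ => r ^ 2 / (1 - r ^ 2)) (nhdsWithin 0 (Ico 0 1)) (nhds 0) := by
      have : ContinuousAt (fun r : ℝ => r ^ 2 / (1 - r ^ 2)) 0 := by
        apply ContinuousAt.div
        · fun_prop
        · fun_prop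
        · norm_num
      have h2 := this.tendsto.mono_left (nhdsWithin_le_nhds (s := Ico (0:ℝ) 1))
      simpa using h2
    unfold ContinuousWithinAt
    rw [sr_zero]
    refine squeeze_zero' ?_ ?_ key
    · filter_upwards [self_mem_nhdsWithin] with r hr using sr_nonneg hr.1 hr.2
    · filter_upwards [self_mem_nhdsWithin] with r hr using sr_le hr.1 hr.2
  · exact (hasDerivAt_sr h hx.2).continuousAt.continuousWithinAt

lemma sr'_nonneg {r : ℝ} (h0 : 0 ≤ r) (h1 : r < 1) : 0 ≤ sr' r := by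
  unfold sr'
  have := num_nonneg h0 h1
  positivity

lemma sr_mono : MonotoneOn sr (Ico 0 1) :=
  mono_of_deriv_Ico continuousOn_sr (fun x hx => hasDerivAt_sr hx.1 hx.2)
    (fun x hx => sr'_nonneg hx.1.le hx.2)

lemma sr_mono' {x y : ℝ} (hx : 0 ≤ x) (hy : y < 1) (h : x ≤ y) : sr x ≤ sr y :=
  sr_mono ⟨hx, lt_of_le_of_lt h hy⟩ ⟨hx.trans h, hy⟩ h

lemma hasDerivAt_Sr {r : ℝ} (h0 : 0 ≤ r) (h1 : r < 1) : HasDerivAt Sr (sr r * th r) r := by
  have e1 := ((hasDerivAt_id r).fun_mul (hasDerivAt_th (by linarith) h1)).fun_sub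
    ((hasDerivAt_psi (by linarith) h1).const_mul 2)
  refine e1.congr_deriv ?_
  rw [sr_mul_th h0 h1]
  simp only [id]
  ring

lemma continuousOn_Sr : ContinuousOn Sr (Ico 0 1) := fun x hx =>
  (hasDerivAt_Sr hx.1 hx.2).continuousAt.continuousWithinAt

lemma Sr_mono : MonotoneOn Sr (Ico 0 1) :=
  mono_of_deriv_Ico continuousOn_Sr (fun x hx => hasDerivAt_Sr hx.1.le hx.2)
    (fun x hx => mul_nonneg (sr_nonneg hx.1.le hx.2) (th_nonneg hx.1.le hx.2))

lemma Sr_nonneg {r : ℝ} (h0 : 0 ≤ r) (h1 : r < 1) : 0 ≤ Sr r := by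
  rw [← Sr_zero]; exact Sr_mono ⟨le_rfl, by norm_num⟩ ⟨h0, h1⟩ h0

/-- tangent inequality for the convex function `psi r ↦ S_r` -/
lemma Sr_tangent {x r : ℝ} (hx0 : 0 ≤ x) (hx1 : x < 1) (hr0 : 0 ≤ r) (hr1 : r < 1) :
    Sr r + sr r * (psi x - psi r) ≤ Sr x := by
  have key : ∀ y ∈ Ico (0:ℝ) 1, HasDerivAt (fun u => Sr u - sr r * psi u)
      ((sr y - sr r) * th y) y := by
    intro y hy
    refine ((hasDerivAt_Sr hy.1 hy.2).fun_sub
      ((hasDerivAt_psi (by linarith [hy.1]) hy.2).const_mul (sr r))).congr_deriv ?_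
    ring
  rcases le_total r x with h | h
  · have := le_of_deriv_Ico (f := fun u => Sr u - sr r * psi u) (a := r) (b := 1)
      (f' := fun y => (sr y - sr r) * th y)
      (fun y hy => (key y ⟨hr0.trans hy.1, hy.2⟩).continuousAt.continuousWithinAt)
      (fun y hy => key y ⟨hr0.trans hy.1.le, hy.2⟩)
      (fun y hy => mul_nonneg (sub_nonneg.2 (sr_mono' hr0 hy.2 hy.1.le))
        (th_nonneg (hr0.trans hy.1.le) hy.2)) ⟨h, hx1⟩
    skip
    linarith
  · have hanti : AntitoneOn (fun u => Sr u - sr r * psi u) (Icc x r) := by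
      apply antitoneOn_of_deriv_nonpos (convex_Icc _ _)
      · intro y hy
        exact (key y ⟨hx0.trans hy.1, lt_of_le_of_lt hy.2 hr1⟩).continuousAt.continuousWithinAt
      · intro y hy
        rw [interior_Icc] at hy
        exact (key y ⟨hx0.trans hy.1.le, lt_of_lt_of_le hy.2 hr1.le⟩).differentiableAt.differentiableWithinAt
      · intro y hy
        rw [interior_Icc] at hy
        have hy1 : y < 1 := lt_of_lt_of_le hy.2 hr1.le
        have hy0 : 0 ≤ y := hx0.trans hy.1.le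
        rw [(key y ⟨hy0, hy1⟩).deriv]
        exact mul_nonpos_of_nonpos_of_nonneg (sub_nonpos.2 (sr_mono' hy0 hr1 hy.2.le))
          (th_nonneg hy0 hy1)
    have := hanti ⟨le_rfl, h⟩ ⟨h, le_rfl⟩ h
    simp only at this
    linarith

/-! ### `S''` is nondecreasing -/

/-- `S''` as a function of `r` -/
noncomputable def k2 (r : ℝ) : ℝ := ((1 + r ^ 2) * th r - r) / ((1 - r ^ 2) ^ 2 * th r ^ 3)

lemma sr'_eq_k2 {r : ℝ} (h0 : 0 < r) (h1 : r < 1) : sr' r = k2 r * th r := by
  unfold sr' k2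
  have a := (th_pos h0 h1).ne'
  have b := (one_sub_sq_pos (by linarith) h1).ne'
  field_simp

lemma aux_k_nonneg {r : ℝ} (h0 : 0 ≤ r) (h1 : r < 1) :
    0 ≤ 4 * r * th r ^ 2 - 3 * (1 + r ^ 2) * th r + 3 * r := by
  have key : ∀ y ∈ Ico (0:ℝ) 1, HasDerivAt
      (fun r => 4 * r * th r ^ 2 - 3 * (1 + r ^ 2) * th r + 3 * r)
      ((4 * th y ^ 2 * (1 - y ^ 2) + 2 * y * th y * (1 + 3 * y ^ 2) - 6 * y ^ 2) / (1 - y ^ 2)) y := by
    intro y hy
    have b := (one_sub_sq_pos (by linarith [hy.1] : -1 < y) hy.2)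
    have t := hasDerivAt_th (by linarith [hy.1] : -1 < y) hy.2
    have e1 := ((hasDerivAt_id y).const_mul 4).fun_mul (t.fun_pow 2)
    have e2 := ((hasDerivAt_one_add_sq y).const_mul 3).fun_mul t
    have e3 := (e1.fun_sub e2).fun_add ((hasDerivAt_id y).const_mul 3)
    refine e3.congr_deriv ?_
    simp only [id]
    have b' := b.ne'
    field_simp
    ring
  have := le_of_deriv_Ico (f := fun r => 4 * r * th r ^ 2 - 3 * (1 + r ^ 2) * th r + 3 * r)
    (a := 0) (b := 1)
    (f' := fun y => (4 * th y ^ 2 * (1 - y ^ 2) + 2 * y * th y * (1 + 3 * y ^ 2) - 6 * y ^ 2) / (1 - y ^ 2))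
    (fun y hy => (key y hy).continuousAt.continuousWithinAt)
    (fun y hy => key y ⟨hy.1.le, hy.2⟩)
    (fun y hy => by
      have b := (one_sub_sq_pos (by linarith [hy.1] : -1 < y) hy.2)
      apply div_nonneg _ b.le
      have t := le_th hy.1.le hy.2
      have h2 : y ^ 2 ≤ th y ^ 2 := by nlinarith [hy.1]
      have h3 : y * y ≤ y * th y := mul_le_mul_of_nonneg_left t hy.1.le
      nlinarith [mul_le_mul_of_nonneg_right h2 b.le, mul_nonneg (sub_nonneg.2 h3) (sq_nonneg y),
        sq_nonneg (y ^ 2)]) ⟨h0, h1⟩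
  simpa [th_zero] using this

lemma hasDerivAt_k2 {r : ℝ} (h0 : 0 < r) (h1 : r < 1) : HasDerivAt k2
    ((th r ^ 2 * (6 * r + 2 * r ^ 3) - th r * (3 + 5 * r ^ 2) + 3 * r) /
      ((1 - r ^ 2) ^ 3 * th r ^ 4)) r := by
  have a := th_pos h0 h1
  have b := one_sub_sq_pos (by linarith) h1
  have t := hasDerivAt_th (by linarith : -1 < r) h1
  have n1 := ((hasDerivAt_one_add_sq r).fun_mul t).fun_sub (hasDerivAt_id r)
  have d1 := ((hasDerivAt_one_sub_sq r).fun_pow 2).fun_mul (t.fun_pow 3)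
  refine (n1.fun_div d1 (by positivity)).congr_deriv ?_
  simp only [id]
  have a' := a.ne'
  have b' := b.ne'
  field_simp
  ring

lemma k2_mono {x y : ℝ} (hx : 0 < x) (hy : y < 1) (h : x ≤ y) : k2 x ≤ k2 y := by
  have : MonotoneOn k2 (Ioo 0 1) := by
    apply monotoneOn_of_deriv_nonneg (convex_Ioo _ _)
    · intro r hr
      exact (hasDerivAt_k2 hr.1 hr.2).continuousAt.continuousWithinAt
    · intro r hr
      rw [interior_Ioo] at hr
      exact (hasDerivAt_k2 hr.1 hr.2).differentiableAt.differentiableWithinAt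
    · intro r hr
      rw [interior_Ioo] at hr
      rw [(hasDerivAt_k2 hr.1 hr.2).deriv]
      have a := th_pos hr.1 hr.2
      have b := one_sub_sq_pos (by linarith [hr.1] : -1 < r) hr.2
      apply div_nonneg _ (by positivity)
      have h1 := aux_k_nonneg hr.1.le hr.2
      have h2 := num_nonneg hr.1.le hr.2
      nlinarith [mul_nonneg (mul_nonneg hr.1.le a.le) h2]
  exact this ⟨hx, lt_of_le_of_lt h hy⟩ ⟨hx.trans_le h, hy⟩ h

/-- `s_r ≤ S''(r) psi r` -/
lemma sr_le_k2_psi {r : ℝ} (h0 : 0 < r) (h1 : r < 1) : sr r ≤ k2 r * psi r := by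
  have key : ∀ y ∈ Ioo (0:ℝ) r, HasDerivAt (fun u => k2 r * psi u - sr u)
      ((k2 r - k2 y) * th y) y := by
    intro y hy
    have hy1 := hy.2.trans h1
    refine (((hasDerivAt_psi (by linarith [hy.1]) hy1).const_mul (k2 r)).fun_sub
      (hasDerivAt_sr hy.1 hy1)).congr_deriv ?_
    rw [sr'_eq_k2 hy.1 hy1]; ring
  have hm : MonotoneOn (fun u => k2 r * psi u - sr u) (Icc 0 r) := by
    apply monotoneOn_of_deriv_nonneg (convex_Icc _ _)
    · apply ContinuousOn.sub
      · exact (continuous_const.mul continuous_psi).continuousOn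
      · exact continuousOn_sr.mono (fun y hy => ⟨hy.1, lt_of_le_of_lt hy.2 h1⟩)
    · intro y hy
      rw [interior_Icc] at hy
      exact (key y hy).differentiableAt.differentiableWithinAt
    · intro y hy
      rw [interior_Icc] at hy
      rw [(key y hy).deriv]
      exact mul_nonneg (sub_nonneg.2 (k2_mono hy.1 h1 hy.2.le)) (th_nonneg hy.1.le (hy.2.trans h1))
  have := hm ⟨le_rfl, h0.le⟩ ⟨h0.le, le_rfl⟩ h0.le
  simp only [psi_zero, sr_zero] at this
  linarith

/-- `s/psi` is nondecreasing: `s_y psi_r ≤ s_r psi_y` for `y ≤ r` -/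
lemma sr_div_psi_mono {y r : ℝ} (hy : 0 ≤ y) (h1 : r < 1) (h : y ≤ r) :
    sr y * psi r ≤ sr r * psi y := by
  rcases eq_or_lt_of_le hy with h' | h'
  · subst h'; simp [sr_zero, psi_zero]
  have hm : MonotoneOn (fun u => sr u / psi u) (Icc y r) := by
    have key : ∀ u ∈ Icc y r, HasDerivAt (fun u => sr u / psi u)
        ((sr' u * psi u - sr u * th u) / psi u ^ 2) u := by
      intro u hu
      have hu0 := h'.trans_le hu.1
      have hu1 := lt_of_le_of_lt hu.2 h1
      have hp : 0 < psi u := by rw [← psi_zero]; exact psi_lt le_rfl hu1 hu0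
      exact (hasDerivAt_sr hu0 hu1).fun_div (hasDerivAt_psi (by linarith) hu1) hp.ne'
    apply monotoneOn_of_deriv_nonneg (convex_Icc _ _)
    · intro u hu
      exact (key u hu).continuousAt.continuousWithinAt
    · intro u hu
      rw [interior_Icc] at hu
      exact (key u ⟨hu.1.le, hu.2.le⟩).differentiableAt.differentiableWithinAt
    · intro u hu
      rw [interior_Icc] at hu
      rw [(key u ⟨hu.1.le, hu.2.le⟩).deriv]
      have hu0 := h'.trans hu.1
      have hu1 := hu.2.trans h1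
      apply div_nonneg _ (sq_nonneg _)
      rw [sr'_eq_k2 hu0 hu1]
      have := sr_le_k2_psi hu0 hu1
      nlinarith [th_nonneg hu0.le hu1]
  have := hm ⟨le_rfl, h⟩ ⟨h, le_rfl⟩ h
  simp only at this
  have hp1 : 0 < psi y := by rw [← psi_zero]; exact psi_lt le_rfl (lt_of_le_of_lt h h1) h'
  have hp2 : 0 < psi r := by rw [← psi_zero]; exact psi_lt le_rfl h1 (h'.trans_le h)
  rw [div_le_div_iff₀ hp1 hp2] at this
  exact this

/-- improved tangent inequality below the tangency point -/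
lemma Sr_tangent_improved {y r : ℝ} (hy0 : 0 ≤ y) (hr1 : r < 1) (h : y ≤ r) (hr0 : 0 < r) :
    Sr r - sr r * (psi r - psi y) + sr r * (psi r - psi y) ^ 2 / (2 * psi r) ≤ Sr y := by
  have hp : 0 < psi r := by rw [← psi_zero]; exact psi_lt le_rfl hr1 hr0
  have key : ∀ u ∈ Ico (0:ℝ) 1, HasDerivAt
      (fun u => Sr u - sr r * psi u - sr r * (psi r - psi u) ^ 2 / (2 * psi r))
      ((sr u - sr r * psi u / psi r) * th u) u := by
    intro u hu
    have ps := hasDerivAt_psi (by linarith [hu.1] : -1 < u) hu.2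
    refine (((hasDerivAt_Sr hu.1 hu.2).fun_sub (ps.const_mul (sr r))).fun_sub
      ((((ps.const_sub (psi r)).fun_pow 2).const_mul (sr r)).div_const (2 * psi r))).congr_deriv ?_
    have := hp.ne'
    field_simp
    ring
  have hanti : AntitoneOn
      (fun u => Sr u - sr r * psi u - sr r * (psi r - psi u) ^ 2 / (2 * psi r)) (Icc y r) := by
    apply antitoneOn_of_deriv_nonpos (convex_Icc _ _)
    · intro u hu
      exact (key u ⟨hy0.trans hu.1, lt_of_le_of_lt hu.2 hr1⟩).continuousAt.continuousWithinAt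
    · intro u hu
      rw [interior_Icc] at hu
      exact (key u ⟨hy0.trans hu.1.le, hu.2.trans hr1⟩).differentiableAt.differentiableWithinAt
    · intro u hu
      rw [interior_Icc] at hu
      have hu0 : 0 ≤ u := hy0.trans hu.1.le
      have hu1 : u < 1 := hu.2.trans hr1
      rw [(key u ⟨hu0, hu1⟩).deriv]
      apply mul_nonpos_of_nonpos_of_nonneg _ (th_nonneg hu0 hu1)
      rw [sub_nonpos, le_div_iff₀ hp]
      exact sr_div_psi_mono hu0 hr1 hu.2.le
  have := hanti ⟨le_rfl, h⟩ ⟨h, le_rfl⟩ h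
  simp only at this
  have e : sr r * (psi r - psi r) ^ 2 / (2 * psi r) = 0 := by simp
  rw [e] at this
  linarith

end Crest.Agent.H28
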