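import Crest.Agent.H28.OneVar

set_option autoImplicit false

namespace Crest.Agent.H28

open Real Set

lemma L_gt : (0.6931471803 : ℝ) < log 2 := Real.log_two_gt_d9
lemma L_lt : log 2 < (0.6931471808 : ℝ) := Real.log_two_lt_d9

/-! ### upper bounds for `th` by rational functions -/

lemma th_le_rat {k c r : ℝ} (hk : 1 / 3 ≤ k) (hk1 : k < 1) (hc : c < 1)
    (hcv : th c ≤ c / (1 - k * c ^ 2)) (h0 : 0 ≤ r) (hrc : r ≤ c) :
    th r ≤ r / (1 - k * r ^ 2) := by
  have hden : ∀ y ∈ Ico (0:ℝ) 1, 0 < 1 - k * y ^ 2 := by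
    intro y hy
    have : y ^ 2 < 1 := by nlinarith [hy.1, hy.2]
    nlinarith [sq_nonneg y]
  have key : ∀ y ∈ Ico (0:ℝ) 1, HasDerivAt (fun x => x / (1 - k * x ^ 2) - th x)
      (y ^ 2 * ((3 * k - 1) - k * (1 + k) * y ^ 2) / ((1 - k * y ^ 2) ^ 2 * (1 - y ^ 2))) y := by
    intro y hy
    have b := (one_sub_sq_pos (by linarith [hy.1] : -1 < y) hy.2)
    have d := hden y hy
    have e1 : HasDerivAt (fun x : ℝ => 1 - k * x ^ 2) (-(k * (2 * y))) y := by
      have := (((hasDerivAt_id y).pow 2).const_mul k).const_sub 1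
      simpa using this
    refine (((hasDerivAt_id y).fun_div e1 d.ne').fun_sub
      (hasDerivAt_th (by linarith [hy.1]) hy.2)).congr_deriv ?_
    simp only [id]
    have b' := b.ne'
    have d' := d.ne'
    field_simp
    ring
  have hr1 : r < 1 := lt_of_le_of_lt hrc hc
  rcases le_total (k * (1 + k) * r ^ 2) (3 * k - 1) with hcase | hcase
  · have hm : MonotoneOn (fun x => x / (1 - k * x ^ 2) - th x) (Icc 0 r) := by
      apply monotoneOn_of_deriv_nonneg (convex_Icc _ _)
      · intro y hy
        exact (key y ⟨hy.1, lt_of_le_of_lt hy.2 hr1⟩).continuousAt.continuousWithinAt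
      · intro y hy
        rw [interior_Icc] at hy
        exact (key y ⟨hy.1.le, hy.2.trans hr1⟩).differentiableAt.differentiableWithinAt
      · intro y hy
        rw [interior_Icc] at hy
        have hy1 := hy.2.trans hr1
        rw [(key y ⟨hy.1.le, hy1⟩).deriv]
        have b := (one_sub_sq_pos (by linarith [hy.1] : -1 < y) hy1)
        have d := hden y ⟨hy.1.le, hy1⟩
        apply div_nonneg _ (by positivity)
        apply mul_nonneg (sq_nonneg _)
        have : y ^ 2 ≤ r ^ 2 := by nlinarith [hy.1, hy.2]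
        have kk : 0 ≤ k * (1 + k) := by nlinarith
        nlinarith [mul_le_mul_of_nonneg_left this kk]
    have := hm ⟨le_rfl, h0⟩ ⟨h0, le_rfl⟩ h0
    simp [th_zero] at this
    linarith
  · have hm : AntitoneOn (fun x => x / (1 - k * x ^ 2) - th x) (Icc r c) := by
      apply antitoneOn_of_deriv_nonpos (convex_Icc _ _)
      · intro y hy
        exact (key y ⟨h0.trans hy.1, lt_of_le_of_lt hy.2 hc⟩).continuousAt.continuousWithinAt
      · intro y hy
        rw [interior_Icc] at hy
        exact (key y ⟨h0.trans hy.1.le, hy.2.trans hc⟩).differentiableAt.differentiableWithinAt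
      · intro y hy
        rw [interior_Icc] at hy
        have hy0 := h0.trans hy.1.le
        have hy1 := hy.2.trans hc
        rw [(key y ⟨hy0, hy1⟩).deriv]
        have b := (one_sub_sq_pos (by linarith : -1 < y) hy1)
        have d := hden y ⟨hy0, hy1⟩
        apply div_nonpos_of_nonpos_of_nonneg _ (by positivity)
        apply mul_nonpos_of_nonneg_of_nonpos (sq_nonneg _)
        have : r ^ 2 ≤ y ^ 2 := by nlinarith [hy.1, hy.2]
        have kk : 0 ≤ k * (1 + k) := by nlinarith
        nlinarith [mul_le_mul_of_nonneg_left this kk]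
    have := hm ⟨le_rfl, hrc⟩ ⟨hrc, le_rfl⟩ hrc
    simp only at this
    linarith

/-! ### `S_r ≤ s_r psi r` and monotonicity of `psi/(r th r)` -/

lemma Sr_le {r : ℝ} (h0 : 0 ≤ r) (h1 : r < 1) : Sr r ≤ sr r * psi r := by
  have := Sr_tangent (x := 0) (r := r) le_rfl (by norm_num) h0 h1
  rw [Sr_zero, psi_zero] at this
  linarith

/-- `psi x * (r th r) ≥ psi r * (x th x)` for `x ≤ r` -/
lemma psi_div_F_anti {x r : ℝ} (hx : 0 ≤ x) (h1 : r < 1) (h : x ≤ r) :
    psi r * (x * th x) ≤ psi x * (r * th r) := by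
  rcases eq_or_lt_of_le hx with h' | h'
  · subst h'; simp [psi_zero]
  have hm : AntitoneOn (fun u => psi u / (u * th u)) (Icc x r) := by
    have key : ∀ u ∈ Icc x r, HasDerivAt (fun u => psi u / (u * th u))
        ((th u * (u * th u) - psi u * (1 * th u + u * (1 / (1 - u ^ 2)))) / (u * th u) ^ 2) u := by
      intro u hu
      have hu0 := h'.trans_le hu.1
      have hu1 := lt_of_le_of_lt hu.2 h1
      have t := th_pos hu0 hu1
      exact (hasDerivAt_psi (by linarith) hu1).fun_div
        ((hasDerivAt_id u).fun_mul (hasDerivAt_th (by linarith) hu1)) (by positivity)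
    apply antitoneOn_of_deriv_nonpos (convex_Icc _ _)
    · intro u hu
      exact (key u hu).continuousAt.continuousWithinAt
    · intro u hu
      rw [interior_Icc] at hu
      exact (key u ⟨hu.1.le, hu.2.le⟩).differentiableAt.differentiableWithinAt
    · intro u hu
      rw [interior_Icc] at hu
      rw [(key u ⟨hu.1.le, hu.2.le⟩).deriv]
      have hu0 := h'.trans hu.1
      have hu1 := hu.2.trans h1
      have t := th_pos hu0 hu1
      apply div_nonpos_of_nonpos_of_nonneg _ (sq_nonneg _)
      have e1 := Sr_le hu0.le hu1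
      have e2 := sr_mul_th hu0.le hu1
      unfold Sr at e1
      have e3 : sr u * psi u * th u = psi u * (u / (1 - u ^ 2) - th u) := by
        rw [← e2]; ring
      have e4 : u * (1 / (1 - u ^ 2)) = u / (1 - u ^ 2) := by ring
      rw [e4]
      have e5 := mul_le_mul_of_nonneg_right e1 t.le
      nlinarith
  have := hm ⟨le_rfl, h⟩ ⟨h, le_rfl⟩ h
  simp only at this
  have t1 := th_pos h' (lt_of_le_of_lt h h1)
  have t2 := th_pos (h'.trans_le h) h1
  have hr0 := h'.trans_le h
  rw [div_le_div_iff₀ (by positivity) (by positivity)] at this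
  exact this

/-- (K2): `r h(r) ≤ log 2 (1-r^2) th r` -/
lemma K2 {r : ℝ} (h0 : 0 ≤ r) (h1 : r < 1) : r * hh r ≤ log 2 * (1 - r ^ 2) * th r := by
  have hL := L_gt
  have hL' := L_lt
  have key : ∀ y ∈ Ico (0:ℝ) 1, HasDerivAt (fun x => log 2 * (1 - x ^ 2) * th x - x * hh x)
      (psi y - (2 * log 2 - 1) * (y * th y)) y := by
    intro y hy
    have b := (one_sub_sq_pos (by linarith [hy.1] : -1 < y) hy.2)
    have e1 := (((hasDerivAt_one_sub_sq y).const_mul (log 2)).fun_mul
      (hasDerivAt_th (by linarith [hy.1]) hy.2)).fun_sub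
      ((hasDerivAt_id y).fun_mul (hasDerivAt_hh (by linarith [hy.1]) hy.2))
    refine e1.congr_deriv ?_
    simp only [id]
    unfold hh
    have b' := b.ne'
    field_simp
    ring
  rcases eq_or_lt_of_le h0 with h' | h'
  · subst h'; simp [th_zero]
  rcases le_total ((2 * log 2 - 1) * (r * th r)) (psi r) with hc | hc
  · have hm : MonotoneOn (fun x => log 2 * (1 - x ^ 2) * th x - x * hh x) (Icc 0 r) := by
      apply monotoneOn_of_deriv_nonneg (convex_Icc _ _)
      · intro y hy
        exact (key y ⟨hy.1, lt_of_le_of_lt hy.2 h1⟩).continuousAt.continuousWithinAt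
      · intro y hy
        rw [interior_Icc] at hy
        exact (key y ⟨hy.1.le, hy.2.trans h1⟩).differentiableAt.differentiableWithinAt
      · intro y hy
        rw [interior_Icc] at hy
        rw [(key y ⟨hy.1.le, hy.2.trans h1⟩).deriv]
        have a1 := psi_div_F_anti hy.1.le h1 hy.2.le
        have t1 := th_pos h' h1
        have ty := th_pos hy.1 (hy.2.trans h1)
        have py : 0 < y * th y := mul_pos hy.1 ty
        have pr : 0 < r * th r := mul_pos h' t1
        have a2 : (2 * log 2 - 1) * (r * th r) * (y * th y) ≤ psi r * (y * th y) :=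
          mul_le_mul_of_nonneg_right hc py.le
        have a3 : (2 * log 2 - 1) * (y * th y) * (r * th r) ≤ psi y * (r * th r) := by nlinarith
        have := le_of_mul_le_mul_right a3 pr
        linarith
    have := hm ⟨le_rfl, h'.le⟩ ⟨h'.le, le_rfl⟩ h'.le
    simp [th_zero] at this
    linarith
  · -- decreasing to the right of r, limit 0
    have hm : AntitoneOn (fun x => log 2 * (1 - x ^ 2) * th x - x * hh x) (Ico r 1) := by
      apply antitoneOn_of_deriv_nonpos (convex_Ico _ _)
      · intro y hy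
        exact (key y ⟨h'.le.trans hy.1, hy.2⟩).continuousAt.continuousWithinAt
      · intro y hy
        rw [interior_Ico] at hy
        exact (key y ⟨h'.le.trans hy.1.le, hy.2⟩).differentiableAt.differentiableWithinAt
      · intro y hy
        rw [interior_Ico] at hy
        rw [(key y ⟨h'.le.trans hy.1.le, hy.2⟩).deriv]
        have a1 := psi_div_F_anti h'.le hy.2 hy.1.le
        have t1 := th_pos h' h1
        have ty := th_pos (h'.trans hy.1) hy.2
        have py : 0 < y * th y := mul_pos (h'.trans hy.1) ty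
        have pr : 0 < r * th r := mul_pos h' t1
        have a2 : psi r * (y * th y) ≤ (2 * log 2 - 1) * (r * th r) * (y * th y) :=
          mul_le_mul_of_nonneg_right hc py.le
        have a3 : psi y * (r * th r) ≤ (2 * log 2 - 1) * (y * th y) * (r * th r) := by nlinarith
        have := le_of_mul_le_mul_right a3 pr
        linarith
    have hlow : ∀ x ∈ Ico r 1, - hh x ≤ log 2 * (1 - r ^ 2) * th r - r * hh r := by
      intro x hx
      have := hm ⟨le_rfl, h1⟩ hx hx.1
      simp only at this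
      have b := (one_sub_sq_pos (by linarith [hx.1] : -1 < x) hx.2)
      have t := th_nonneg (h'.le.trans hx.1) hx.2
      have hp := hh_pos (by linarith [hx.1] : -1 < x) hx.2
      have : 0 ≤ log 2 * (1 - x ^ 2) * th x := by positivity
      nlinarith [hx.2]
    have hcont : Filter.Tendsto (fun x => - hh x) (nhdsWithin 1 (Iio 1)) (nhds (- hh 1)) :=
      (continuous_hh.neg.tendsto 1).mono_left nhdsWithin_le_nhds
    rw [hh_one, neg_zero] at hcont
    have hev : ∀ᶠ x in nhdsWithin (1:ℝ) (Iio 1), - hh x ≤ log 2 * (1 - r ^ 2) * th r - r * hh r := by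
      have : Ico r 1 ∈ nhdsWithin (1:ℝ) (Iio 1) := Ico_mem_nhdsLT h1
      filter_upwards [this] with x hx using hlow x hx
    have := le_of_tendsto hcont hev
    linarith

/-- `h² S'' ≤ κ` from a rational bound on `th` -/
lemma K_of_rat {k κ r : ℝ} (hk : k < 1) (h0 : 0 < r) (h1 : r < 1)
    (hth : th r ≤ r / (1 - k * r ^ 2)) (hκ : log 2 ^ 2 * (1 + k) ≤ κ) :
    hh r ^ 2 * ((1 + r ^ 2) * th r - r) ≤ κ * (1 - r ^ 2) ^ 2 * th r ^ 3 := by
  have b := (one_sub_sq_pos (by linarith : -1 < r) h1)
  have t := th_pos h0 h1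
  have r2 : r ^ 2 < 1 := by nlinarith
  have d : 0 < 1 - k * r ^ 2 := by nlinarith [sq_nonneg r, sq_pos_of_pos h0]
  rw [le_div_iff₀ d] at hth
  have hK := K2 h0.le h1
  have hp := hh_pos (by linarith : -1 < r) h1
  have e1 : (r * hh r) ^ 2 ≤ (log 2 * (1 - r ^ 2) * th r) ^ 2 :=
    pow_le_pow_left₀ (by positivity) hK 2
  have hN : 0 ≤ (1 + r ^ 2) * th r - r := num_nonneg h0.le h1
  have e2 : (1 + r ^ 2) * th r - r ≤ (1 + k) * (r ^ 2 * th r) := by nlinarith
  -- multiply by r^2
  have e3 : r ^ 2 * (hh r ^ 2 * ((1 + r ^ 2) * th r - r)) ≤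
      (log 2 * (1 - r ^ 2) * th r) ^ 2 * ((1 + k) * (r ^ 2 * th r)) := by
    calc r ^ 2 * (hh r ^ 2 * ((1 + r ^ 2) * th r - r))
        = (r * hh r) ^ 2 * ((1 + r ^ 2) * th r - r) := by ring
      _ ≤ (log 2 * (1 - r ^ 2) * th r) ^ 2 * ((1 + r ^ 2) * th r - r) :=
          mul_le_mul_of_nonneg_right e1 hN
      _ ≤ _ := mul_le_mul_of_nonneg_left e2 (sq_nonneg _)
  have e4 : (log 2 * (1 - r ^ 2) * th r) ^ 2 * ((1 + k) * (r ^ 2 * th r)) =
      r ^ 2 * ((log 2 ^ 2 * (1 + k)) * ((1 - r ^ 2) ^ 2 * th r ^ 3)) := by ring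
  rw [e4] at e3
  have e5 := le_of_mul_le_mul_left e3 (by positivity)
  have e6 : (log 2 ^ 2 * (1 + k)) * ((1 - r ^ 2) ^ 2 * th r ^ 3) ≤
      κ * ((1 - r ^ 2) ^ 2 * th r ^ 3) := mul_le_mul_of_nonneg_right hκ (by positivity)
  calc hh r ^ 2 * ((1 + r ^ 2) * th r - r) ≤ _ := e5
    _ ≤ _ := e6
    _ = _ := by ring

end Crest.Agent.H28
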