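import Crest.Agent.H28.OneVar2

set_option autoImplicit false

namespace Crest.Agent.H28

open Real Set

/-! ### the number `bt = tanh 1` -/

noncomputable def bt : ℝ := Real.tanh 1

lemma bt_eq : bt = (exp 1 ^ 2 - 1) / (exp 1 ^ 2 + 1) := by
  unfold bt
  rw [Real.tanh_eq, Real.exp_neg]
  have := exp_pos 1
  field_simp

lemma exp_one_sq_bounds : (7.3890 : ℝ) < exp 1 ^ 2 ∧ exp 1 ^ 2 < 7.3891 := by
  have h1 := Real.exp_one_gt_d9
  have h2 := Real.exp_one_lt_d9
  constructor <;> nlinarith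

lemma bt_gt : (0.76159 : ℝ) < bt := by
  rw [bt_eq, lt_div_iff₀ (by positivity)]
  have := exp_one_sq_bounds
  nlinarith [this.1, this.2]

lemma bt_lt : bt < 0.7616 := by
  rw [bt_eq, div_lt_iff₀ (by positivity)]
  have := exp_one_sq_bounds
  nlinarith [this.1, this.2]

lemma bt_pos : 0 < bt := by linarith [bt_gt]
lemma bt_lt_one : bt < 1 := by linarith [bt_lt]

lemma th_bt : th bt = 1 := by
  rw [← th_eq_artanh (by linarith [bt_gt]) bt_lt_one]
  exact Real.artanh_tanh 1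

/-! ### elementary log bounds -/

lemma log_one_add_le {y : ℝ} (h0 : 0 ≤ y) (h1 : y < 1) :
    log (1 + y) ≤ y - y ^ 2 / 2 + y ^ 3 / 3 := by
  have key : ∀ u ∈ Ico (0:ℝ) 1, HasDerivAt (fun y => y - y ^ 2 / 2 + y ^ 3 / 3 - log (1 + y))
      (u ^ 3 / (1 + u)) u := by
    intro u hu
    have p : (0:ℝ) < 1 + u := by linarith [hu.1]
    have e1 : HasDerivAt (fun x : ℝ => log (1 + x)) (1 / (1 + u)) u := by
      have := ((hasDerivAt_id u).const_add 1).log (by simp; linarith)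
      simpa using this
    have e2 : HasDerivAt (fun y : ℝ => y - y ^ 2 / 2 + y ^ 3 / 3) (1 - u + u ^ 2) u := by
      have := (((hasDerivAt_id u).fun_sub (((hasDerivAt_id u).fun_pow 2).div_const 2)).fun_add
        (((hasDerivAt_id u).fun_pow 3).div_const 3))
      refine this.congr_deriv ?_
      simp only [id]; ring
    refine (e2.fun_sub e1).congr_deriv ?_
    field_simp; ring
  have := le_of_deriv_Ico (f := fun y => y - y ^ 2 / 2 + y ^ 3 / 3 - log (1 + y)) (a := 0) (b := 1)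
    (f' := fun u => u ^ 3 / (1 + u))
    (fun y hy => (key y hy).continuousAt.continuousWithinAt)
    (fun y hy => key y ⟨hy.1.le, hy.2⟩)
    (fun y hy => by have := hy.1; positivity) ⟨h0, h1⟩
  simp at this
  linarith

lemma le_log_one_add {y : ℝ} (h0 : 0 ≤ y) (h1 : y < 1) :
    y - y ^ 2 / 2 ≤ log (1 + y) := by
  have key : ∀ u ∈ Ico (0:ℝ) 1, HasDerivAt (fun y => log (1 + y) - (y - y ^ 2 / 2))
      (u ^ 2 / (1 + u)) u := by
    intro u hu
    have p : (0:ℝ) < 1 + u := by linarith [hu.1]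
    have e1 : HasDerivAt (fun x : ℝ => log (1 + x)) (1 / (1 + u)) u := by
      have := ((hasDerivAt_id u).const_add 1).log (by simp; linarith)
      simpa using this
    have e2 : HasDerivAt (fun y : ℝ => y - y ^ 2 / 2) (1 - u) u := by
      have := ((hasDerivAt_id u).fun_sub (((hasDerivAt_id u).fun_pow 2).div_const 2))
      refine this.congr_deriv ?_
      simp only [id]; ring
    refine (e1.fun_sub e2).congr_deriv ?_
    field_simp; ring
  have := le_of_deriv_Ico (f := fun y => log (1 + y) - (y - y ^ 2 / 2)) (a := 0) (b := 1)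
    (f' := fun u => u ^ 2 / (1 + u))
    (fun y hy => (key y hy).continuousAt.continuousWithinAt)
    (fun y hy => key y ⟨hy.1.le, hy.2⟩)
    (fun y hy => by have := hy.1; positivity) ⟨h0, h1⟩
  simp at this
  linarith

/-- `X + X²/2 ≤ -log(1-X)` -/
lemma le_neg_log_one_sub {X : ℝ} (h0 : 0 ≤ X) (h1 : X < 1) :
    X + X ^ 2 / 2 ≤ - log (1 - X) := by
  have key : ∀ u ∈ Ico (0:ℝ) 1, HasDerivAt (fun y => - log (1 - y) - (y + y ^ 2 / 2))
      (u ^ 2 / (1 - u)) u := by
    intro u hu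
    have p : (0:ℝ) < 1 - u := by linarith [hu.2]
    have e1 : HasDerivAt (fun x : ℝ => log (1 - x)) (-1 / (1 - u)) u := by
      have := ((hasDerivAt_id u).const_sub 1).log (by simp; linarith)
      simpa using this
    have e2 : HasDerivAt (fun y : ℝ => y + y ^ 2 / 2) (1 + u) u := by
      have := ((hasDerivAt_id u).fun_add (((hasDerivAt_id u).fun_pow 2).div_const 2))
      refine this.congr_deriv ?_
      simp only [id]; ring
    refine (e1.fun_neg.fun_sub e2).congr_deriv ?_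
    field_simp; ring
  have := le_of_deriv_Ico (f := fun y => - log (1 - y) - (y + y ^ 2 / 2)) (a := 0) (b := 1)
    (f' := fun u => u ^ 2 / (1 - u))
    (fun y hy => (key y hy).continuousAt.continuousWithinAt)
    (fun y hy => key y ⟨hy.1.le, hy.2⟩)
    (fun y hy => by have := hy.2; have : 0 < 1 - y := by linarith
                    positivity) ⟨h0, h1⟩
  simp at this
  linarith

/-! ### value of `hh` at `bt` -/

lemma hh_bt_eq : hh bt = 1 + log (1 + (exp 1 ^ 2)⁻¹) - bt := by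
  unfold hh
  rw [psi_eq (by linarith [bt_gt]) bt_lt_one, th_bt]
  have e0 : 0 < exp 1 := exp_pos 1
  have e1 : 1 - bt ^ 2 = (2 * exp 1 / (exp 1 ^ 2 + 1)) ^ 2 := by
    rw [bt_eq]; field_simp; ring
  have e2 : log (1 - bt ^ 2) = 2 * (log 2 + 1 - log (exp 1 ^ 2 + 1)) := by
    rw [e1, log_pow, log_div (by positivity) (by positivity), log_mul (by norm_num) (by positivity),
      log_exp]
    norm_num
  have e3 : 1 + (exp 1 ^ 2)⁻¹ = (exp 1 ^ 2 + 1) / exp 1 ^ 2 := by field_simp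
  rw [e2, e3, log_div (by positivity) (by positivity), log_pow, log_exp]
  norm_num
  ring

lemma inv_e2_bounds : (0.135334 : ℝ) < (exp 1 ^ 2)⁻¹ ∧ (exp 1 ^ 2)⁻¹ < 0.135337 := by
  obtain ⟨h1, h2⟩ := exp_one_sq_bounds
  constructor
  · rw [lt_inv_comm₀ (by norm_num) (by positivity)]
    have : (7.3891 : ℝ) ≤ (0.135334)⁻¹ := by norm_num
    linarith
  · rw [inv_lt_comm₀ (by positivity) (by norm_num)]
    have : (0.135337 : ℝ)⁻¹ ≤ 7.3890 := by norm_num
    linarith

lemma hh_bt_gt : (0.3645 : ℝ) < hh bt := by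
  rw [hh_bt_eq]
  obtain ⟨h1, h2⟩ := inv_e2_bounds
  have h3 := le_log_one_add (y := (exp 1 ^ 2)⁻¹) (by linarith) (by linarith)
  have h4 := bt_lt
  generalize (exp 1 ^ 2)⁻¹ = y at *
  have h5 : y ^ 2 ≤ 0.135337 ^ 2 := pow_le_pow_left₀ (by linarith) h2.le 2
  norm_num at h5 ⊢
  linarith

lemma hh_bt_lt : hh bt < 0.3656 := by
  rw [hh_bt_eq]
  obtain ⟨h1, h2⟩ := inv_e2_bounds
  have h3 := log_one_add_le (y := (exp 1 ^ 2)⁻¹) (by linarith) (by linarith)
  have h4 := bt_gt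
  generalize (exp 1 ^ 2)⁻¹ = y at *
  have h5 : 0.135334 ^ 2 ≤ y ^ 2 := pow_le_pow_left₀ (by norm_num) h1.le 2
  have h6 : y ^ 3 ≤ 0.135337 ^ 3 := pow_le_pow_left₀ (by linarith) h2.le 3
  norm_num at h5 h6 ⊢
  linarith

/-! ### (K') and (K) -/

lemma th_le_rat_bt {r : ℝ} (h0 : 0 ≤ r) (h : r ≤ bt) : th r ≤ r / (1 - 0.4153 * r ^ 2) := by
  apply th_le_rat (c := bt) (by norm_num) (by norm_num) bt_lt_one _ h0 h
  rw [th_bt]
  have h1 := bt_gt
  have h2 := bt_lt
  have : 0 < 1 - 0.4153 * bt ^ 2 := by nlinarith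
  rw [le_div_iff₀ this]
  nlinarith

/-- (K') -/
lemma K' {r : ℝ} (h0 : 0 < r) (h : r ≤ bt) :
    hh r ^ 2 * ((1 + r ^ 2) * th r - r) ≤ 0.68 * (1 - r ^ 2) ^ 2 * th r ^ 3 := by
  apply K_of_rat (k := 0.4153) (by norm_num) h0 (lt_of_le_of_lt h bt_lt_one) (th_le_rat_bt h0.le h)
  have := L_lt
  have h2 := L_gt
  nlinarith

/-- `h(r) ≤ (1-r)(th r + 1/(1+r))` -/
lemma hh_le_tail {r : ℝ} (h0 : 0 ≤ r) (h1 : r < 1) : hh r ≤ (1 - r) * (th r + 1 / (1 + r)) := by
  unfold hh psi th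
  have e1 : log 2 - log (1 + r) ≤ (1 - r) / (1 + r) := by
    rw [← log_div (by norm_num) (by linarith)]
    have := Real.log_le_sub_one_of_pos (x := 2 / (1 + r)) (by positivity)
    have e : 2 / (1 + r) - 1 = (1 - r) / (1 + r) := by field_simp; ring
    linarith
  have e2 : (1 - r) * (1 / (1 + r)) = (1 - r) / (1 + r) := by ring
  nlinarith

noncomputable def b2 : ℝ := Real.tanh 2

lemma b2_eq : b2 = (exp 1 ^ 4 - 1) / (exp 1 ^ 4 + 1) := by
  unfold b2
  rw [Real.tanh_eq, Real.exp_neg]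
  have e : exp 2 = exp 1 ^ 2 := by rw [← Real.exp_nat_mul]; norm_num
  rw [e]
  have := exp_pos 1
  field_simp

lemma exp_one_four_bounds : (54.59 : ℝ) < exp 1 ^ 4 ∧ exp 1 ^ 4 < 54.60 := by
  obtain ⟨h1, h2⟩ := exp_one_sq_bounds
  have e : exp 1 ^ 4 = (exp 1 ^ 2) ^ 2 := by ring
  rw [e]
  constructor <;> nlinarith

lemma b2_gt : (0.9640 : ℝ) < b2 := by
  rw [b2_eq, lt_div_iff₀ (by positivity)]
  have := exp_one_four_bounds
  nlinarith [this.1, this.2]

lemma b2_lt : b2 < 0.9641 := by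
  rw [b2_eq, div_lt_iff₀ (by positivity)]
  have := exp_one_four_bounds
  nlinarith [this.1, this.2]

lemma th_b2 : th b2 = 2 := by
  rw [← th_eq_artanh (by linarith [b2_gt]) (by linarith [b2_lt])]
  exact Real.artanh_tanh 2

/-- (K) -/
lemma K {r : ℝ} (h0 : 0 < r) (h1 : r < 1) :
    hh r ^ 2 * ((1 + r ^ 2) * th r - r) ≤ 0.75 * (1 - r ^ 2) ^ 2 * th r ^ 3 := by
  rcases le_total r b2 with h | h
  · apply K_of_rat (k := 0.5610) (by norm_num) h0 h1
    · apply th_le_rat (c := b2) (by norm_num) (by norm_num) (by linarith [b2_lt]) _ h0.le h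
      rw [th_b2]
      have h1 := b2_gt
      have h2 := b2_lt
      have : 0 < 1 - 0.5610 * b2 ^ 2 := by nlinarith
      rw [le_div_iff₀ this]
      nlinarith
    · have := L_lt
      have h2 := L_gt
      nlinarith
  · have t2 : 2 ≤ th r := by rw [← th_b2]; exact th_mono (by linarith [b2_gt]) h1 h
    have hr := b2_gt
    have hb := hh_le_tail h0.le h1
    have hp := hh_pos (by linarith : -1 < r) h1
    have e1 : (1:ℝ) / (1 + r) ≤ 0.51 := by
      rw [div_le_iff₀ (by linarith)]; linarith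
    have b := (one_sub_sq_pos (by linarith : -1 < r) h1)
    have hb2 : hh r ≤ (1 - r) * (th r + 0.51) := by
      have : (1 - r) * (th r + 1 / (1 + r)) ≤ (1 - r) * (th r + 0.51) :=
        mul_le_mul_of_nonneg_left (by linarith) (by linarith)
      linarith
    have e2 : hh r ^ 2 ≤ ((1 - r) * (th r + 0.51)) ^ 2 := pow_le_pow_left₀ hp.le hb2 2
    have hN : 0 ≤ (1 + r ^ 2) * th r - r := num_nonneg h0.le h1
    have hN2 : (1 + r ^ 2) * th r - r ≤ 2 * th r - 0.96 := by nlinarith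
    have e3 : hh r ^ 2 * ((1 + r ^ 2) * th r - r) ≤
        ((1 - r) * (th r + 0.51)) ^ 2 * (2 * th r - 0.96) :=
      mul_le_mul e2 hN2 hN (sq_nonneg _)
    have e4 : (th r + 0.51) ^ 2 * (2 * th r - 0.96) ≤ 0.75 * 1.96 ^ 2 * th r ^ 3 := by
      nlinarith [mul_nonneg (mul_nonneg (sub_nonneg.2 t2) (sub_nonneg.2 t2)) (sub_nonneg.2 t2),
        mul_nonneg (sub_nonneg.2 t2) (sub_nonneg.2 t2), sub_nonneg.2 t2]
    have e5 : (1.96:ℝ) ^ 2 ≤ (1 + r) ^ 2 := pow_le_pow_left₀ (by norm_num) (by linarith) 2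
    have t3 : 0 ≤ th r ^ 3 := by positivity
    have e6 : 0.75 * 1.96 ^ 2 * th r ^ 3 ≤ 0.75 * (1 + r) ^ 2 * th r ^ 3 := by
      have := mul_le_mul_of_nonneg_right e5 t3
      nlinarith
    calc hh r ^ 2 * ((1 + r ^ 2) * th r - r) ≤ _ := e3
      _ = (1 - r) ^ 2 * ((th r + 0.51) ^ 2 * (2 * th r - 0.96)) := by ring
      _ ≤ (1 - r) ^ 2 * (0.75 * (1 + r) ^ 2 * th r ^ 3) :=
          mul_le_mul_of_nonneg_left (e4.trans e6) (sq_nonneg _)
      _ = _ := by ring

/-! ### comparison of the two bounds: `2 c_r ≤ s_r` for `r ≥ bt` -/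

lemma two_Sr_le {r : ℝ} (h : bt ≤ r) (h1 : r < 1) : 2 * Sr r ≤ sr r * (1 - 2 * hh r) := by
  have hb := bt_gt
  have key : ∀ y ∈ Ico bt 1, HasDerivAt (fun x => sr x * (1 - 2 * hh x) - 2 * Sr x)
      (sr' y * (1 - 2 * hh y)) y := by
    intro y hy
    have y0 : 0 < y := by linarith [hy.1]
    have e1 := ((hasDerivAt_sr y0 hy.2).fun_mul
      (((hasDerivAt_hh (by linarith) hy.2).const_mul 2).const_sub 1)).fun_sub
      ((hasDerivAt_Sr y0.le hy.2).const_mul 2)
    refine e1.congr_deriv ?_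
    ring
  have := le_of_deriv_Ico (f := fun x => sr x * (1 - 2 * hh x) - 2 * Sr x) (a := bt) (b := 1)
    (f' := fun y => sr' y * (1 - 2 * hh y))
    (fun y hy => (key y hy).continuousAt.continuousWithinAt)
    (fun y hy => key y ⟨hy.1.le, hy.2⟩)
    (fun y hy => by
      have y0 : 0 < y := by linarith [hy.1]
      apply mul_nonneg (sr'_nonneg y0.le hy.2)
      have : hh y ≤ hh bt := by
        unfold hh; linarith [psi_mono bt_pos.le hy.2 hy.1.le]
      linarith [hh_bt_lt]) ⟨h, h1⟩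
  have hval : 0 ≤ sr bt * (1 - 2 * hh bt) - 2 * Sr bt := by
    have e1 : Sr bt = bt - 2 * (log 2 - hh bt) := by
      unfold Sr hh; rw [th_bt]; ring
    have hs : 0.813 ≤ sr bt := by
      rw [sr_of_pos bt_pos, th_bt, mul_one]
      have b3 : 0 < 1 - bt ^ 2 := by nlinarith [bt_lt]
      have : (1.813 : ℝ) ≤ bt / (1 - bt ^ 2) := by
        rw [le_div_iff₀ b3]; nlinarith
      linarith
    rw [e1]
    have h2 := hh_bt_lt
    have h3 := hh_bt_gt
    have h4 := L_gt
    have h5 := bt_lt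
    nlinarith
  linarith

end Crest.Agent.H28
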