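import Crest.Agent.H28.OneVar3

set_option autoImplicit false

namespace Crest.Agent.H28

open Real Set

/-! ### polynomial bounds for `psi` -/

lemma aux_w {x : ℝ} (h0 : 0 ≤ x) (h1 : x < 1) : 0 ≤ x * th x + x ^ 2 - 4 * psi x := by
  have k1 : ∀ y ∈ Ico (0:ℝ) 1, 0 ≤ y / (1 - y ^ 2) + 2 * y - 3 * th y := by
    intro y hy
    have key : ∀ u ∈ Ico (0:ℝ) 1, HasDerivAt (fun y => y / (1 - y ^ 2) + 2 * y - 3 * th y)
        (2 * u ^ 4 / (1 - u ^ 2) ^ 2) u := by
      intro u hu
      have b := (one_sub_sq_pos (by linarith [hu.1] : -1 < u) hu.2)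
      have e1 := (((hasDerivAt_id u).fun_div (hasDerivAt_one_sub_sq u) b.ne').fun_add
        ((hasDerivAt_id u).const_mul 2)).fun_sub ((hasDerivAt_th (by linarith [hu.1]) hu.2).const_mul 3)
      refine e1.congr_deriv ?_
      simp only [id]
      have b' := b.ne'
      field_simp
      ring
    have := le_of_deriv_Ico (f := fun y => y / (1 - y ^ 2) + 2 * y - 3 * th y) (a := 0) (b := 1)
      (f' := fun u => 2 * u ^ 4 / (1 - u ^ 2) ^ 2)
      (fun y hy => (key y hy).continuousAt.continuousWithinAt)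
      (fun y hy => key y ⟨hy.1.le, hy.2⟩)
      (fun y hy => by positivity) hy
    simpa [th_zero] using this
  have key : ∀ u ∈ Ico (0:ℝ) 1, HasDerivAt (fun x => x * th x + x ^ 2 - 4 * psi x)
      (u / (1 - u ^ 2) + 2 * u - 3 * th u) u := by
    intro u hu
    have e1 := (((hasDerivAt_id u).fun_mul (hasDerivAt_th (by linarith [hu.1]) hu.2)).fun_add
      ((hasDerivAt_id u).fun_pow 2)).fun_sub ((hasDerivAt_psi (by linarith [hu.1]) hu.2).const_mul 4)
    refine e1.congr_deriv ?_
    simp only [id]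
    ring
  have := le_of_deriv_Ico (f := fun x => x * th x + x ^ 2 - 4 * psi x) (a := 0) (b := 1)
    (f' := fun u => u / (1 - u ^ 2) + 2 * u - 3 * th u)
    (fun y hy => (key y hy).continuousAt.continuousWithinAt)
    (fun y hy => key y ⟨hy.1.le, hy.2⟩)
    (fun y hy => k1 y ⟨hy.1.le, hy.2⟩) ⟨h0, h1⟩
  simpa [psi_zero] using this

/-- `psi x ≤ x²/2 + (log 2 - 1/2) x⁴` -/
lemma psi_le_quartic {x : ℝ} (h0 : 0 ≤ x) (h1 : x < 1) :
    psi x ≤ x ^ 2 / 2 + (log 2 - 1 / 2) * x ^ 4 := by
  rcases eq_or_lt_of_le h0 with h' | h'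
  · subst h'; simp [psi_zero]
  have hm : MonotoneOn (fun u => (psi u - u ^ 2 / 2) / u ^ 4) (Ico x 1) := by
    have key : ∀ u ∈ Ico x 1, HasDerivAt (fun u => (psi u - u ^ 2 / 2) / u ^ 4)
        ((u * th u + u ^ 2 - 4 * psi u) / u ^ 5) u := by
      intro u hu
      have hu0 := h'.trans_le hu.1
      have e1 := ((hasDerivAt_psi (by linarith) hu.2).fun_sub
        (((hasDerivAt_id u).fun_pow 2).div_const 2)).fun_div ((hasDerivAt_id u).fun_pow 4) (by
          simp only [id]; positivity)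
      refine e1.congr_deriv ?_
      simp only [id]
      have := hu0.ne'
      field_simp
      ring
    apply monotoneOn_of_deriv_nonneg (convex_Ico _ _)
    · intro u hu
      exact (key u hu).continuousAt.continuousWithinAt
    · intro u hu
      rw [interior_Ico] at hu
      exact (key u ⟨hu.1.le, hu.2⟩).differentiableAt.differentiableWithinAt
    · intro u hu
      rw [interior_Ico] at hu
      rw [(key u ⟨hu.1.le, hu.2⟩).deriv]
      have hu0 := h'.trans hu.1
      exact div_nonneg (aux_w hu0.le hu.2) (by positivity)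
  have hlim : Filter.Tendsto (fun u => (psi u - u ^ 2 / 2) / u ^ 4) (nhdsWithin 1 (Iio 1))
      (nhds ((psi 1 - 1 ^ 2 / 2) / 1 ^ 4)) := by
    have : ContinuousAt (fun u => (psi u - u ^ 2 / 2) / u ^ 4) 1 := by
      apply ContinuousAt.div
      · exact (continuous_psi.sub (by fun_prop)).continuousAt
      · fun_prop
      · norm_num
    exact this.tendsto.mono_left nhdsWithin_le_nhds
  have hev : ∀ᶠ u in nhdsWithin (1:ℝ) (Iio 1),
      (psi x - x ^ 2 / 2) / x ^ 4 ≤ (psi u - u ^ 2 / 2) / u ^ 4 := by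
    have : Ico x 1 ∈ nhdsWithin (1:ℝ) (Iio 1) := Ico_mem_nhdsLT h1
    filter_upwards [this] with u hu using hm ⟨le_rfl, h1⟩ hu hu.1
  have := ge_of_tendsto hlim hev
  rw [psi_one] at this
  rw [div_le_iff₀ (by positivity)] at this
  norm_num at this
  linarith

/-- `psi x ≤ log 2 x²` -/
lemma psi_le_sq {x : ℝ} (h0 : 0 ≤ x) (h1 : x < 1) : psi x ≤ log 2 * x ^ 2 := by
  have := psi_le_quartic h0 h1
  have h3 : x ^ 2 ≤ 1 := by nlinarith
  have h2 : x ^ 4 ≤ x ^ 2 := by nlinarith [sq_nonneg x, mul_nonneg (sq_nonneg x) (sub_nonneg.2 h3)]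
  have := L_gt
  nlinarith

lemma hh_ge {x : ℝ} (h0 : 0 ≤ x) (h1 : x < 1) : log 2 * (1 - x ^ 2) ≤ hh x := by
  unfold hh; linarith [psi_le_sq h0 h1]

/-- `psi (β x) ≤ β² psi x` -/
lemma psi_mul_le {β x : ℝ} (hβ0 : 0 ≤ β) (hβ1 : β ≤ 1) (h0 : 0 ≤ x) (h1 : x < 1) :
    psi (β * x) ≤ β ^ 2 * psi x := by
  rcases eq_or_lt_of_le h0 with h' | h'
  · subst h'; simp [psi_zero]
  rcases eq_or_lt_of_le hβ0 with hb' | hb'
  · subst hb'; simp [psi_zero]
  have hy : 0 < β * x := mul_pos hb' h'
  have hyx : β * x ≤ x := by nlinarith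
  have hm : MonotoneOn (fun u => psi u / u ^ 2) (Ico (β * x) 1) := by
    have key : ∀ u ∈ Ico (β * x) 1, HasDerivAt (fun u => psi u / u ^ 2)
        (Sr u / u ^ 3) u := by
      intro u hu
      have hu0 := hy.trans_le hu.1
      have e1 := (hasDerivAt_psi (by linarith) hu.2).fun_div ((hasDerivAt_id u).fun_pow 2) (by
          simp only [id]; positivity)
      refine e1.congr_deriv ?_
      simp only [id]
      unfold Sr
      have := hu0.ne'
      field_simp
      ring
    apply monotoneOn_of_deriv_nonneg (convex_Ico _ _)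
    · intro u hu
      exact (key u hu).continuousAt.continuousWithinAt
    · intro u hu
      rw [interior_Ico] at hu
      exact (key u ⟨hu.1.le, hu.2⟩).differentiableAt.differentiableWithinAt
    · intro u hu
      rw [interior_Ico] at hu
      rw [(key u ⟨hu.1.le, hu.2⟩).deriv]
      have hu0 := hy.trans hu.1
      exact div_nonneg (Sr_nonneg hu0.le hu.2) (by positivity)
  have := hm ⟨le_rfl, lt_of_le_of_lt hyx h1⟩ ⟨hyx, h1⟩ hyx
  simp only at this
  rw [div_le_div_iff₀ (by positivity) (by positivity)] at this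
  have e : psi x * (β * x) ^ 2 = (β ^ 2 * psi x) * x ^ 2 := by ring
  rw [e] at this
  exact le_of_mul_le_mul_right this (by positivity)

/-- `psi y ≤ -log(1-y²)/2` -/
lemma psi_le_nu {y : ℝ} (h0 : 0 ≤ y) (h1 : y < 1) : psi y ≤ - log (1 - y ^ 2) / 2 := by
  have key : ∀ u ∈ Ico (0:ℝ) 1, HasDerivAt (fun y => - log (1 - y ^ 2) - y * th y)
      (u / (1 - u ^ 2) - th u) u := by
    intro u hu
    have b := (one_sub_sq_pos (by linarith [hu.1] : -1 < u) hu.2)
    have e1 := ((hasDerivAt_one_sub_sq u).log b.ne').fun_neg.fun_sub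
      ((hasDerivAt_id u).fun_mul (hasDerivAt_th (by linarith [hu.1]) hu.2))
    refine e1.congr_deriv ?_
    simp only [id]
    have b' := b.ne'
    field_simp
    ring
  have := le_of_deriv_Ico (f := fun y => - log (1 - y ^ 2) - y * th y) (a := 0) (b := 1)
    (f' := fun u => u / (1 - u ^ 2) - th u)
    (fun y hy => (key y hy).continuousAt.continuousWithinAt)
    (fun y hy => key y ⟨hy.1.le, hy.2⟩)
    (fun y hy => sub_nonneg.2 (th_le hy.1.le hy.2)) ⟨h0, h1⟩
  simp at this
  rw [psi_eq (by linarith) h1]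
  linarith

/-! ### numeric logs -/

lemma log_ge_of_pow {x : ℝ} {k j : ℕ} (hx : 0 < x) (hk : 0 < k) (h : (2:ℝ) ^ j ≤ x ^ k) :
    (j : ℝ) / k * log 2 ≤ log x := by
  have := Real.log_le_log (by positivity) h
  rw [log_pow, log_pow] at this
  have hk' : (0:ℝ) < k := by exact_mod_cast hk
  rw [div_mul_eq_mul_div, div_le_iff₀ hk']
  linarith

lemma log_le_of_pow {x : ℝ} {k j : ℕ} (hx : 0 < x) (hk : 0 < k) (h : x ^ k ≤ (2:ℝ) ^ j) :
    log x ≤ (j : ℝ) / k * log 2 := by
  have := Real.log_le_log (by positivity) h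
  rw [log_pow, log_pow] at this
  have hk' : (0:ℝ) < k := by exact_mod_cast hk
  rw [div_mul_eq_mul_div, le_div_iff₀ hk']
  linarith

/-- `2u/(2+u) ≤ log (1+u)` -/
lemma le_log_one_add' {u : ℝ} (h0 : 0 ≤ u) (h1 : u < 1) : 2 * u / (2 + u) ≤ log (1 + u) := by
  have key : ∀ y ∈ Ico (0:ℝ) 1, HasDerivAt (fun y => log (1 + y) - 2 * y / (2 + y))
      (y ^ 2 / ((1 + y) * (2 + y) ^ 2)) y := by
    intro y hy
    have p : (0:ℝ) < 1 + y := by linarith [hy.1]
    have e1 : HasDerivAt (fun x : ℝ => log (1 + x)) (1 / (1 + y)) y := by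
      have := ((hasDerivAt_id y).const_add 1).log (by simp; linarith)
      simpa using this
    have e2 := (((hasDerivAt_id y).const_mul 2).fun_div ((hasDerivAt_id y).const_add 2)
      (by simp only [id]; linarith [hy.1]))
    refine (e1.fun_sub e2).congr_deriv ?_
    simp only [id]
    have p2 : (2 + y) ≠ 0 := by linarith [hy.1]
    field_simp
    ring
  have := le_of_deriv_Ico (f := fun y => log (1 + y) - 2 * y / (2 + y)) (a := 0) (b := 1)
    (f' := fun y => y ^ 2 / ((1 + y) * (2 + y) ^ 2))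
    (fun y hy => (key y hy).continuousAt.continuousWithinAt)
    (fun y hy => key y ⟨hy.1.le, hy.2⟩)
    (fun y hy => by have := hy.1; positivity) ⟨h0, h1⟩
  simp at this
  linarith

/-- `u + u²/2 + u³/3 ≤ -log(1-u)` -/
lemma le_neg_log_one_sub3 {X : ℝ} (h0 : 0 ≤ X) (h1 : X < 1) :
    X + X ^ 2 / 2 + X ^ 3 / 3 ≤ - log (1 - X) := by
  have key : ∀ u ∈ Ico (0:ℝ) 1, HasDerivAt (fun y => - log (1 - y) - (y + y ^ 2 / 2 + y ^ 3 / 3))
      (u ^ 3 / (1 - u)) u := by
    intro u hu
    have p : (0:ℝ) < 1 - u := by linarith [hu.2]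
    have e1 : HasDerivAt (fun x : ℝ => log (1 - x)) (-1 / (1 - u)) u := by
      have := ((hasDerivAt_id u).const_sub 1).log (by simp; linarith)
      simpa using this
    have e2 : HasDerivAt (fun y : ℝ => y + y ^ 2 / 2 + y ^ 3 / 3) (1 + u + u ^ 2) u := by
      have := (((hasDerivAt_id u).fun_add (((hasDerivAt_id u).fun_pow 2).div_const 2)).fun_add
        (((hasDerivAt_id u).fun_pow 3).div_const 3))
      refine this.congr_deriv ?_
      simp only [id]; ring
    refine (e1.fun_neg.fun_sub e2).congr_deriv ?_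
    field_simp; ring
  have := le_of_deriv_Ico (f := fun y => - log (1 - y) - (y + y ^ 2 / 2 + y ^ 3 / 3)) (a := 0) (b := 1)
    (f' := fun u => u ^ 3 / (1 - u))
    (fun y hy => (key y hy).continuousAt.continuousWithinAt)
    (fun y hy => key y ⟨hy.1.le, hy.2⟩)
    (fun y hy => by have := hy.2; have : 0 < 1 - y := by linarith
                    have := hy.1
                    positivity) ⟨h0, h1⟩
  simp at this
  linarith

/-- tangent line lower bound `-log(1-β) ≥ -log c + 1 - (1-β)/c` -/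
lemma neg_log_tangent {β c : ℝ} (hc : 0 < c) (h1 : β < 1) :
    - log c + 1 - (1 - β) / c ≤ - log (1 - β) := by
  have := Real.log_le_sub_one_of_pos (x := (1 - β) / c) (by have : 0 < 1 - β := by linarith
                                                            positivity)
  rw [log_div (by linarith) hc.ne'] at this
  linarith

lemma log_tangent {β c : ℝ} (hc : 0 < c) (h1 : -1 < β) :
    log (1 + β) ≤ log c + (1 + β) / c - 1 := by
  have := Real.log_le_sub_one_of_pos (x := (1 + β) / c) (by have : 0 < 1 + β := by linarith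
                                                            positivity)
  rw [log_div (by linarith) hc.ne'] at this
  linarith

/-- the endpoint inequality for (M2) -/
lemma M2_endpoint {β : ℝ} (h0 : 0 < β) (h1 : β < 1) :
    (1 + β) ^ 2 * log (1 + β) ≤ (1 + 2 * β - 2 * β ^ 2) * (- log (1 - β)) := by
  have hL := L_gt
  have hL' := L_lt
  have hc : 0 < 1 + 2 * β - 2 * β ^ 2 := by nlinarith
  rcases le_total β 0.6 with h | h
  · have e1 := le_neg_log_one_sub3 h0.le h1
    have e2 := log_one_add_le h0.le h1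
    have e3 : (1 + β) ^ 2 * log (1 + β) ≤ (1 + β) ^ 2 * (β - β ^ 2 / 2 + β ^ 3 / 3) :=
      mul_le_mul_of_nonneg_left e2 (sq_nonneg _)
    have e4 : (1 + 2 * β - 2 * β ^ 2) * (β + β ^ 2 / 2 + β ^ 3 / 3) ≤
        (1 + 2 * β - 2 * β ^ 2) * (- log (1 - β)) := mul_le_mul_of_nonneg_left e1 hc.le
    have e5 : (1 + 2 * β - 2 * β ^ 2) * (β + β ^ 2 / 2 + β ^ 3 / 3) -
        (1 + β) ^ 2 * (β - β ^ 2 / 2 + β ^ 3 / 3) = β ^ 2 * (1 - β - β ^ 2 / 2 - β ^ 3) := by ring
    have e6 : 0 ≤ 1 - β - β ^ 2 / 2 - β ^ 3 := by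
      have a1 : β ^ 2 ≤ 0.6 ^ 2 := pow_le_pow_left₀ h0.le h 2
      have a2 : β ^ 3 ≤ 0.6 ^ 3 := pow_le_pow_left₀ h0.le h 3
      norm_num at a1 a2
      linarith
    have e7 : 0 ≤ β ^ 2 * (1 - β - β ^ 2 / 2 - β ^ 3) := mul_nonneg (sq_nonneg _) e6
    linarith
  rcases le_total β 0.85 with h' | h'
  · have e1 := neg_log_tangent (β := β) (c := 0.3) (by norm_num) h1
    have e2 := log_tangent (β := β) (c := 1.7) (by norm_num) (by linarith)
    have n1 : (1.2038 : ℝ) ≤ - log 0.3 := by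
      have := log_ge_of_pow (x := 10 / 3) (k := 19) (j := 33) (by norm_num) (by norm_num) (by norm_num)
      have e : log (0.3 : ℝ) = - log (10 / 3) := by rw [← log_inv]; norm_num
      rw [e]
      norm_num at this ⊢
      linarith
    have n2 : log 1.7 ≤ 0.53142 := by
      have := log_le_of_pow (x := 1.7) (k := 30) (j := 23) (by norm_num) (by norm_num) (by norm_num)
      norm_num at this ⊢
      linarith
    have e3 : 1.2038 + 1 - (1 - β) / 0.3 ≤ - log (1 - β) := by linarith
    have e4 : log (1 + β) ≤ 0.53142 + (1 + β) / 1.7 - 1 := by linarith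
    have e5 := mul_le_mul_of_nonneg_left e3 hc.le
    have e6 := mul_le_mul_of_nonneg_left e4 (sq_nonneg (1 + β))
    have e7 : (1 + β) ^ 2 * (0.53142 + (1 + β) / 1.7 - 1) ≤
        (1 + 2 * β - 2 * β ^ 2) * (1.2038 + 1 - (1 - β) / 0.3) := by
      have f1 : (0.53142 + (1 + β) / 1.7 - 1 : ℝ) ≤ 0.11966 + 0.58824 * β := by
        rw [div_eq_mul_inv]; norm_num; nlinarith
      have f2 : (-1.12954 + 3.33333 * β : ℝ) ≤ 1.2038 + 1 - (1 - β) / 0.3 := by
        rw [div_eq_mul_inv]; norm_num; nlinarith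
      have f3 := mul_le_mul_of_nonneg_left f1 (sq_nonneg (1 + β))
      have f4 := mul_le_mul_of_nonneg_left f2 hc.le
      have f5 : (1 + β) ^ 2 * (0.11966 + 0.58824 * β) ≤
          (1 + 2 * β - 2 * β ^ 2) * (-1.12954 + 3.33333 * β) := by
        nlinarith [mul_nonneg (sub_nonneg.2 h) (sub_nonneg.2 h'),
          mul_nonneg (mul_nonneg (sub_nonneg.2 h) (sub_nonneg.2 h')) h0.le]
      linarith
    linarith
  · have e1 := neg_log_tangent (β := β) (c := 0.1) (by norm_num) h1
    have e2 := log_tangent (β := β) (c := 2) (by norm_num) (by linarith)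
    have n1 : (2.3022 : ℝ) ≤ - log 0.1 := by
      have := log_ge_of_pow (x := 10) (k := 28) (j := 93) (by norm_num) (by norm_num) (by norm_num)
      have e : log (0.1 : ℝ) = - log 10 := by rw [← log_inv]; norm_num
      rw [e]
      norm_num at this ⊢
      linarith
    have e3 : 2.3022 + 1 - (1 - β) / 0.1 ≤ - log (1 - β) := by linarith
    have e4 : log (1 + β) ≤ 0.69315 + (1 + β) / 2 - 1 := by linarith
    have e5 := mul_le_mul_of_nonneg_left e3 hc.le
    have e6 := mul_le_mul_of_nonneg_left e4 (sq_nonneg (1 + β))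
    have e7 : (1 + β) ^ 2 * (0.69315 + (1 + β) / 2 - 1) ≤
        (1 + 2 * β - 2 * β ^ 2) * (2.3022 + 1 - (1 - β) / 0.1) := by
      have f2 : (-6.6978 + 10 * β : ℝ) = 2.3022 + 1 - (1 - β) / 0.1 := by
        rw [div_eq_mul_inv]; norm_num; ring
      rw [← f2]
      nlinarith [mul_nonneg (sub_nonneg.2 h') (sub_nonneg.2 h1.le),
          mul_nonneg (mul_nonneg (sub_nonneg.2 h') (sub_nonneg.2 h1.le)) h0.le]
    linarith

end Crest.Agent.H28
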