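import Crest.Agent.H28.M1M2

set_option autoImplicit false

namespace Crest.Agent.H28

open Real Set

lemma one_sub_mul_th {u : ℝ} (h1 : -1 < u) (h2 : u < 1) :
    (1 - u) * th u - hh u = log (1 + u) - log 2 := by
  unfold th hh psi
  ring

lemma mono_unit {G G' : ℝ → ℝ} (hd : ∀ u, 0 < u → u ≤ 1 → HasDerivAt G (G' u) u)
    (h0 : ∀ u, 0 < u → u ≤ 1 → 0 ≤ G' u) {w : ℝ} (hw0 : 0 < w) (hw1 : w ≤ 1) : G w ≤ G 1 := by
  have hm : MonotoneOn G (Icc w 1) := by
    apply monotoneOn_of_deriv_nonneg (convex_Icc _ _)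
    · intro u hu
      exact (hd u (hw0.trans_le hu.1) hu.2).continuousAt.continuousWithinAt
    · intro u hu
      rw [interior_Icc] at hu
      exact (hd u (hw0.trans hu.1) hu.2.le).differentiableAt.differentiableWithinAt
    · intro u hu
      rw [interior_Icc] at hu
      rw [(hd u (hw0.trans hu.1) hu.2.le).deriv]
      exact h0 u (hw0.trans hu.1) hu.2.le
  exact hm ⟨le_rfl, hw1⟩ ⟨hw1, le_rfl⟩ hw1

section
variable {b : ℝ}

lemma ray1 (hb0 : 0 < b) (hb1 : b < 1) {I J lam nu : ℝ → ℝ}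
    (hI : ∀ u, 0 < u → u ≤ 1 → HasDerivAt I ((I u - lam u) / u) u)
    (hJ : ∀ u, 0 < u → u ≤ 1 → HasDerivAt J ((J u - lam u - nu u) / u) u)
    (hM : ∀ u, 0 < u → u ≤ 1 →
      Phi b (lam u) (I u) - Phi b (lam u) (J u) ≤ (2 + sg b (J u)) * nu u)
    {w : ℝ} (hw0 : 0 < w) (hw1 : w ≤ 1) :
    2 * (I w - J w) + SS b (I w) - SS b (J w) ≤
      w * (2 * (I 1 - J 1) + SS b (I 1) - SS b (J 1)) := by
  have key := mono_unit (G := fun u => (2 * (I u - J u) + SS b (I u) - SS b (J u)) / u)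
    (G' := fun u => ((2 + sg b (J u)) * nu u - (Phi b (lam u) (I u) - Phi b (lam u) (J u))) / u ^ 2)
    ?_ ?_ hw0 hw1
  · simp only [div_one] at key
    rw [div_le_iff₀ hw0] at key
    linarith
  · intro u hu0 hu1
    have e1 := hI u hu0 hu1
    have e2 := hJ u hu0 hu1
    have e3 := (((e1.fun_sub e2).const_mul 2).fun_add ((hasDerivAt_SS hb0 hb1 (I u)).comp u e1)).fun_sub
      ((hasDerivAt_SS hb0 hb1 (J u)).comp u e2)
    have e4 := e3.fun_div (hasDerivAt_id u) hu0.ne'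
    refine e4.congr_deriv ?_
    unfold Phi
    simp only [Function.comp, id]
    field_simp
    ring
  · intro u hu0 hu1
    apply div_nonneg _ (by positivity)
    linarith [hM u hu0 hu1]

/-- perspective -/
noncomputable def tau (b A V : ℝ) : ℝ := V * SS b (log 2 - A / V)

lemma hasDerivAt_tau (hb0 : 0 < b) (hb1 : b < 1) {A V : ℝ} (hV : V ≠ 0) :
    HasDerivAt (tau b A) (Phi b (log 2) (log 2 - A / V)) V := by
  have e1 : HasDerivAt (fun v : ℝ => log 2 - A / v) (A / V ^ 2) V := by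
    have := (((hasDerivAt_inv hV).const_mul A).const_sub (log 2))
    simp only [← div_eq_mul_inv] at this
    refine this.congr_deriv ?_
    field_simp
  have e2 := (hasDerivAt_id V).fun_mul ((hasDerivAt_SS hb0 hb1 _).comp V e1)
  refine e2.congr_deriv ?_
  unfold Phi
  simp only [Function.comp, id]
  field_simp
  ring

lemma ray2 (hb0 : 0 < b) (hb1 : b < 1) {I J lam nu V1 V2 E D : ℝ → ℝ} {A : ℝ} (hA : 0 < A)
    (hI : ∀ u, 0 < u → u ≤ 1 → HasDerivAt I ((I u - lam u) / u) u)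
    (hJ : ∀ u, 0 < u → u ≤ 1 → HasDerivAt J ((J u - lam u - nu u) / u) u)
    (hV1 : ∀ u, 0 < u → u ≤ 1 → HasDerivAt V1 (- E u) u)
    (hV2 : ∀ u, 0 < u → u ≤ 1 → HasDerivAt V2 (- E u - D u) u)
    (hE : ∀ u, 0 < u → u ≤ 1 → 0 ≤ E u)
    (hD : ∀ u, 0 < u → u ≤ 1 → 0 ≤ D u)
    (hVp : ∀ u, 0 < u → u ≤ 1 → 0 < V2 u)
    (hVV : ∀ u, 0 < u → u ≤ 1 → V2 u ≤ V1 u)
    (hM : ∀ u, 0 < u → u ≤ 1 →
      0.75 * E u * (log (V1 u) - log (V2 u)) ≤ 2 * (nu u / u ^ 2))
    {w : ℝ} (hw0 : 0 < w) (hw1 : w ≤ 1) :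
    2 * (I w - J w) / w + tau b A (V1 w) - tau b A (V2 w) ≤
      2 * (I 1 - J 1) + tau b A (V1 1) - tau b A (V2 1) := by
  have key := mono_unit (G := fun u => 2 * (I u - J u) / u + tau b A (V1 u) - tau b A (V2 u))
    (G' := fun u => 2 * (nu u / u ^ 2) + Phi b (log 2) (log 2 - A / V1 u) * (- E u)
      - Phi b (log 2) (log 2 - A / V2 u) * (- E u - D u))
    ?_ ?_ hw0 hw1
  · simp only [div_one] at key
    exact key
  · intro u hu0 hu1
    have e1 := hI u hu0 hu1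
    have e2 := hJ u hu0 hu1
    have v2 := hVp u hu0 hu1
    have v1 := v2.trans_le (hVV u hu0 hu1)
    have e3 := ((e1.fun_sub e2).const_mul 2).fun_div (hasDerivAt_id u) hu0.ne'
    have e4 := (e3.fun_add ((hasDerivAt_tau (A := A) hb0 hb1 v1.ne').comp u (hV1 u hu0 hu1))).fun_sub
      ((hasDerivAt_tau (A := A) hb0 hb1 v2.ne').comp u (hV2 u hu0 hu1))
    refine e4.congr_deriv ?_
    simp only [id]
    field_simp
    ring
  · intro u hu0 hu1
    have v2 := hVp u hu0 hu1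
    have v12 := hVV u hu0 hu1
    have v1 := v2.trans_le v12
    have h1 : log 2 - A / V2 u ≤ log 2 - A / V1 u := by
      have : A / V1 u ≤ A / V2 u := div_le_div_of_nonneg_left hA.le v2 v12
      linarith
    have h2 : log 2 - A / V1 u < log 2 := by
      have : 0 < A / V1 u := by positivity
      linarith
    have inc := Phi_L_increment hb0 hb1 h1 h2
    have e1 : log (log 2 - (log 2 - A / V2 u)) = log A - log (V2 u) := by
      rw [sub_sub_cancel, Real.log_div hA.ne' v2.ne']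
    have e2 : log (log 2 - (log 2 - A / V1 u)) = log A - log (V1 u) := by
      rw [sub_sub_cancel, Real.log_div hA.ne' v1.ne']
    rw [e1, e2] at inc
    have hp := Phi_L_nonneg hb0 hb1 (log 2 - A / V2 u)
    have m1 := mul_le_mul_of_nonneg_left inc (hE u hu0 hu1)
    have m2 := mul_nonneg hp (hD u hu0 hu1)
    have m3 := hM u hu0 hu1
    nlinarith

end

/-! ### the two families -/

/-- the first functional -/
noncomputable def B1 (m δ A : ℝ) : ℝ :=
  2 * I2 m δ + SS bt (hh m - A) - SS bt (hh m - A - I2 m δ)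

/-- the second functional -/
noncomputable def B2 (b m δ A : ℝ) : ℝ :=
  2 * I2 m δ + tau b A (1 - m ^ 2) - tau b A (1 - m ^ 2 - δ ^ 2)

section ray
variable {m δ A : ℝ}

/-- the functions along the ray -/
noncomputable def rI (m A u : ℝ) : ℝ := hh (1 - u * (1 - m)) - u * A
noncomputable def rJ (m δ A u : ℝ) : ℝ :=
  (hh (1 - u * (1 - (m + δ))) + hh (1 - u * (1 - (m - δ)))) / 2 - u * A
noncomputable def rlam (m u : ℝ) : ℝ := log 2 - log (1 + (1 - u * (1 - m)))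

lemma range_aux {x u : ℝ} (h0 : -1 < x) (h1 : x < 1) (hu0 : 0 < u) (hu1 : u ≤ 1) :
    -1 < 1 - u * (1 - x) ∧ 1 - u * (1 - x) < 1 := by
  constructor
  · have : u * (1 - x) ≤ 1 * (1 - x) := mul_le_mul_of_nonneg_right hu1 (by linarith)
    linarith
  · have : 0 < u * (1 - x) := mul_pos hu0 (by linarith)
    linarith

lemma hasDerivAt_hh_ray {x u : ℝ} (h0 : -1 < x) (h1 : x < 1) (hu0 : 0 < u) (hu1 : u ≤ 1) :
    HasDerivAt (fun u => hh (1 - u * (1 - x)))
      ((hh (1 - u * (1 - x)) + log (1 + (1 - u * (1 - x))) - log 2) / u) u := by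
  obtain ⟨r0, r1⟩ := range_aux h0 h1 hu0 hu1
  have e1 : HasDerivAt (fun u : ℝ => 1 - u * (1 - x)) (-(1 - x)) u := by
    have := ((hasDerivAt_id u).mul_const (1 - x)).const_sub 1
    refine this.congr_deriv ?_
    ring
  have e2 := (hasDerivAt_hh r0 r1).comp u e1
  refine e2.congr_deriv ?_
  have := one_sub_mul_th r0 r1
  have e3 : hh (1 - u * (1 - x)) + log (1 + (1 - u * (1 - x))) - log 2 =
      (u * (1 - x)) * th (1 - u * (1 - x)) := by
    linear_combination (-1 : ℝ) * this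
  rw [e3]
  field_simp

lemma hasDerivAt_rI (hm0 : 0 ≤ m) (hm1 : m < 1) {u : ℝ} (hu0 : 0 < u) (hu1 : u ≤ 1) :
    HasDerivAt (rI m A) ((rI m A u - rlam m u) / u) u := by
  have e1 := (hasDerivAt_hh_ray (by linarith : -1 < m) hm1 hu0 hu1).fun_sub
    ((hasDerivAt_id u).mul_const A)
  refine e1.congr_deriv ?_
  unfold rI rlam
  field_simp
  ring

lemma log_pair {m δ u : ℝ} (hm0 : 0 ≤ m) (hδ0 : 0 ≤ δ) (hδ1 : δ < 1 - m)
    (hu0 : 0 < u) (hu1 : u ≤ 1) :
    log (1 + (1 - u * (1 - (m + δ)))) + log (1 + (1 - u * (1 - (m - δ)))) =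
      2 * log (1 + (1 - u * (1 - m))) - 2 * nu (1 - u * (1 - m)) (u * δ) := by
  unfold nu
  have r0 := range_aux (by linarith : -1 < m) (by linarith : m < 1) hu0 hu1
  have r1 := range_aux (by linarith : -1 < m + δ) (by linarith : m + δ < 1) hu0 hu1
  have r2 := range_aux (by linarith : -1 < m - δ) (by linarith : m - δ < 1) hu0 hu1
  have p0 : 0 < 1 + (1 - u * (1 - m)) := by linarith [r0.1]
  have p1 : 0 < 1 + (1 - u * (1 - (m + δ))) := by linarith [r1.1]
  have p2 : 0 < 1 + (1 - u * (1 - (m - δ))) := by linarith [r2.1]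
  rw [← Real.log_mul p1.ne' p2.ne']
  have e : (1 + (1 - u * (1 - (m + δ)))) * (1 + (1 - u * (1 - (m - δ)))) =
      (1 + (1 - u * (1 - m))) ^ 2 * (1 - (u * δ / (1 + (1 - u * (1 - m)))) ^ 2) := by
    field_simp
    ring
  have p3 : 0 < 1 - (u * δ / (1 + (1 - u * (1 - m)))) ^ 2 := by
    have := mul_pos p1 p2
    rw [e] at this
    exact (pos_iff_pos_of_mul_pos this).1 (by positivity)
  rw [e, Real.log_mul (by positivity) p3.ne', Real.log_pow]
  push_cast
  ring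

lemma hasDerivAt_rJ (hm0 : 0 ≤ m) (hδ0 : 0 ≤ δ) (hδ1 : δ < 1 - m) {u : ℝ}
    (hu0 : 0 < u) (hu1 : u ≤ 1) :
    HasDerivAt (rJ m δ A)
      ((rJ m δ A u - rlam m u - nu (1 - u * (1 - m)) (u * δ)) / u) u := by
  have e1 := (((hasDerivAt_hh_ray (by linarith : -1 < m + δ) (by linarith) hu0 hu1).fun_add
    (hasDerivAt_hh_ray (by linarith : -1 < m - δ) (by linarith) hu0 hu1)).div_const 2).fun_sub
    ((hasDerivAt_id u).mul_const A)
  refine e1.congr_deriv ?_
  have := log_pair hm0 hδ0 hδ1 hu0 hu1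
  unfold rJ rlam
  have hl : log (1 + (1 - u * (1 - (m + δ)))) =
      2 * log (1 + (1 - u * (1 - m))) - 2 * nu (1 - u * (1 - m)) (u * δ)
      - log (1 + (1 - u * (1 - (m - δ)))) := by linarith
  rw [hl]
  field_simp
  ring

lemma rlam_nonneg (hm0 : 0 ≤ m) (hm1 : m < 1) {u : ℝ} (hu0 : 0 < u) (hu1 : u ≤ 1) :
    0 ≤ rlam m u := by
  unfold rlam
  have r0 := range_aux (by linarith : -1 < m) hm1 hu0 hu1
  have : log (1 + (1 - u * (1 - m))) ≤ log 2 :=
    Real.log_le_log (by linarith [r0.1]) (by linarith [r0.2])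
  linarith

/-- `J ≥ 0` along a ray -/
lemma J_nonneg_of {J c : ℝ → ℝ} (hJ : ∀ u, 0 < u → u ≤ 1 → HasDerivAt J ((J u - c u) / u) u)
    (hc : ∀ u, 0 < u → u ≤ 1 → 0 ≤ c u) (h1 : 0 ≤ J 1) {w : ℝ} (hw0 : 0 < w) (hw1 : w ≤ 1) :
    0 ≤ J w := by
  have key := mono_unit (G := fun u => - (J u / u)) (G' := fun u => c u / u ^ 2) ?_ ?_ hw0 hw1
  · simp only [div_one] at key
    have : J 1 ≤ J w / w := by linarith
    have h2 : 0 ≤ J w / w := h1.trans this
    rw [div_nonneg_iff] at h2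
    rcases h2 with h | h
    · exact h.1
    · linarith [h.2]
  · intro u hu0 hu1
    have := ((hJ u hu0 hu1).fun_div (hasDerivAt_id u) hu0.ne').fun_neg
    refine this.congr_deriv ?_
    simp only [id]
    field_simp
    ring
  · intro u hu0 hu1
    exact div_nonneg (hc u hu0 hu1) (by positivity)

lemma m_range (hm0 : 0 ≤ m) (hm1 : m < 1) {u : ℝ} (hu0 : 0 < u) (hu1 : u ≤ 1) :
    0 ≤ 1 - u * (1 - m) ∧ 1 - u * (1 - m) < 1 := by
  constructor
  · have : u * (1 - m) ≤ 1 * (1 - m) := mul_le_mul_of_nonneg_right hu1 (by linarith)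
    linarith
  · have : 0 < u * (1 - m) := mul_pos hu0 (by linarith)
    linarith

lemma delta_range (hδ1 : δ < 1 - m) {u : ℝ} (hu0 : 0 < u) :
    u * δ < 1 - (1 - u * (1 - m)) := by
  have : u * δ < u * (1 - m) := mul_lt_mul_of_pos_left hδ1 hu0
  linarith

lemma rJ_nonneg (hm0 : 0 ≤ m) (hδ0 : 0 ≤ δ) (hδ1 : δ < 1 - m)
    (hA : A ≤ (hh (m + δ) + hh (m - δ)) / 2) {u : ℝ} (hu0 : 0 < u) (hu1 : u ≤ 1) :
    0 ≤ rJ m δ A u := by
  refine J_nonneg_of (c := fun u => rlam m u + nu (1 - u * (1 - m)) (u * δ)) ?_ ?_ ?_ hu0 hu1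
  · intro u hu0 hu1
    have := hasDerivAt_rJ (A := A) hm0 hδ0 hδ1 hu0 hu1
    refine this.congr_deriv ?_
    ring
  · intro u hu0 hu1
    have := rlam_nonneg hm0 (by linarith) hu0 hu1
    have h2 := nu_nonneg (m_range hm0 (by linarith : m < 1) hu0 hu1).1 (by positivity : 0 ≤ u * δ)
      (delta_range hδ1 hu0)
    positivity
  · unfold rJ
    simp only [one_mul, sub_sub_cancel]
    linarith

lemma rI_sub_rJ (u : ℝ) : rI m A u - rJ m δ A u = I2 (1 - u * (1 - m)) (u * δ) := by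
  unfold rI rJ I2
  have e1 : 1 - u * (1 - (m + δ)) = 1 - u * (1 - m) + u * δ := by ring
  have e2 : 1 - u * (1 - (m - δ)) = 1 - u * (1 - m) - u * δ := by ring
  rw [e1, e2]
  ring

lemma rI_eq (u : ℝ) : rI m A u = rJ m δ A u + I2 (1 - u * (1 - m)) (u * δ) := by
  rw [← rI_sub_rJ (A := A)]; ring

/-- ray inequality for `B1` -/
lemma rayB1 (hm0 : 0 ≤ m) (hδ0 : 0 ≤ δ) (hδ1 : δ < 1 - m)
    (hA : A ≤ (hh (m + δ) + hh (m - δ)) / 2) {w : ℝ} (hw0 : 0 < w) (hw1 : w ≤ 1) :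
    B1 (1 - w * (1 - m)) (w * δ) (w * A) ≤ w * B1 m δ A := by
  have hm1 : m < 1 := by linarith
  have key := ray1 bt_pos bt_lt_one (I := rI m A) (J := rJ m δ A) (lam := rlam m)
    (nu := fun u => nu (1 - u * (1 - m)) (u * δ))
    (fun u hu0 hu1 => hasDerivAt_rI hm0 hm1 hu0 hu1)
    (fun u hu0 hu1 => hasDerivAt_rJ hm0 hδ0 hδ1 hu0 hu1) ?_ hw0 hw1
  · unfold B1
    have e1 := rI_sub_rJ (m := m) (δ := δ) (A := A) w
    have e2 := rI_sub_rJ (m := m) (δ := δ) (A := A) 1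
    have e3 : (1:ℝ) - 1 * (1 - m) = m := by ring
    have e4 : (1:ℝ) * δ = δ := by ring
    rw [e3, e4] at e2
    have e5 : rI m A 1 = hh m - A := by unfold rI; rw [e3]; ring
    have e6 : rI m A w = hh (1 - w * (1 - m)) - w * A := rfl
    have e7 : rJ m δ A w = hh (1 - w * (1 - m)) - w * A - I2 (1 - w * (1 - m)) (w * δ) := by
      rw [← e6, ← e1]; ring
    have e8 : rJ m δ A 1 = hh m - A - I2 m δ := by
      rw [← e5, ← e2]; ring
    rw [e1, e2, e5, e6, e7, e8] at key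
    exact key
  · intro u hu0 hu1
    rw [rI_eq (δ := δ)]
    exact M1 (m_range hm0 hm1 hu0 hu1).1 (m_range hm0 hm1 hu0 hu1).2 (by positivity)
      (delta_range hδ1 hu0) (rJ_nonneg hm0 hδ0 hδ1 hA hu0 hu1)

lemma sq_lt_aux (hm0 : 0 ≤ m) (hδ0 : 0 ≤ δ) (hδ1 : δ < 1 - m) : δ ^ 2 < 1 - m ^ 2 := by
  nlinarith

/-- ray inequality for `B2` -/
lemma rayB2 {b : ℝ} (hb0 : 0 < b) (hb1 : b < 1) (hm0 : 0 ≤ m) (hδ0 : 0 ≤ δ) (hδ1 : δ < 1 - m)
    (hA0 : 0 < A) {w : ℝ} (hw0 : 0 < w) (hw1 : w ≤ 1) :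
    B2 b (1 - w * (1 - m)) (w * δ) (w * A) ≤ w * B2 b m δ A := by
  have hm1 : m < 1 := by linarith
  have hV2 : ∀ u, 0 < u → u ≤ 1 → 0 < (1 - m) * (2 - u * (1 - m)) - u * δ ^ 2 := by
    intro u hu0 hu1
    have h1 := m_range hm0 hm1 hu0 hu1
    have h2 := delta_range hδ1 hu0
    have h3 := sq_lt_aux h1.1 (by positivity : 0 ≤ u * δ) h2
    have h4 : u * ((1 - m) * (2 - u * (1 - m)) - u * δ ^ 2) =
      1 - (1 - u * (1 - m)) ^ 2 - (u * δ) ^ 2 := by ring
    have h5 : 0 < u * ((1 - m) * (2 - u * (1 - m)) - u * δ ^ 2) := by rw [h4]; linarith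
    exact (pos_iff_pos_of_mul_pos h5).1 hu0
  have key := ray2 hb0 hb1 (I := rI m A) (J := rJ m δ A) (lam := rlam m)
    (nu := fun u => nu (1 - u * (1 - m)) (u * δ))
    (V1 := fun u => (1 - m) * (2 - u * (1 - m)))
    (V2 := fun u => (1 - m) * (2 - u * (1 - m)) - u * δ ^ 2)
    (E := fun _ => (1 - m) ^ 2) (D := fun _ => δ ^ 2) hA0
    (fun u hu0 hu1 => hasDerivAt_rI hm0 hm1 hu0 hu1)
    (fun u hu0 hu1 => hasDerivAt_rJ hm0 hδ0 hδ1 hu0 hu1)
    ?_ ?_ (fun _ _ _ => by positivity) (fun _ _ _ => by positivity) hV2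
    (fun u hu0 _ => by
      have : 0 ≤ u * δ ^ 2 := by positivity
      show (1 - m) * (2 - u * (1 - m)) - u * δ ^ 2 ≤ (1 - m) * (2 - u * (1 - m))
      linarith) ?_ hw0 hw1
  · unfold B2
    have e1 := rI_sub_rJ (m := m) (δ := δ) (A := A) w
    have e2 := rI_sub_rJ (m := m) (δ := δ) (A := A) 1
    have e3 : (1:ℝ) - 1 * (1 - m) = m := by ring
    have e4 : (1:ℝ) * δ = δ := by ring
    rw [e3, e4] at e2
    rw [e1, e2] at key
    have p1 := hV2 w hw0 hw1
    have p0 : 0 < (1 - m) * (2 - w * (1 - m)) := by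
      have : 0 ≤ w * δ ^ 2 := by positivity
      linarith
    have f1 : tau b (w * A) (1 - (1 - w * (1 - m)) ^ 2) = w * tau b A ((1 - m) * (2 - w * (1 - m))) := by
      unfold tau
      have h1 : 1 - (1 - w * (1 - m)) ^ 2 = w * ((1 - m) * (2 - w * (1 - m))) := by ring
      rw [h1, mul_div_mul_left _ _ hw0.ne']
      ring
    have f2 : tau b (w * A) (1 - (1 - w * (1 - m)) ^ 2 - (w * δ) ^ 2) =
        w * tau b A ((1 - m) * (2 - w * (1 - m)) - w * δ ^ 2) := by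
      unfold tau
      have h1 : 1 - (1 - w * (1 - m)) ^ 2 - (w * δ) ^ 2 =
        w * ((1 - m) * (2 - w * (1 - m)) - w * δ ^ 2) := by ring
      rw [h1, mul_div_mul_left _ _ hw0.ne']
      ring
    rw [f1, f2]
    have g1 : (1 - m) * (2 - 1 * (1 - m)) = 1 - m ^ 2 := by ring
    have g2 : (1 - m) * (2 - 1 * (1 - m)) - 1 * δ ^ 2 = 1 - m ^ 2 - δ ^ 2 := by ring
    rw [g1] at key
    have g2' : 1 - m ^ 2 - 1 * δ ^ 2 = 1 - m ^ 2 - δ ^ 2 := by ring
    rw [g2'] at key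
    have key2 := mul_le_mul_of_nonneg_left key hw0.le
    have e9 : w * (2 * I2 (1 - w * (1 - m)) (w * δ) / w + tau b A ((1 - m) * (2 - w * (1 - m)))
        - tau b A ((1 - m) * (2 - w * (1 - m)) - w * δ ^ 2)) =
        2 * I2 (1 - w * (1 - m)) (w * δ) + w * tau b A ((1 - m) * (2 - w * (1 - m)))
        - w * tau b A ((1 - m) * (2 - w * (1 - m)) - w * δ ^ 2) := by
      field_simp
    rw [e9] at key2
    linarith
  · intro u hu0 hu1
    have := ((((hasDerivAt_id u).mul_const (1 - m)).const_sub 2).const_mul (1 - m))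
    refine this.congr_deriv ?_
    ring
  · intro u hu0 hu1
    have := ((((hasDerivAt_id u).mul_const (1 - m)).const_sub 2).const_mul (1 - m)).fun_sub
      ((hasDerivAt_id u).mul_const (δ ^ 2))
    refine this.congr_deriv ?_
    ring
  · intro u hu0 hu1
    have hr := m_range hm0 hm1 hu0 hu1
    have hd := delta_range hδ1 hu0
    have hM2 := M2 hr.1 hr.2 (by positivity : 0 ≤ u * δ) hd
    have p1 := hV2 u hu0 hu1
    have p0 : 0 < (1 - m) * (2 - u * (1 - m)) := by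
      have : 0 ≤ u * δ ^ 2 := by positivity
      linarith
    have e1 : log ((1 - m) * (2 - u * (1 - m))) - log ((1 - m) * (2 - u * (1 - m)) - u * δ ^ 2) =
        - log (1 - (u * δ) ^ 2 / (1 - (1 - u * (1 - m)) ^ 2)) := by
      rw [← neg_sub, ← Real.log_div p1.ne' p0.ne']
      congr 2
      have : 1 - (1 - u * (1 - m)) ^ 2 = u * ((1 - m) * (2 - u * (1 - m))) := by ring
      rw [this]
      generalize (1 - m) * (2 - u * (1 - m)) = Y at p0
      field_simp
    rw [e1]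
    have e2 : 0.75 * (1 - m) ^ 2 * -log (1 - (u * δ) ^ 2 / (1 - (1 - u * (1 - m)) ^ 2)) =
        (0.75 * (1 - (1 - u * (1 - m))) ^ 2 *
          -log (1 - (u * δ) ^ 2 / (1 - (1 - u * (1 - m)) ^ 2))) / u ^ 2 := by
      field_simp
      ring
    rw [e2, div_le_iff₀ (by positivity)]
    calc _ ≤ _ := hM2
      _ = _ := by field_simp

/-! ### symmetric stage -/

lemma hasDerivAt_sI {u : ℝ} (hu0 : 0 < u) :
    HasDerivAt (fun u => log 2 - u * A) (((log 2 - u * A) - log 2) / u) u := by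
  have := ((hasDerivAt_id u).mul_const A).const_sub (log 2)
  refine this.congr_deriv ?_
  field_simp
  ring

lemma hasDerivAt_sJ (hδ0 : 0 ≤ δ) (hδ1 : δ < 1) {u : ℝ} (hu0 : 0 < u) (hu1 : u ≤ 1) :
    HasDerivAt (fun u => hh (u * δ) - u * A)
      (((hh (u * δ) - u * A) - log 2 - nu 0 (u * δ)) / u) u := by
  have h0 : 0 ≤ u * δ := by positivity
  have h1 : u * δ < 1 := lt_of_le_of_lt (mul_le_of_le_one_left hδ0 hu1) hδ1
  have e1 := ((hasDerivAt_hh (by linarith : -1 < u * δ) h1).comp u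
    ((hasDerivAt_id u).mul_const δ)).fun_sub ((hasDerivAt_id u).mul_const A)
  refine e1.congr_deriv ?_
  have e2 := psi_eq (by linarith : -1 < u * δ) h1
  unfold hh nu
  rw [e2]
  simp only [id, add_zero, div_one]
  field_simp
  ring

lemma I2_zero (δ : ℝ) : I2 0 δ = log 2 - hh δ := by
  unfold I2
  rw [zero_add, zero_sub, hh_neg]
  unfold hh
  rw [psi_zero]
  ring

lemma symB1 (hδ0 : 0 ≤ δ) (hδ1 : δ < 1) (hA : A ≤ hh δ) {w : ℝ} (hw0 : 0 < w) (hw1 : w ≤ 1) :
    B1 0 (w * δ) (w * A) ≤ w * B1 0 δ A := by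
  have hd : ∀ u, 0 < u → u ≤ 1 → u * δ < 1 - 0 := fun u hu0 hu1 => by
    have := lt_of_le_of_lt (mul_le_of_le_one_left hδ0 hu1) hδ1
    linarith
  have key := ray1 bt_pos bt_lt_one (I := fun u => log 2 - u * A) (J := fun u => hh (u * δ) - u * A)
    (lam := fun _ => log 2) (nu := fun u => nu 0 (u * δ))
    (fun u hu0 _ => hasDerivAt_sI hu0)
    (fun u hu0 hu1 => hasDerivAt_sJ hδ0 hδ1 hu0 hu1) ?_ hw0 hw1
  · unfold B1
    simp only [I2_zero]
    have h0 : hh 0 = log 2 := by unfold hh; rw [psi_zero]; ring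
    rw [h0]
    simp only [one_mul] at key
    have e1 : log 2 - w * A - (log 2 - hh (w * δ)) = hh (w * δ) - w * A := by ring
    have e2 : log 2 - A - (log 2 - hh δ) = hh δ - A := by ring
    rw [e1, e2]
    have e3 : log 2 - w * A - (hh (w * δ) - w * A) = log 2 - hh (w * δ) := by ring
    have e4 : log 2 - A - (hh δ - A) = log 2 - hh δ := by ring
    rw [e3, e4] at key
    exact key
  · intro u hu0 hu1
    have hJ : 0 ≤ hh (u * δ) - u * A := by
      refine J_nonneg_of (J := fun u => hh (u * δ) - u * A) (c := fun u => log 2 + nu 0 (u * δ)) ?_ ?_ ?_ hu0 hu1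
      · intro u hu0 hu1
        refine (hasDerivAt_sJ (A := A) hδ0 hδ1 hu0 hu1).congr_deriv ?_
        ring
      · intro u hu0 hu1
        have := nu_nonneg (le_refl (0:ℝ)) (by positivity : 0 ≤ u * δ) (hd u hu0 hu1)
        have := L_gt
        linarith
      · simp only [one_mul]; linarith
    have := M1 (le_refl (0:ℝ)) (by norm_num) (by positivity : 0 ≤ u * δ) (hd u hu0 hu1) hJ
    rw [I2_zero] at this
    have e1 : hh (u * δ) - u * A + (log 2 - hh (u * δ)) = log 2 - u * A := by ring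
    have e2 : log 2 - log (1 + 0) = log 2 := by simp
    rw [e1, e2] at this
    exact this

lemma symB2 {b : ℝ} (hb0 : 0 < b) (hb1 : b < 1) (hδ0 : 0 ≤ δ) (hδ1 : δ < 1)
    (hA0 : 0 < A) {w : ℝ} (hw0 : 0 < w) (hw1 : w ≤ 1) :
    B2 b 0 (w * δ) (w * A) ≤ w * B2 b 0 δ A := by
  have hd : ∀ u, 0 < u → u ≤ 1 → u * δ < 1 := fun u hu0 hu1 =>
    lt_of_le_of_lt (mul_le_of_le_one_left hδ0 hu1) hδ1
  have hV2 : ∀ u, 0 < u → u ≤ 1 → 0 < 1 / u - u * δ ^ 2 := by
    intro u hu0 hu1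
    have h1 := hd u hu0 hu1
    have h2 : (u * δ) ^ 2 < 1 := by nlinarith [mul_nonneg hu0.le hδ0]
    have h4 : u * (1 / u - u * δ ^ 2) = 1 - (u * δ) ^ 2 := by field_simp
    have h5 : 0 < u * (1 / u - u * δ ^ 2) := by rw [h4]; linarith
    exact (pos_iff_pos_of_mul_pos h5).1 hu0
  have key := ray2 hb0 hb1 (I := fun u => log 2 - u * A) (J := fun u => hh (u * δ) - u * A)
    (lam := fun _ => log 2) (nu := fun u => nu 0 (u * δ))
    (V1 := fun u => 1 / u)
    (V2 := fun u => 1 / u - u * δ ^ 2)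
    (E := fun u => 1 / u ^ 2) (D := fun _ => δ ^ 2) hA0
    (fun u hu0 _ => hasDerivAt_sI hu0)
    (fun u hu0 hu1 => hasDerivAt_sJ hδ0 hδ1 hu0 hu1)
    ?_ ?_ (fun _ _ _ => by positivity) (fun _ _ _ => by positivity) hV2
    (fun u hu0 _ => by
      have : 0 ≤ u * δ ^ 2 := by positivity
      show 1 / u - u * δ ^ 2 ≤ 1 / u
      linarith) ?_ hw0 hw1
  · unfold B2
    simp only [I2_zero]
    simp only [one_mul, div_one] at key
    have f1 : tau b (w * A) (1 - 0 ^ 2) = w * tau b A (1 / w) := by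
      unfold tau
      have h1 : (1:ℝ) - 0 ^ 2 = w * (1 / w) := by field_simp; ring
      rw [h1, mul_div_mul_left _ _ hw0.ne']
      ring
    have f2 : tau b (w * A) (1 - 0 ^ 2 - (w * δ) ^ 2) = w * tau b A (1 / w - w * δ ^ 2) := by
      unfold tau
      have h1 : (1:ℝ) - 0 ^ 2 - (w * δ) ^ 2 = w * (1 / w - w * δ ^ 2) := by field_simp; ring
      rw [h1, mul_div_mul_left _ _ hw0.ne']
      ring
    rw [f1, f2]
    have g1 : (1:ℝ) - 0 ^ 2 = 1 := by ring
    rw [g1]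
    have key2 := mul_le_mul_of_nonneg_left key hw0.le
    have e3 : log 2 - w * A - (hh (w * δ) - w * A) = log 2 - hh (w * δ) := by ring
    have e4 : log 2 - A - (hh δ - A) = log 2 - hh δ := by ring
    rw [e3, e4] at key2
    have e9 : w * (2 * (log 2 - hh (w * δ)) / w + tau b A (1 / w) - tau b A (1 / w - w * δ ^ 2)) =
        2 * (log 2 - hh (w * δ)) + w * tau b A (1 / w) - w * tau b A (1 / w - w * δ ^ 2) := by
      generalize tau b A (1 / w) = T1
      generalize tau b A (1 / w - w * δ ^ 2) = T2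
      field_simp
    rw [e9] at key2
    linarith
  · intro u hu0 hu1
    have := hasDerivAt_inv hu0.ne'
    simp only [← one_div] at this
    exact this
  · intro u hu0 hu1
    have := (hasDerivAt_inv hu0.ne').fun_sub ((hasDerivAt_id u).mul_const (δ ^ 2))
    simp only [← one_div, one_mul] at this
    exact this
  · intro u hu0 hu1
    have hdd := hd u hu0 hu1
    have hM2 := M2 (le_refl (0:ℝ)) (by norm_num) (by positivity : 0 ≤ u * δ) (by linarith)
    have p1 := hV2 u hu0 hu1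
    have p0 : 0 < 1 / u := by positivity
    have e1 : log (1 / u) - log (1 / u - u * δ ^ 2) = - log (1 - (u * δ) ^ 2 / (1 - 0 ^ 2)) := by
      rw [← neg_sub, ← Real.log_div p1.ne' p0.ne']
      congr 2
      have : (1:ℝ) - 0 ^ 2 = 1 := by ring
      rw [this]
      field_simp
    rw [e1]
    have e2 : 0.75 * (1 / u ^ 2) * -log (1 - (u * δ) ^ 2 / (1 - 0 ^ 2)) =
        (0.75 * (1 - 0) ^ 2 * -log (1 - (u * δ) ^ 2 / (1 - 0 ^ 2))) / u ^ 2 := by
      ring
    rw [e2, div_le_iff₀ (by positivity)]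
    calc _ ≤ _ := hM2
      _ = _ := by field_simp

end ray

end Crest.Agent.H28
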