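import Crest.Agent.H28.OneVar4

set_option autoImplicit false

namespace Crest.Agent.H28

open Real Set

/-! ### the inverse of `psi` on `[0,b]`, extended by clamping -/

section
variable {b : ℝ}

lemma exists_Rinv (hb0 : 0 < b) (j : ℝ) :
    ∃ r ∈ Icc 0 b, psi r = max 0 (min j (psi b)) := by
  have hmem : max 0 (min j (psi b)) ∈ Icc (psi 0) (psi b) := by
    rw [psi_zero]
    constructor
    · exact le_max_left _ _
    · apply max_le _ (min_le_right _ _)
      rcases le_total b 1 with h | h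
      · rcases eq_or_lt_of_le h with h | h
        · rw [h, psi_one]; exact (by linarith [L_gt] : (0:ℝ) ≤ log 2)
        · exact psi_nonneg hb0.le h
      · unfold psi
        have h1 : 0 ≤ log (1 + b) := Real.log_nonneg (by linarith)
        have h2 : 0 ≤ (1 + b) * log (1 + b) + (1 - b) * log (1 - b) := by
          rw [← Real.log_neg_eq_log (1 - b)]
          have h3 : log (-(1 - b)) ≤ log (1 + b) := by
            rcases eq_or_lt_of_le h with h' | h'
            · subst h'; simp; exact h1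
            · exact Real.log_le_log (by linarith) (by linarith)
          nlinarith
        linarith
  have := intermediate_value_Icc hb0.le (continuous_psi.continuousOn (s := Icc 0 b))
  obtain ⟨r, hr, hr2⟩ := this hmem
  exact ⟨r, hr, hr2⟩

/-- the clamped inverse of `psi` on `[0,b]` -/
noncomputable def Rinv (b : ℝ) (j : ℝ) : ℝ :=
  if h : 0 < b then (exists_Rinv h j).choose else 0

lemma Rinv_mem (hb0 : 0 < b) (j : ℝ) : Rinv b j ∈ Icc 0 b := by
  unfold Rinv; rw [dif_pos hb0]; exact (exists_Rinv hb0 j).choose_spec.1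

lemma psi_Rinv (hb0 : 0 < b) (j : ℝ) : psi (Rinv b j) = max 0 (min j (psi b)) := by
  unfold Rinv; rw [dif_pos hb0]; exact (exists_Rinv hb0 j).choose_spec.2

lemma Rinv_psi (hb0 : 0 < b) (hb1 : b < 1) {r : ℝ} (h0 : 0 ≤ r) (h1 : r ≤ b) :
    Rinv b (psi r) = r := by
  have e := psi_Rinv hb0 (psi r)
  have m := Rinv_mem hb0 (psi r)
  rw [min_eq_left (psi_mono h0 hb1 h1), max_eq_right (psi_nonneg h0 (lt_of_le_of_lt h1 hb1))] at e
  exact psi_monotoneOn.injOn ⟨m.1, lt_of_le_of_lt m.2 hb1⟩ ⟨h0, lt_of_le_of_lt h1 hb1⟩ e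

lemma Rinv_mono (hb0 : 0 < b) (hb1 : b < 1) : Monotone (Rinv b) := by
  intro i j hij
  have mi := Rinv_mem hb0 i
  have mj := Rinv_mem hb0 j
  have ei := psi_Rinv hb0 i
  have ej := psi_Rinv hb0 j
  have : psi (Rinv b i) ≤ psi (Rinv b j) := by
    rw [ei, ej]; exact max_le_max le_rfl (min_le_min hij le_rfl)
  exact (psi_monotoneOn.le_iff_le ⟨mi.1, lt_of_le_of_lt mi.2 hb1⟩
    ⟨mj.1, lt_of_le_of_lt mj.2 hb1⟩).1 this

lemma Rinv_of_nonpos (hb0 : 0 < b) (hb1 : b < 1) {j : ℝ} (h : j ≤ 0) : Rinv b j = 0 := by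
  have e := psi_Rinv hb0 j
  have m := Rinv_mem hb0 j
  rw [max_eq_left ((min_le_left _ _).trans h), ← psi_zero] at e
  exact psi_monotoneOn.injOn ⟨m.1, lt_of_le_of_lt m.2 hb1⟩ ⟨le_rfl, by norm_num⟩ e

lemma Rinv_of_ge (hb0 : 0 < b) (hb1 : b < 1) {j : ℝ} (h : psi b ≤ j) : Rinv b j = b := by
  have e := psi_Rinv hb0 j
  have m := Rinv_mem hb0 j
  rw [min_eq_right h, max_eq_right (psi_nonneg hb0.le hb1)] at e
  exact psi_monotoneOn.injOn ⟨m.1, lt_of_le_of_lt m.2 hb1⟩ ⟨hb0.le, hb1⟩ e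

lemma continuous_Rinv (hb0 : 0 < b) (hb1 : b < 1) : Continuous (Rinv b) := by
  let f : ℝ → Icc (0:ℝ) b := fun j => ⟨Rinv b j, Rinv_mem hb0 j⟩
  have hf : Continuous f := by
    apply Monotone.continuous_of_surjective
    · intro i j hij
      exact Rinv_mono hb0 hb1 hij
    · intro ⟨r, hr⟩
      exact ⟨psi r, Subtype.ext (Rinv_psi hb0 hb1 hr.1 hr.2)⟩
  exact continuous_subtype_val.comp hf

/-! ### truncated surplus -/

/-- derivative of the truncated surplus -/
noncomputable def sg (b : ℝ) (j : ℝ) : ℝ := sr (Rinv b j)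

/-- the truncated surplus function -/
noncomputable def SS (b : ℝ) (j : ℝ) : ℝ := ∫ t in (0:ℝ)..j, sg b t

lemma continuous_sg (hb0 : 0 < b) (hb1 : b < 1) : Continuous (sg b) := by
  apply continuousOn_sr.comp_continuous (continuous_Rinv hb0 hb1)
  intro j
  have := Rinv_mem hb0 j
  exact ⟨this.1, lt_of_le_of_lt this.2 hb1⟩

lemma sg_nonneg (hb0 : 0 < b) (hb1 : b < 1) (j : ℝ) : 0 ≤ sg b j := by
  have := Rinv_mem hb0 j
  exact sr_nonneg this.1 (lt_of_le_of_lt this.2 hb1)

lemma sg_mono (hb0 : 0 < b) (hb1 : b < 1) : Monotone (sg b) := by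
  intro i j hij
  have mi := Rinv_mem hb0 i
  have mj := Rinv_mem hb0 j
  exact sr_mono' mi.1 (lt_of_le_of_lt mj.2 hb1) (Rinv_mono hb0 hb1 hij)

lemma sg_psi (hb0 : 0 < b) (hb1 : b < 1) {r : ℝ} (h0 : 0 ≤ r) (h1 : r ≤ b) :
    sg b (psi r) = sr r := by
  unfold sg; rw [Rinv_psi hb0 hb1 h0 h1]

lemma sg_of_nonpos (hb0 : 0 < b) (hb1 : b < 1) {j : ℝ} (h : j ≤ 0) : sg b j = 0 := by
  unfold sg; rw [Rinv_of_nonpos hb0 hb1 h, sr_zero]

lemma sg_of_ge (hb0 : 0 < b) (hb1 : b < 1) {j : ℝ} (h : psi b ≤ j) : sg b j = sr b := by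
  unfold sg; rw [Rinv_of_ge hb0 hb1 h]

lemma hasDerivAt_SS (hb0 : 0 < b) (hb1 : b < 1) (j : ℝ) : HasDerivAt (SS b) (sg b j) j := by
  have hc := continuous_sg hb0 hb1
  exact intervalIntegral.integral_hasDerivAt_right (hc.intervalIntegrable _ _)
    (hc.stronglyMeasurableAtFilter _ _) hc.continuousAt

lemma SS_zero : SS b 0 = 0 := by unfold SS; simp

lemma continuous_SS (hb0 : 0 < b) (hb1 : b < 1) : Continuous (SS b) :=
  continuous_iff_continuousAt.2 fun j => (hasDerivAt_SS hb0 hb1 j).continuousAt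

lemma SS_mono (hb0 : 0 < b) (hb1 : b < 1) : Monotone (SS b) := by
  apply monotone_of_deriv_nonneg (fun j => (hasDerivAt_SS hb0 hb1 j).differentiableAt)
  intro j
  rw [(hasDerivAt_SS hb0 hb1 j).deriv]
  exact sg_nonneg hb0 hb1 j

lemma SS_convex (hb0 : 0 < b) (hb1 : b < 1) : ConvexOn ℝ univ (SS b) := by
  apply MonotoneOn.convexOn_of_deriv convex_univ (continuous_SS hb0 hb1).continuousOn
  · exact fun j _ => (hasDerivAt_SS hb0 hb1 j).differentiableAt.differentiableWithinAt
  · rw [interior_univ]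
    intro i _ j _ hij
    rw [(hasDerivAt_SS hb0 hb1 i).deriv, (hasDerivAt_SS hb0 hb1 j).deriv]
    exact sg_mono hb0 hb1 hij

/-- tangent inequality -/
lemma SS_tangent (hb0 : 0 < b) (hb1 : b < 1) (i j : ℝ) :
    SS b i + sg b i * (j - i) ≤ SS b j := by
  have hcv := SS_convex hb0 hb1
  rcases lt_trichotomy i j with h | h | h
  · have := hcv.le_slope_of_hasDerivAt (mem_univ i) (mem_univ j) h (hasDerivAt_SS hb0 hb1 i)
    rw [slope_def_field, le_div_iff₀ (by linarith)] at this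
    linarith
  · subst h; simp
  · have := hcv.slope_le_of_hasDerivAt (mem_univ j) (mem_univ i) h (hasDerivAt_SS hb0 hb1 i)
    rw [slope_def_field, div_le_iff₀ (by linarith)] at this
    linarith

lemma SS_nonneg (hb0 : 0 < b) (hb1 : b < 1) (j : ℝ) : 0 ≤ SS b j := by
  have := SS_tangent hb0 hb1 0 j
  rw [SS_zero, sg_of_nonpos hb0 hb1 le_rfl] at this
  linarith

lemma SS_of_nonpos (hb0 : 0 < b) (hb1 : b < 1) {j : ℝ} (h : j ≤ 0) : SS b j = 0 := by
  apply le_antisymm _ (SS_nonneg hb0 hb1 j)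
  rw [← SS_zero (b := b)]
  exact SS_mono hb0 hb1 h

lemma SS_psi (hb0 : 0 < b) (hb1 : b < 1) {r : ℝ} (h0 : 0 ≤ r) (h1 : r ≤ b) :
    SS b (psi r) = Sr r := by
  have key : ∀ y ∈ Icc 0 b, HasDerivAt (fun u => SS b (psi u) - Sr u) 0 y := by
    intro y hy
    have hy1 := lt_of_le_of_lt hy.2 hb1
    have e1 := ((hasDerivAt_SS hb0 hb1 (psi y)).comp y
      (hasDerivAt_psi (by linarith [hy.1]) hy1)).fun_sub (hasDerivAt_Sr hy.1 hy1)
    refine e1.congr_deriv ?_
    rw [sg_psi hb0 hb1 hy.1 hy.2]; ring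
  have hcont : ContinuousOn (fun u => SS b (psi u) - Sr u) (Icc 0 r) := fun y hy =>
    (key y ⟨hy.1, hy.2.trans h1⟩).continuousAt.continuousWithinAt
  have hm : MonotoneOn (fun u => SS b (psi u) - Sr u) (Icc 0 r) := by
    apply monotoneOn_of_deriv_nonneg (convex_Icc _ _) hcont
    · intro y hy
      rw [interior_Icc] at hy
      exact (key y ⟨hy.1.le, hy.2.le.trans h1⟩).differentiableAt.differentiableWithinAt
    · intro y hy
      rw [interior_Icc] at hy
      rw [(key y ⟨hy.1.le, hy.2.le.trans h1⟩).deriv]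
  have ha : AntitoneOn (fun u => SS b (psi u) - Sr u) (Icc 0 r) := by
    apply antitoneOn_of_deriv_nonpos (convex_Icc _ _) hcont
    · intro y hy
      rw [interior_Icc] at hy
      exact (key y ⟨hy.1.le, hy.2.le.trans h1⟩).differentiableAt.differentiableWithinAt
    · intro y hy
      rw [interior_Icc] at hy
      rw [(key y ⟨hy.1.le, hy.2.le.trans h1⟩).deriv]
  have e1 := hm ⟨le_rfl, h0⟩ ⟨h0, le_rfl⟩ h0
  have e2 := ha ⟨le_rfl, h0⟩ ⟨h0, le_rfl⟩ h0
  simp only [psi_zero, SS_zero, Sr_zero] at e1 e2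
  linarith

lemma SS_of_ge (hb0 : 0 < b) (hb1 : b < 1) {j : ℝ} (h : psi b ≤ j) :
    SS b j = Sr b + sr b * (j - psi b) := by
  have t1 := SS_tangent hb0 hb1 (psi b) j
  have t2 := SS_tangent hb0 hb1 j (psi b)
  rw [SS_psi hb0 hb1 hb0.le le_rfl, sg_psi hb0 hb1 hb0.le le_rfl] at t1
  rw [SS_psi hb0 hb1 hb0.le le_rfl, sg_of_ge hb0 hb1 h] at t2
  linarith

lemma SS_psi_le (hb0 : 0 < b) (hb1 : b < 1) {r : ℝ} (h0 : 0 ≤ r) (h1 : r < 1) :
    SS b (psi r) ≤ Sr r := by
  rcases le_total r b with h | h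
  · rw [SS_psi hb0 hb1 h0 h]
  · rw [SS_of_ge hb0 hb1 (psi_mono hb0.le h1 h)]
    exact Sr_tangent h0 h1 hb0.le hb1

/-- lower bound by tangent lines in the `r` parameter, `r ≤ b` -/
lemma SS_ge_tangent (hb0 : 0 < b) (hb1 : b < 1) {r : ℝ} (h0 : 0 ≤ r) (h1 : r ≤ b) (j : ℝ) :
    Sr r + sr r * (j - psi r) ≤ SS b j := by
  have := SS_tangent hb0 hb1 (psi r) j
  rwa [SS_psi hb0 hb1 h0 h1, sg_psi hb0 hb1 h0 h1] at this

/-! ### the functional `(λ - j) σ(j) + S(j)` -/

/-- `Φ_λ(j) = (λ - j) σ(j) + S(j)` -/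
noncomputable def Phi (b lam j : ℝ) : ℝ := (lam - j) * sg b j + SS b j

lemma hasDerivAt_Phi_psi (hb0 : 0 < b) (hb1 : b < 1) (lam : ℝ) {r : ℝ} (h0 : 0 < r) (h1 : r < b) :
    HasDerivAt (fun u => Phi b lam (psi u)) ((lam - psi r) * sr' r) r := by
  have e1 : HasDerivAt (fun u => (lam - psi u) * sr u + Sr u) ((lam - psi r) * sr' r) r := by
    have hr1 := h1.trans hb1
    have := ((((hasDerivAt_psi (by linarith) hr1).const_sub lam).fun_mul
      (hasDerivAt_sr h0 hr1)).fun_add (hasDerivAt_Sr h0.le hr1))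
    refine this.congr_deriv ?_
    ring
  refine e1.congr_of_eventuallyEq ?_
  filter_upwards [Ioo_mem_nhds h0 h1] with u hu
  unfold Phi
  rw [sg_psi hb0 hb1 hu.1.le hu.2.le, SS_psi hb0 hb1 hu.1.le hu.2.le]

lemma continuous_Phi (hb0 : 0 < b) (hb1 : b < 1) (lam : ℝ) : Continuous (Phi b lam) := by
  unfold Phi
  exact ((continuous_const.sub continuous_id).mul (continuous_sg hb0 hb1)).add
    (continuous_SS hb0 hb1)

lemma Phi_of_ge (hb0 : 0 < b) (hb1 : b < 1) (lam : ℝ) {j : ℝ} (h : psi b ≤ j) :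
    Phi b lam j = Phi b lam (psi b) := by
  unfold Phi
  rw [sg_of_ge hb0 hb1 h, SS_of_ge hb0 hb1 h, sg_of_ge hb0 hb1 le_rfl, SS_of_ge hb0 hb1 le_rfl]
  ring

lemma Phi_of_nonpos (hb0 : 0 < b) (hb1 : b < 1) (lam : ℝ) {j : ℝ} (h : j ≤ 0) :
    Phi b lam j = 0 := by
  unfold Phi
  rw [sg_of_nonpos hb0 hb1 h, SS_of_nonpos hb0 hb1 h]
  ring

/-- upper bound for increments of `Phi` -/
lemma Phi_increment (hb0 : 0 < b) (hb1 : b < 1) {lam U : ℝ} (hU : 0 ≤ U)
    (H : ∀ r ∈ Ioo 0 b, (lam - psi r) * k2 r ≤ U) {J I : ℝ} (hJ : 0 ≤ J) (hJI : J ≤ I) :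
    Phi b lam I - Phi b lam J ≤ U * (I - J) := by
  have hanti : AntitoneOn (fun u => Phi b lam (psi u) - U * psi u) (Icc 0 b) := by
    apply antitoneOn_of_deriv_nonpos (convex_Icc _ _)
    · exact (((continuous_Phi hb0 hb1 lam).comp continuous_psi).sub
        (continuous_const.mul continuous_psi)).continuousOn
    · intro r hr
      rw [interior_Icc] at hr
      exact ((hasDerivAt_Phi_psi hb0 hb1 lam hr.1 hr.2).fun_sub
        ((hasDerivAt_psi (by linarith [hr.1]) (hr.2.trans hb1)).const_mul U)).differentiableAt.differentiableWithinAt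
    · intro r hr
      rw [interior_Icc] at hr
      rw [((hasDerivAt_Phi_psi hb0 hb1 lam hr.1 hr.2).fun_sub
        ((hasDerivAt_psi (by linarith [hr.1]) (hr.2.trans hb1)).const_mul U)).deriv]
      rw [sr'_eq_k2 hr.1 (hr.2.trans hb1)]
      have t := th_nonneg hr.1.le (hr.2.trans hb1)
      have := mul_le_mul_of_nonneg_right (H r hr) t
      linarith
  -- G(j) = Phi j - U j is antitone on [0,∞)
  have hG1 : ∀ i j, 0 ≤ i → i ≤ j → j ≤ psi b → Phi b lam j - U * j ≤ Phi b lam i - U * i := by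
    intro i j hi hij hj
    have ei : psi (Rinv b i) = i := by
      rw [psi_Rinv hb0, min_eq_left (hij.trans hj), max_eq_right hi]
    have ej : psi (Rinv b j) = j := by
      rw [psi_Rinv hb0, min_eq_left hj, max_eq_right (hi.trans hij)]
    have := hanti (Rinv_mem hb0 i) (Rinv_mem hb0 j) (Rinv_mono hb0 hb1 hij)
    simp only [ei, ej] at this
    exact this
  have hG : Phi b lam I - U * I ≤ Phi b lam J - U * J := by
    rcases le_total I (psi b) with h | h
    · exact hG1 J I hJ hJI h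
    · rcases le_total J (psi b) with h' | h'
      · have e1 := hG1 J (psi b) hJ h' le_rfl
        rw [Phi_of_ge hb0 hb1 lam h]
        have := mul_le_mul_of_nonneg_left h hU
        linarith
      · rw [Phi_of_ge hb0 hb1 lam h, Phi_of_ge hb0 hb1 lam h']
        have := mul_le_mul_of_nonneg_left hJI hU
        linarith
  linarith

lemma Phi_mono_L (hb0 : 0 < b) (hb1 : b < 1) {i j : ℝ} (hij : i ≤ j) :
    Phi b (log 2) i ≤ Phi b (log 2) j := by
  have hmono : MonotoneOn (fun u => Phi b (log 2) (psi u)) (Icc 0 b) := by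
    apply monotoneOn_of_deriv_nonneg (convex_Icc _ _)
    · exact ((continuous_Phi hb0 hb1 _).comp continuous_psi).continuousOn
    · intro r hr
      rw [interior_Icc] at hr
      exact (hasDerivAt_Phi_psi hb0 hb1 _ hr.1 hr.2).differentiableAt.differentiableWithinAt
    · intro r hr
      rw [interior_Icc] at hr
      rw [(hasDerivAt_Phi_psi hb0 hb1 _ hr.1 hr.2).deriv]
      have := hh_pos (by linarith [hr.1] : -1 < r) (hr.2.trans hb1)
      exact mul_nonneg this.le (sr'_nonneg hr.1.le (hr.2.trans hb1))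
  have hcl : ∀ j, Phi b (log 2) j = Phi b (log 2) (psi (Rinv b j)) := by
    intro j
    rw [psi_Rinv hb0]
    rcases le_total j 0 with h | h
    · rw [Phi_of_nonpos hb0 hb1 _ h, max_eq_left ((min_le_left _ _).trans h),
        Phi_of_nonpos hb0 hb1 _ le_rfl]
    · rcases le_total j (psi b) with h' | h'
      · rw [min_eq_left h', max_eq_right h]
      · rw [min_eq_right h', max_eq_right (psi_nonneg hb0.le hb1), Phi_of_ge hb0 hb1 _ h']
  rw [hcl i, hcl j]
  exact hmono (Rinv_mem hb0 i) (Rinv_mem hb0 j) (Rinv_mono hb0 hb1 hij)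

lemma Phi_L_nonneg (hb0 : 0 < b) (hb1 : b < 1) (j : ℝ) : 0 ≤ Phi b (log 2) j := by
  rcases le_total j 0 with h | h
  · rw [Phi_of_nonpos hb0 hb1 _ h]
  · rw [← Phi_of_nonpos hb0 hb1 (log 2) le_rfl]; exact Phi_mono_L hb0 hb1 h

/-- increments of `c = Phi_{log 2}`: `c(j) - c(i) ≤ (3/4) log((L-i)/(L-j))` -/
lemma Phi_L_increment (hb0 : 0 < b) (hb1 : b < 1) {i j : ℝ} (hij : i ≤ j) (hj : j < log 2) :
    Phi b (log 2) j - Phi b (log 2) i ≤ 0.75 * (log (log 2 - i) - log (log 2 - j)) := by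
  -- monotonicity on [0,b]
  have hanti : AntitoneOn (fun u => Phi b (log 2) (psi u) + 0.75 * log (hh u)) (Icc 0 b) := by
    have key : ∀ r ∈ Ioo 0 b, HasDerivAt (fun u => Phi b (log 2) (psi u) + 0.75 * log (hh u))
        (hh r * sr' r + 0.75 * (- th r / hh r)) r := by
      intro r hr
      have hr1 := hr.2.trans hb1
      have hp := hh_pos (by linarith [hr.1] : -1 < r) hr1
      exact (hasDerivAt_Phi_psi hb0 hb1 _ hr.1 hr.2).fun_add
        (((hasDerivAt_hh (by linarith [hr.1]) hr1).log hp.ne').const_mul 0.75)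
    apply antitoneOn_of_deriv_nonpos (convex_Icc _ _)
    · apply ContinuousOn.add
      · exact ((continuous_Phi hb0 hb1 _).comp continuous_psi).continuousOn
      · apply ContinuousOn.mul continuousOn_const
        apply ContinuousOn.log continuous_hh.continuousOn
        intro r hr
        exact (hh_pos (by linarith [hr.1] : -1 < r) (lt_of_le_of_lt hr.2 hb1)).ne'
    · intro r hr
      rw [interior_Icc] at hr
      exact (key r hr).differentiableAt.differentiableWithinAt
    · intro r hr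
      rw [interior_Icc] at hr
      rw [(key r hr).deriv]
      have hr1 := hr.2.trans hb1
      have hp := hh_pos (by linarith [hr.1] : -1 < r) hr1
      have t := th_pos hr.1 hr1
      have bq := one_sub_sq_pos (by linarith [hr.1] : -1 < r) hr1
      have hK := K hr.1 hr1
      have e : hh r * sr' r + 0.75 * (- th r / hh r) =
          (hh r ^ 2 * ((1 + r ^ 2) * th r - r) - 0.75 * (1 - r ^ 2) ^ 2 * th r ^ 3) /
            (hh r * (1 - r ^ 2) ^ 2 * th r ^ 2) := by
        unfold sr'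
        have := hp.ne'
        have := t.ne'
        have := bq.ne'
        field_simp
        ring
      rw [e]
      apply div_nonpos_of_nonpos_of_nonneg _ (by positivity)
      linarith
  have hstep : ∀ i j, 0 ≤ i → i ≤ j → j ≤ psi b →
      Phi b (log 2) j - Phi b (log 2) i ≤ 0.75 * (log (log 2 - i) - log (log 2 - j)) := by
    intro i j hi hij hj
    have ei : psi (Rinv b i) = i := by
      rw [psi_Rinv hb0, min_eq_left (hij.trans hj), max_eq_right hi]
    have ej : psi (Rinv b j) = j := by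
      rw [psi_Rinv hb0, min_eq_left hj, max_eq_right (hi.trans hij)]
    have := hanti (Rinv_mem hb0 i) (Rinv_mem hb0 j) (Rinv_mono hb0 hb1 hij)
    simp only [ei, ej, hh] at this
    linarith
  -- general
  have hLb : psi b < log 2 := psi_lt_log_two hb0.le hb1
  have hstep2 : ∀ i, 0 ≤ i → i ≤ j →
      Phi b (log 2) j - Phi b (log 2) i ≤ 0.75 * (log (log 2 - i) - log (log 2 - j)) := by
    intro i hi hij
    rcases le_total j (psi b) with h | h
    · exact hstep i j hi hij h
    · have hlogj : log (log 2 - j) ≤ log (log 2 - psi b) :=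
        Real.log_le_log (by linarith) (by linarith)
      rcases le_total i (psi b) with h' | h'
      · have e1 := hstep i (psi b) hi h' le_rfl
        rw [Phi_of_ge hb0 hb1 _ h]
        linarith
      · rw [Phi_of_ge hb0 hb1 _ h, Phi_of_ge hb0 hb1 _ h']
        have : log (log 2 - j) ≤ log (log 2 - i) := Real.log_le_log (by linarith) (by linarith)
        linarith
  rcases le_total 0 i with h | h
  · exact hstep2 i h hij
  · rcases le_total 0 j with h' | h'
    · have e1 := hstep2 0 le_rfl h'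
      rw [Phi_of_nonpos hb0 hb1 _ h]
      rw [Phi_of_nonpos hb0 hb1 _ le_rfl] at e1
      have : log (log 2 - 0) ≤ log (log 2 - i) :=
        Real.log_le_log (by linarith [L_gt]) (by linarith)
      linarith
    · rw [Phi_of_nonpos hb0 hb1 _ h, Phi_of_nonpos hb0 hb1 _ h']
      have : log (log 2 - j) ≤ log (log 2 - i) := Real.log_le_log (by linarith) (by linarith)
      linarith

end

end Crest.Agent.H28
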