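import Crest.Agent.H28.Cert4

set_option autoImplicit false

namespace Crest.Agent.H28

open Real Set

/-- `e` dominates every affine certificate at `(m,δ,A)` -/
def Dom (m δ A e : ℝ) : Prop :=
  ∀ μ c0 c1 c2 : ℝ, (∀ x y, -1 < x → x < 1 → -1 < y → y < 1 →
      c0 + c1 * x + c2 * y ≤ ee x y + μ * ((hh x + hh y) / 2)) →
    c0 + c1 * (m + δ) + c2 * (m - δ) ≤ e + μ * A

lemma ee_nonneg {x y : ℝ} (hx0 : -1 < x) (hx1 : x < 1) (hy0 : -1 < y) (hy1 : y < 1) :
    0 ≤ ee x y := by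
  unfold ee
  rcases le_total x y with h | h
  · have := th_mono hx0 hy1 h
    have : 0 ≤ (x - y) * (th x - th y) := mul_nonneg_of_nonpos_of_nonpos (by linarith) (by linarith)
    positivity
  · have := th_mono hy0 hx1 h
    have : 0 ≤ (x - y) * (th x - th y) := mul_nonneg (by linarith) (by linarith)
    positivity

lemma ee_symm (x y : ℝ) : ee x y = ee y x := by unfold ee; ring

lemma ee_neg (x y : ℝ) : ee (-x) (-y) = ee x y := by unfold ee; rw [th_neg, th_neg]; ring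

lemma Dom.nonneg {m δ A e : ℝ} (h : Dom m δ A e) : 0 ≤ e := by
  have := h 0 0 0 0 (fun x y hx0 hx1 hy0 hy1 => by
    have := ee_nonneg hx0 hx1 hy0 hy1
    linarith)
  linarith

lemma Dom.swap {m δ A e : ℝ} (h : Dom m δ A e) : Dom m (-δ) A e := by
  intro μ c0 c1 c2 hc
  have := h μ c0 c2 c1 (fun x y hx0 hx1 hy0 hy1 => by
    have := hc y x hy0 hy1 hx0 hx1
    rw [ee_symm]
    linarith)
  linarith

lemma Dom.neg {m δ A e : ℝ} (h : Dom m δ A e) : Dom (-m) δ A e := by
  intro μ c0 c1 c2 hc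
  have := h μ c0 (-c2) (-c1) (fun x y hx0 hx1 hy0 hy1 => by
    have := hc (-y) (-x) (by linarith) (by linarith) (by linarith) (by linarith)
    rw [ee_neg, ee_symm, hh_neg, hh_neg] at this
    linarith)
  linarith

lemma dom_use {m δ A e w a b : ℝ} (hD : Dom m δ A e) (hb : -1 < b) (hab : b < a) (ha : a < 1)
    (hs : 0 ≤ a + b) (h1 : (m + δ = 1 - w * (1 - a) ∧ m - δ = 1 - w * (1 - b)) ∨
      (a + b = 0 ∧ δ = w * a))
    (hA : A = w * ((hh a + hh b) / 2)) : w * ee a b ≤ e := by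
  obtain ⟨μ, P1, P2, hall, heq, hz⟩ := exists_cert hb hab ha hs
  have := hD μ (P1 + P2) (-P1) (-P2) (fun x y hx0 hx1 hy0 hy1 => by
    have := hall x y hx0 hx1 hy0 hy1
    linarith)
  rcases h1 with ⟨h2, h3⟩ | ⟨h2, h3⟩
  · rw [h2, h3, hA] at this
    have h4 : w * (P1 * (1 - a) + P2 * (1 - b)) = w * (ee a b + μ * ((hh a + hh b) / 2)) := by
      rw [heq]
    linarith
  · have hP := hz h2
    have hb' : b = -a := by linarith
    subst hb'
    have h5 : P2 = -P1 := by linarith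
    rw [h5] at this heq
    have h4 : w * (P1 * (1 - a) + -P1 * (1 - -a)) = w * (ee a (-a) + μ * ((hh a + hh (-a)) / 2)) := by
      rw [heq]
    rw [h3, hA] at this
    linarith

/-- the abstract two-point inequality -/
theorem twopoint_abs {B : ℝ → ℝ → ℝ → ℝ}
    (hr : ∀ m δ A w : ℝ, 0 ≤ m → 0 ≤ δ → δ < 1 - m → 0 < A →
      A ≤ (hh (m + δ) + hh (m - δ)) / 2 → 0 < w → w ≤ 1 →
      B (1 - w * (1 - m)) (w * δ) (w * A) ≤ w * B m δ A)
    (hs : ∀ δ A w : ℝ, 0 ≤ δ → δ < 1 → 0 < A → A ≤ hh δ → 0 < w → w ≤ 1 →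
      B 0 (w * δ) (w * A) ≤ w * B 0 δ A)
    (hn : ∀ m δ : ℝ, 0 ≤ m → 0 ≤ δ → δ < 1 - m →
      B m δ ((hh (m + δ) + hh (m - δ)) / 2) ≤ ee (m + δ) (m - δ))
    {m δ A e : ℝ} (hm0 : 0 ≤ m) (hδ0 : 0 < δ) (hδ1 : δ < 1 - m) (hA0 : 0 < A)
    (hA1 : A ≤ (hh (m + δ) + hh (m - δ)) / 2) (hD : Dom m δ A e) : B m δ A ≤ e := by
  have hm1 : m < 1 := by linarith
  have hw0 : 0 < 1 - m := by linarith
  rcases le_or_gt ((1 - m) * hh (δ / (1 - m))) A with hle | hgt
  · -- E2
    have hcont : ContinuousOn (fun w : ℝ => w * ((hh (1 - (1 - m) / w + δ / w) +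
        hh (1 - (1 - m) / w - δ / w)) / 2)) (Icc (1 - m) 1) := by
      apply ContinuousOn.mul continuousOn_id
      apply ContinuousOn.div_const
      have hd : ∀ c : ℝ, ContinuousOn (fun w : ℝ => c / w) (Icc (1 - m) 1) := fun c =>
        continuousOn_const.div continuousOn_id (fun w hw => by
          have := hw0.trans_le hw.1
          exact this.ne')
      apply ContinuousOn.add
      · exact continuous_hh.comp_continuousOn ((continuousOn_const.sub (hd _)).add (hd _))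
      · exact continuous_hh.comp_continuousOn ((continuousOn_const.sub (hd _)).sub (hd _))
    have hivt := intermediate_value_Icc (by linarith : 1 - m ≤ 1) hcont
    have h1m : (1 - m) * ((hh (1 - (1 - m) / (1 - m) + δ / (1 - m)) +
        hh (1 - (1 - m) / (1 - m) - δ / (1 - m))) / 2) = (1 - m) * hh (δ / (1 - m)) := by
      rw [div_self hw0.ne', sub_self, zero_add, zero_sub, hh_neg]; ring
    have h11 : (1:ℝ) * ((hh (1 - (1 - m) / 1 + δ / 1) +
        hh (1 - (1 - m) / 1 - δ / 1)) / 2) = (hh (m + δ) + hh (m - δ)) / 2 := by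
      rw [div_one, div_one, one_mul, sub_sub_cancel]
    obtain ⟨w, hw, hwA⟩ := hivt (show A ∈ Icc _ _ by
      refine ⟨?_, ?_⟩
      · show (1 - m) * ((hh (1 - (1 - m) / (1 - m) + δ / (1 - m)) +
          hh (1 - (1 - m) / (1 - m) - δ / (1 - m))) / 2) ≤ A
        rw [h1m]; exact hle
      · show A ≤ (1:ℝ) * ((hh (1 - (1 - m) / 1 + δ / 1) + hh (1 - (1 - m) / 1 - δ / 1)) / 2)
        rw [h11]; exact hA1)
    simp only at hwA
    have hwpos : 0 < w := hw0.trans_le hw.1
    set m1 := 1 - (1 - m) / w with hm1d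
    set δ1 := δ / w with hδ1d
    have em : 1 - w * (1 - m1) = m := by rw [hm1d]; field_simp; ring
    have ed : w * δ1 = δ := by rw [hδ1d]; field_simp
    have hm1n : 0 ≤ m1 := by
      rw [hm1d, sub_nonneg, div_le_one hwpos]; exact hw.1
    have hδ1n : 0 < δ1 := div_pos hδ0 hwpos
    have hδ1l : δ1 < 1 - m1 := by
      have : w * δ1 < w * (1 - m1) := by rw [ed]; linarith [em]
      exact lt_of_mul_lt_mul_left this hwpos.le
    have hAmax : 0 < (hh (m1 + δ1) + hh (m1 - δ1)) / 2 := by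
      have := hh_pos (by linarith : -1 < m1 + δ1) (by linarith)
      have := hh_pos (by linarith : -1 < m1 - δ1) (by linarith)
      linarith
    have h2 := hr m1 δ1 _ w hm1n hδ1n.le hδ1l hAmax le_rfl hwpos hw.2
    rw [em, ed, hwA] at h2
    have h3 := hn m1 δ1 hm1n hδ1n.le hδ1l
    have h4 := mul_le_mul_of_nonneg_left h3 hwpos.le
    have h5 := dom_use (w := w) (a := m1 + δ1) (b := m1 - δ1) hD (by linarith) (by linarith)
      (by linarith) (by linarith) (Or.inl ⟨by rw [← em, ← ed]; ring, by rw [← em, ← ed]; ring⟩)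
      hwA.symm
    linarith
  · -- E1
    have hcont : ContinuousOn (fun w : ℝ => w * hh (δ / w)) (Icc δ (1 - m)) := by
      apply ContinuousOn.mul continuousOn_id
      apply continuous_hh.comp_continuousOn
      exact continuousOn_const.div continuousOn_id (fun w hw => (hδ0.trans_le hw.1).ne')
    have hivt := intermediate_value_Icc hδ1.le hcont
    obtain ⟨w, hw, hwA⟩ := hivt (show A ∈ Icc _ _ by
      refine ⟨?_, hgt.le⟩
      show δ * hh (δ / δ) ≤ A
      rw [div_self hδ0.ne', hh_one]; linarith)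
    simp only at hwA
    have hwpos : 0 < w := hδ0.trans_le hw.1
    have hwδ : δ < w := by
      rcases eq_or_lt_of_le hw.1 with h | h
      · rw [← h, div_self hδ0.ne', hh_one] at hwA; linarith
      · exact h
    set a := δ / w with had
    have ha0 : 0 < a := div_pos hδ0 hwpos
    have ha1 : a < 1 := by rw [had, div_lt_one hwpos]; exact hwδ
    have ewa : w * a = δ := by rw [had]; field_simp
    -- ray to m = 0
    set δ' := δ / (1 - m) with hδ'
    set A' := A / (1 - m) with hA'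
    have hδ'0 : 0 < δ' := div_pos hδ0 hw0
    have hδ'1 : δ' < 1 := by rw [hδ', div_lt_one hw0]; exact hδ1
    have hA'0 : 0 < A' := div_pos hA0 hw0
    have hA'1 : A' ≤ hh δ' := by rw [hA', div_le_iff₀ hw0]; linarith
    have h2 := hr 0 δ' A' (1 - m) le_rfl hδ'0.le (by linarith) hA'0 (by
      rw [zero_add, zero_sub, hh_neg]; linarith) hw0 (by linarith)
    have e1 : 1 - (1 - m) * (1 - 0) = m := by ring
    have e2 : (1 - m) * δ' = δ := by rw [hδ']; field_simp
    have e3 : (1 - m) * A' = A := by rw [hA']; field_simp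
    rw [e1, e2, e3] at h2
    -- symmetric stage
    have hw'' : w / (1 - m) ≤ 1 := by rw [div_le_one hw0]; exact hw.2
    have hw''0 : 0 < w / (1 - m) := div_pos hwpos hw0
    have hha : 0 < hh a := hh_pos (by linarith) ha1
    have h3 := hs a (hh a) (w / (1 - m)) ha0.le ha1 hha le_rfl hw''0 hw''
    have e4 : w / (1 - m) * a = δ' := by rw [hδ', ← ewa]; ring
    have e5 : w / (1 - m) * hh a = A' := by rw [hA', ← hwA]; ring
    rw [e4, e5] at h3
    have h4 := hn 0 a le_rfl ha0.le (by linarith)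
    rw [zero_add, zero_sub, hh_neg] at h4
    have e6 : (hh a + hh a) / 2 = hh a := by ring
    rw [e6] at h4
    have h5 := dom_use (w := w) (a := a) (b := -a) hD (by linarith) (by linarith) ha1
      (by linarith) (Or.inr ⟨by ring, ewa.symm⟩) (by rw [hh_neg, e6]; exact hwA.symm)
    have h6 : (1 - m) * B 0 δ' A' ≤ (1 - m) * (w / (1 - m) * B 0 a (hh a)) :=
      mul_le_mul_of_nonneg_left h3 hw0.le
    have h7 : (1 - m) * (w / (1 - m) * B 0 a (hh a)) = w * B 0 a (hh a) := by field_simp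
    have h8 := mul_le_mul_of_nonneg_left h4 hwpos.le
    linarith

lemma I2_neg_left (m δ : ℝ) : I2 (-m) δ = I2 m δ := by
  unfold I2
  have e1 : hh (-m + δ) = hh (m - δ) := by rw [← hh_neg]; congr 1; ring
  have e2 : hh (-m - δ) = hh (m + δ) := by rw [← hh_neg]; congr 1; ring
  rw [hh_neg, e1, e2]; ring

lemma I2_neg_right (m δ : ℝ) : I2 m (-δ) = I2 m δ := by
  unfold I2
  rw [sub_neg_eq_add, ← sub_eq_add_neg]; ring

lemma I2_zero_right (m : ℝ) : I2 m 0 = 0 := by unfold I2; rw [add_zero, sub_zero]; ring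

lemma B1_pos {m δ A e : ℝ} (hm0 : 0 ≤ m) (hδ0 : 0 ≤ δ) (hδ1 : δ < 1 - m) (hA0 : 0 < A)
    (hA1 : A ≤ (hh (m + δ) + hh (m - δ)) / 2) (hD : Dom m δ A e) : B1 m δ A ≤ e := by
  rcases eq_or_lt_of_le hδ0 with h | h
  · subst h
    unfold B1
    rw [I2_zero_right]
    have := hD.nonneg
    rw [sub_zero]; linarith
  · refine twopoint_abs (B := B1) ?_ ?_ ?_ hm0 h hδ1 hA0 hA1 hD
    · intro m δ A w h1 h2 h3 _ h4 h5 h6
      exact rayB1 h1 h2 h3 h4 h5 h6
    · intro δ A w h1 h2 _ h3 h4 h5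
      exact symB1 h1 h2 h3 h4 h5
    · intro m δ h1 h2 h3
      have := N1 bt_pos bt_lt_one h1 h2 h3
      unfold B1
      have e1 : hh m - (hh (m + δ) + hh (m - δ)) / 2 = I2 m δ := rfl
      rw [e1, sub_self, SS_zero]
      linarith

lemma B2_pos {b : ℝ} (hb0 : 0 < b) (hb1 : b < 1) {m δ A e : ℝ} (hm0 : 0 ≤ m) (hδ0 : 0 ≤ δ)
    (hδ1 : δ < 1 - m) (hA0 : 0 < A)
    (hA1 : A ≤ (hh (m + δ) + hh (m - δ)) / 2) (hD : Dom m δ A e) : B2 b m δ A ≤ e := by
  rcases eq_or_lt_of_le hδ0 with h | h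
  · subst h
    unfold B2
    rw [I2_zero_right]
    have := hD.nonneg
    have e1 : (1:ℝ) - m ^ 2 - 0 ^ 2 = 1 - m ^ 2 := by ring
    rw [e1]; linarith
  · refine twopoint_abs (B := B2 b) ?_ ?_ ?_ hm0 h hδ1 hA0 hA1 hD
    · intro m δ A w h1 h2 h3 h4 _ h5 h6
      exact rayB2 hb0 hb1 h1 h2 h3 h4 h5 h6
    · intro δ A w h1 h2 h3 _ h4 h5
      exact symB2 hb0 hb1 h1 h2 h3 h4 h5
    · intro m δ h1 h2 h3
      have h4 := N2 hb0 hb1 h1 h2 h3
      unfold B2
      have h5 : 0 ≤ tau b ((hh (m + δ) + hh (m - δ)) / 2) (1 - m ^ 2 - δ ^ 2) := by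
        unfold tau
        have := sq_lt_aux h1 h2 h3
        exact mul_nonneg (by linarith) (SS_nonneg hb0 hb1 _)
      linarith

/-- reduce to nonnegative parameters -/
lemma dom_abs {m δ A e : ℝ} (hD : Dom m δ A e) : Dom |m| |δ| A e := by
  rcases abs_choice m with h1 | h1 <;> rcases abs_choice δ with h2 | h2 <;> rw [h1, h2]
  · exact hD
  · exact hD.swap
  · exact hD.neg
  · exact hD.neg.swap

lemma abs_range {m δ : ℝ} (h1 : |m + δ| < 1) (h2 : |m - δ| < 1) : |δ| < 1 - |m| := by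
  rw [abs_lt] at h1 h2
  rcases abs_choice m with h3 | h3 <;> rcases abs_choice δ with h4 | h4 <;> rw [h3, h4] <;>
    linarith [h1.1, h1.2, h2.1, h2.2]

lemma hh_pair_abs (m δ : ℝ) : hh (|m| + |δ|) + hh (|m| - |δ|) = hh (m + δ) + hh (m - δ) := by
  have e1 : ∀ m δ : ℝ, hh (-m + δ) = hh (m - δ) := fun m δ => by
    rw [← hh_neg]; congr 1; ring
  have e2 : ∀ m δ : ℝ, hh (-m - δ) = hh (m + δ) := fun m δ => by
    rw [← hh_neg]; congr 1; ring
  rcases abs_choice m with h1 | h1 <;> rcases abs_choice δ with h2 | h2 <;> rw [h1, h2]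
  · rw [← sub_eq_add_neg, sub_neg_eq_add]; ring
  · rw [e1, e2]; ring
  · rw [← sub_eq_add_neg, sub_neg_eq_add, e1, e2]

lemma hh_abs (m : ℝ) : hh |m| = hh m := by
  rcases abs_choice m with h | h <;> rw [h]
  exact hh_neg m

/-- two-point inequality (1), all signs -/
theorem two_point1 {x y A e : ℝ} (hx : |x| < 1) (hy : |y| < 1) (hA0 : 0 < A)
    (hA1 : A ≤ (hh x + hh y) / 2) (hD : Dom ((x + y) / 2) ((x - y) / 2) A e) :
    2 * (hh ((x + y) / 2) - A) + SS bt (hh ((x + y) / 2) - A) ≤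
      e + (2 * ((hh x + hh y) / 2 - A) + SS bt ((hh x + hh y) / 2 - A)) := by
  set m := (x + y) / 2 with hm
  set δ := (x - y) / 2 with hδ
  have ex : m + δ = x := by rw [hm, hδ]; ring
  have ey : m - δ = y := by rw [hm, hδ]; ring
  have hr := abs_range (m := m) (δ := δ) (by rw [ex]; exact hx) (by rw [ey]; exact hy)
  have hp := hh_pair_abs m δ
  rw [ex, ey] at hp
  have key := B1_pos (abs_nonneg m) (abs_nonneg δ) hr hA0 (by rw [hp]; exact hA1) (dom_abs hD)
  unfold B1 I2 at key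
  rw [hp, hh_abs] at key
  have e1 : hh m - A - (hh m - (hh x + hh y) / 2) = (hh x + hh y) / 2 - A := by ring
  rw [e1] at key
  linarith

/-- two-point inequality (2), all signs -/
theorem two_point2 {b : ℝ} (hb0 : 0 < b) (hb1 : b < 1) {x y A e : ℝ} (hx : |x| < 1)
    (hy : |y| < 1) (hA0 : 0 < A)
    (hA1 : A ≤ (hh x + hh y) / 2) (hD : Dom ((x + y) / 2) ((x - y) / 2) A e) :
    2 * (hh ((x + y) / 2) - A) + tau b A (1 - ((x + y) / 2) ^ 2) ≤
      e + (2 * ((hh x + hh y) / 2 - A) + tau b A ((1 - x ^ 2 + (1 - y ^ 2)) / 2)) := by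
  set m := (x + y) / 2 with hm
  set δ := (x - y) / 2 with hδ
  have ex : m + δ = x := by rw [hm, hδ]; ring
  have ey : m - δ = y := by rw [hm, hδ]; ring
  have hr := abs_range (m := m) (δ := δ) (by rw [ex]; exact hx) (by rw [ey]; exact hy)
  have hp := hh_pair_abs m δ
  rw [ex, ey] at hp
  have key := B2_pos hb0 hb1 (abs_nonneg m) (abs_nonneg δ) hr hA0 (by rw [hp]; exact hA1)
    (dom_abs hD)
  unfold B2 I2 at key
  rw [hp, hh_abs, sq_abs, sq_abs] at key
  have e1 : 1 - m ^ 2 - δ ^ 2 = (1 - x ^ 2 + (1 - y ^ 2)) / 2 := by rw [hm, hδ]; ring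
  rw [e1] at key
  linarith

end Crest.Agent.H28
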